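/-
P159, T1, module B4-AB: the bootstrap in the slope (clamps), abstract form, helper857.

`P f x` stands for `P_f^{x2}(O_x^+)`.  Distances are in lattice units.
-/
import Mathlib

open Set Filter Topology

namespace Vale.Agent.P159.TM.H857

/-- Connectedness/compactness argument. -/
theorem boot_compact {X : Type*} [TopologicalSpace X] [CompactSpace X] (p : ℝ → X → ℝ)
    (hp : Continuous fun q : ℝ × X => p q.1 q.2) {a b : ℝ} (hab : a < b)
    (h0 : ∀ y, b ≤ p 0 y)
    (hstep : ∀ t ∈ Icc (0 : ℝ) 1, (∀ y, a ≤ p t y) → ∀ y, b ≤ p t y) :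
    ∀ t ∈ Icc (0 : ℝ) 1, ∀ y, b ≤ p t y := by
  set s : Set ℝ := {t | ∀ y, b ≤ p t y} with hs
  have hcl : IsClosed s := by
    have : s = ⋂ y, {t | b ≤ p t y} := by
      ext t; simp [hs]
    rw [this]
    refine isClosed_iInter fun y => ?_
    exact isClosed_le continuous_const (hp.comp (Continuous.prodMk_left y))
  have hopen : IsOpen {t : ℝ | ∀ y, a < p t y} := by
    have h1 : IsOpen {q : ℝ × X | a < p q.1 q.2} := isOpen_lt continuous_const hp
    rw [isOpen_iff_mem_nhds]
    intro t ht
    have h2 : ({t} : Set ℝ) ×ˢ (univ : Set X) ⊆ {q : ℝ × X | a < p q.1 q.2} := by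
      rintro ⟨t', y⟩ ⟨h3, -⟩
      have : t' = t := h3
      subst this
      exact ht y
    obtain ⟨u, v, hu, hv, htu, hvX, huv⟩ :=
      generalized_tube_lemma isCompact_singleton isCompact_univ h1 h2
    refine Filter.mem_of_superset (hu.mem_nhds (htu rfl)) ?_
    intro t' ht' y
    exact huv (mk_mem_prod ht' (hvX (mem_univ y)))
  have hsub : Icc (0 : ℝ) 1 ⊆ s := by
    refine IsClosed.Icc_subset_of_forall_mem_nhdsWithin (hcl.inter isClosed_Icc) h0 ?_
    rintro t ⟨ht, ht0, ht1⟩
    have h3 : {t : ℝ | ∀ y, a < p t y} ∈ 𝓝 t :=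
      hopen.mem_nhds (fun y => lt_of_lt_of_le hab (ht y))
    have h4 : Iic (1 : ℝ) ∈ 𝓝 t := Iic_mem_nhds ht1
    have h5 : Ioi t ∈ 𝓝[>] t := self_mem_nhdsWithin
    filter_upwards [mem_nhdsWithin_of_mem_nhds h3, mem_nhdsWithin_of_mem_nhds h4, h5]
      with t' h6 h7 h8
    exact hstep t' ⟨ht0.trans (le_of_lt h8), h7⟩ (fun y => (h6 y).le)
  exact fun t ht => hsub ht

section

variable {V : Type*} (d : V → V → ℝ)

/-- `f` is `l`-Lipschitz for `d`. -/
def Lip (l : ℝ) (f : V → ℝ) : Prop := ∀ z w, |f z - f w| ≤ l * d z w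

/-- The clamp of `f` at `x` with height `m`. -/
noncomputable def clamp (l : ℝ) (f : V → ℝ) (x : V) (m : ℝ) : V → ℝ := fun z =>
  max (f x - max 0 (m - l * d x z)) (min (f x + max 0 (m - l * d x z)) (f z))

variable {d}

theorem clamp_abs (l : ℝ) (f : V → ℝ) (x : V) (m : ℝ) (z : V) :
    |clamp d l f x m z - f x| ≤ max 0 (m - l * d x z) := by
  have h0 : 0 ≤ max 0 (m - l * d x z) := le_max_left _ _
  unfold clamp
  rw [abs_le]
  constructor
  · have := le_max_left (f x - max 0 (m - l * d x z)) (min (f x + max 0 (m - l * d x z)) (f z))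
    linarith
  · have : max (f x - max 0 (m - l * d x z)) (min (f x + max 0 (m - l * d x z)) (f z))
        ≤ f x + max 0 (m - l * d x z) := max_le (by linarith) (min_le_left _ _)
    linarith

theorem clamp_eq_of_le {l : ℝ} {f : V → ℝ} {x : V} {m : ℝ} {z : V}
    (h : |f z - f x| ≤ max 0 (m - l * d x z)) : clamp d l f x m z = f z := by
  unfold clamp
  have h1 := abs_le.1 h
  rw [min_eq_right (by linarith), max_eq_right (by linarith)]

theorem clamp_far {l : ℝ} {f : V → ℝ} {x : V} {m : ℝ} {z : V}
    (h : m ≤ l * d x z) : clamp d l f x m z = f x := by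
  have h1 := clamp_abs (d := d) l f x m z
  rw [max_eq_left (by linarith)] at h1
  have := abs_nonpos_iff.1 h1
  linarith

theorem clamp_near {l : ℝ} {f : V → ℝ} (hsymm : ∀ z w, d z w = d w z)
    (hf : Lip d l f) {x : V} {m : ℝ} {z : V}
    (h : 2 * (l * d x z) ≤ m) : clamp d l f x m z = f z := by
  apply clamp_eq_of_le
  have h1 := hf z x
  rw [hsymm z x] at h1
  exact h1.trans (le_max_of_le_right (by linarith))

theorem abs_max_sub_max {a b c e r : ℝ} (h1 : |a - b| ≤ r) (h2 : |c - e| ≤ r) :
    |max a c - max b e| ≤ r :=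
  (abs_max_sub_max_le_max a c b e).trans (max_le h1 h2)

theorem abs_min_sub_min {a b c e r : ℝ} (h1 : |a - b| ≤ r) (h2 : |c - e| ≤ r) :
    |min a c - min b e| ≤ r :=
  (abs_min_sub_min_le_max a c b e).trans (max_le h1 h2)

theorem clamp_lip {l : ℝ} (hl : 0 ≤ l) {f : V → ℝ} (hd0 : ∀ z w, 0 ≤ d z w)
    (hsymm : ∀ z w, d z w = d w z)
    (htri : ∀ x z w, d x w ≤ d x z + d z w) (hf : Lip d l f) (x : V) (m : ℝ) :
    Lip d l (clamp d l f x m) := by
  intro z w
  have hφ : |max 0 (m - l * d x z) - max 0 (m - l * d x w)| ≤ l * d z w := by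
    apply abs_max_sub_max
    · simpa using mul_nonneg hl (hd0 z w)
    · have h1 := htri x z w
      have h2 := htri x w z
      rw [hsymm w z] at h2
      have : m - l * d x z - (m - l * d x w) = l * (d x w - d x z) := by ring
      rw [this, abs_mul, abs_of_nonneg hl]
      exact mul_le_mul_of_nonneg_left (abs_le.2 ⟨by linarith, by linarith⟩) hl
  unfold clamp
  apply abs_max_sub_max
  · have : f x - max 0 (m - l * d x z) - (f x - max 0 (m - l * d x w))
        = -(max 0 (m - l * d x z) - max 0 (m - l * d x w)) := by ring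
    rw [this, abs_neg]
    exact hφ
  · apply abs_min_sub_min
    · have : f x + max 0 (m - l * d x z) - (f x + max 0 (m - l * d x w))
          = max 0 (m - l * d x z) - max 0 (m - l * d x w) := by ring
      rw [this]
      exact hφ
    · exact hf z w

theorem clamp_step {l : ℝ} {f : V → ℝ} (x : V) (m : ℝ) (z : V) :
    |clamp d l f x (m + 1) z - clamp d l f x m z| ≤ 1 := by
  have hφ : |max 0 (m + 1 - l * d x z) - max 0 (m - l * d x z)| ≤ 1 := by
    apply abs_max_sub_max
    · simp
    · have : m + 1 - l * d x z - (m - l * d x z) = 1 := by ring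
      rw [this]; simp
  unfold clamp
  apply abs_max_sub_max
  · have : f x - max 0 (m + 1 - l * d x z) - (f x - max 0 (m - l * d x z))
        = -(max 0 (m + 1 - l * d x z) - max 0 (m - l * d x z)) := by ring
    rw [this, abs_neg]
    exact hφ
  · apply abs_min_sub_min
    · have : f x + max 0 (m + 1 - l * d x z) - (f x + max 0 (m - l * d x z))
          = max 0 (m + 1 - l * d x z) - max 0 (m - l * d x z) := by ring
      rw [this]
      exact hφ
    · simp

/-- One bootstrap step: the lower bound `c₀/2` at slope `l` improves to `3c₀/4`. -/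
theorem boot_step [Finite V] (hd0 : ∀ z w, 0 ≤ d z w)
    (hsymm : ∀ z w, d z w = d w z) (htri : ∀ x z w, d x w ≤ d x z + d z w)
    (P : (V → ℝ) → V → ℝ) {l L c₀ C c m₀ : ℝ} (hl : 0 < l) (hlL : l ≤ L) (hc : 0 < c)
    (hC : 0 ≤ C) (hm₀ : 0 < m₀)
    (H1 : ∀ (f : V → ℝ) (x : V), Lip d l f → (∀ z, |f z - f x| ≤ m₀) →
      (∀ z, m₀ ≤ l * d x z → f z = f x) → 7 / 8 * c₀ ≤ P f x)
    (H2 : ∀ (f g : V → ℝ) (x : V) (r : ℝ), Lip d l f → Lip d l g → 0 ≤ r →
      (∀ z, d x z ≤ r → f z = g z) → (∀ z, |f z - g z| ≤ 1) →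
        |P f x - P g x| ≤ C * Real.exp (-(c * r)))
    (hq : Real.exp (-(c / (2 * L))) ≤ 1 / 2)
    (hsmall : 2 * C * Real.exp (-(c * m₀ / (2 * L))) ≤ c₀ / 8)
    (f : V → ℝ) (hf : Lip d l f) (x : V) : 3 / 4 * c₀ ≤ P f x := by
  have hL : 0 < L := lt_of_lt_of_le hl hlL
  set F : ℕ → V → ℝ := fun k => clamp d l f x (m₀ + k) with hF
  have hFlip : ∀ k, Lip d l (F k) := fun k => clamp_lip hl.le hd0 hsymm htri hf x _
  set q : ℝ := Real.exp (-(c / (2 * l))) with hqdef
  have hq0 : 0 < q := Real.exp_pos _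
  have hq2 : q ≤ 1 / 2 := by
    refine le_trans (Real.exp_le_exp.2 ?_) hq
    have : c / (2 * L) ≤ c / (2 * l) := by
      apply div_le_div_of_nonneg_left hc.le (by positivity)
      linarith
    linarith
  have hstep : ∀ k : ℕ, |P (F (k + 1)) x - P (F k) x|
      ≤ C * Real.exp (-(c * m₀ / (2 * l))) * q ^ k := by
    intro k
    have h1 := H2 (F (k + 1)) (F k) x ((m₀ + k) / (2 * l)) (hFlip _) (hFlip _)
      (by positivity) ?_ ?_
    · refine h1.trans (le_of_eq ?_)
      rw [hqdef, ← Real.exp_nat_mul, mul_assoc, ← Real.exp_add]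
      congr 2
      field_simp
      ring
    · intro z hz
      have h2 : 2 * (l * d x z) ≤ m₀ + k := by
        rw [le_div_iff₀ (by positivity)] at hz
        linarith
      have h3 : F k z = f z := clamp_near hsymm hf h2
      have h4 : F (k + 1) z = f z := by
        apply clamp_near hsymm hf
        push_cast
        linarith
      rw [h3, h4]
    · intro z
      have : F (k + 1) z = clamp d l f x (m₀ + k + 1) z := by
        simp only [hF]
        push_cast
        ring_nf
      rw [this]
      exact clamp_step x _ z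
  have hsum : ∀ n : ℕ, |P (F n) x - P (F 0) x|
      ≤ C * Real.exp (-(c * m₀ / (2 * l))) * ∑ k ∈ Finset.range n, q ^ k := by
    intro n
    induction n with
    | zero => simp
    | succ n ih =>
      rw [Finset.sum_range_succ, mul_add]
      have : P (F (n + 1)) x - P (F 0) x
          = (P (F n) x - P (F 0) x) + (P (F (n + 1)) x - P (F n) x) := by ring
      rw [this]
      exact (abs_add_le _ _).trans (add_le_add ih (hstep n))
  have hgeom : ∀ n : ℕ, ∑ k ∈ Finset.range n, q ^ k ≤ 2 := by
    intro n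
    have h1 : ∑ k ∈ Finset.range n, q ^ k ≤ ∑ k ∈ Finset.range n, (1 / 2 : ℝ) ^ k :=
      Finset.sum_le_sum fun k _ => pow_le_pow_left₀ hq0.le hq2 k
    refine h1.trans ?_
    exact sum_geometric_two_le n
  -- large clamp is `f`
  obtain ⟨n, hn⟩ : ∃ n : ℕ, F n = f := by
    cases nonempty_fintype V
    obtain ⟨M, hM⟩ : ∃ M : ℝ, ∀ z, 2 * (l * d x z) ≤ M :=
      ⟨∑ z, 2 * (l * d x z), fun z => Finset.single_le_sum
        (f := fun z => 2 * (l * d x z))
        (fun w _ => by have := hd0 x w; positivity) (Finset.mem_univ z)⟩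
    obtain ⟨n, hn⟩ := exists_nat_ge M
    refine ⟨n, ?_⟩
    funext z
    apply clamp_near hsymm hf
    have := hM z
    linarith
  have h0 : 7 / 8 * c₀ ≤ P (F 0) x := by
    have hFx : F 0 x = f x := by
      have hdx : 0 ≤ d x x := hd0 x x
      have := clamp_abs (d := d) l f x (m₀ + (0 : ℕ)) x
      apply clamp_eq_of_le
      simp
    refine H1 _ x (hFlip 0) ?_ ?_
    · intro z
      rw [hFx]
      refine (clamp_abs (d := d) l f x _ z).trans ?_
      have : 0 ≤ l * d x z := mul_nonneg hl.le (hd0 x z)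
      refine max_le hm₀.le ?_
      push_cast
      linarith
    · intro z hz
      rw [hFx]
      apply clamp_far
      push_cast
      linarith
  have h1 := hsum n
  rw [hn] at h1
  have h2 : C * Real.exp (-(c * m₀ / (2 * l))) * ∑ k ∈ Finset.range n, q ^ k ≤ c₀ / 8 := by
    have h3 : Real.exp (-(c * m₀ / (2 * l))) ≤ Real.exp (-(c * m₀ / (2 * L))) := by
      apply Real.exp_le_exp.2
      have : c * m₀ / (2 * L) ≤ c * m₀ / (2 * l) := by
        apply div_le_div_of_nonneg_left (by positivity) (by positivity)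
        linarith
      linarith
    calc C * Real.exp (-(c * m₀ / (2 * l))) * ∑ k ∈ Finset.range n, q ^ k
        ≤ C * Real.exp (-(c * m₀ / (2 * l))) * 2 := by
          apply mul_le_mul_of_nonneg_left (hgeom n) (by positivity)
      _ ≤ C * Real.exp (-(c * m₀ / (2 * L))) * 2 := by
          apply mul_le_mul_of_nonneg_right _ (by norm_num)
          exact mul_le_mul_of_nonneg_left h3 hC
      _ = 2 * C * Real.exp (-(c * m₀ / (2 * L))) := by ring
      _ ≤ c₀ / 8 := hsmall
  have h3 := (abs_le.1 (h1.trans h2)).1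
  linarith

/-- **B4, abstract**: the lower bound `3c₀/4` for all fields of slope `≤ L`. -/
theorem bootstrap [Finite V] (hd0 : ∀ z w, 0 ≤ d z w)
    (hsymm : ∀ z w, d z w = d w z) (htri : ∀ x z w, d x w ≤ d x z + d z w)
    (P : (V → ℝ) → V → ℝ) (hcont : ∀ x, Continuous fun f => P f x)
    (hper : ∀ f x, P (fun z => f z + 1) x = P f x)
    {L c₀ C c m₀ : ℝ} (hL : 0 < L) (hc₀ : 0 < c₀) (hc : 0 < c) (hC : 0 ≤ C) (hm₀ : 0 < m₀)
    (H1 : ∀ l : ℝ, 0 < l → l ≤ L → ∀ (f : V → ℝ) (x : V), Lip d l f → (∀ z, |f z - f x| ≤ m₀) →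
      (∀ z, m₀ ≤ l * d x z → f z = f x) → 7 / 8 * c₀ ≤ P f x)
    (H2 : ∀ l : ℝ, 0 < l → l ≤ L → (∀ f x, Lip d l f → c₀ / 2 ≤ P f x) →
      ∀ (f g : V → ℝ) (x : V) (r : ℝ), Lip d l f → Lip d l g → 0 ≤ r →
      (∀ z, d x z ≤ r → f z = g z) → (∀ z, |f z - g z| ≤ 1) →
        |P f x - P g x| ≤ C * Real.exp (-(c * r)))
    (hq : Real.exp (-(c / (2 * L))) ≤ 1 / 2)
    (hsmall : 2 * C * Real.exp (-(c * m₀ / (2 * L))) ≤ c₀ / 8)
    (f : V → ℝ) (hf : Lip d L f) (x : V) : 3 / 4 * c₀ ≤ P f x := by
  classical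
  cases nonempty_fintype V
  -- integer shifts
  have hperN : ∀ (n : ℕ) (f : V → ℝ) x, P (fun z => f z + n) x = P f x := by
    intro n
    induction n with
    | zero => intro f x; simp
    | succ n ih =>
      intro f x
      have := hper (fun z => f z + n) x
      rw [ih] at this
      rw [← this]
      congr 1
      funext z
      push_cast
      ring
  have hperZ : ∀ (n : ℤ) (f : V → ℝ) x, P (fun z => f z + n) x = P f x := by
    intro n f x
    rcases Int.eq_nat_or_neg n with ⟨k, hk | hk⟩
    · subst hk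
      have := hperN k f x
      simpa using this
    · subst hk
      have := hperN k (fun z => f z + ((-(k : ℤ) : ℤ) : ℝ)) x
      rw [← this]
      congr 1
      funext z
      push_cast
      ring
  -- the compact parameter space
  let K : Set (V → ℝ) := {g | Lip d L g ∧ g x = 0}
  have hKclosed : IsClosed K := by
    have h1 : IsClosed {g : V → ℝ | Lip d L g} := by
      have : {g : V → ℝ | Lip d L g} = ⋂ z, ⋂ w, {g : V → ℝ | |g z - g w| ≤ L * d z w} := by
        ext g; simp [Lip]
      rw [this]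
      refine isClosed_iInter fun z => isClosed_iInter fun w => ?_
      exact isClosed_le (by fun_prop) continuous_const
    have h2 : IsClosed {g : V → ℝ | g x = 0} := isClosed_eq (by fun_prop) continuous_const
    exact h1.inter h2
  have hKcompact : IsCompact K := by
    refine (isCompact_univ_pi (s := fun z => Icc (-(L * d z x)) (L * d z x))
      (fun z => isCompact_Icc)).of_isClosed_subset hKclosed ?_
    rintro g ⟨hg1, hg2⟩ z -
    have := hg1 z x
    rw [hg2, sub_zero] at this
    exact ⟨(abs_le.1 this).1, (abs_le.1 this).2⟩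
  have : CompactSpace K := isCompact_iff_compactSpace.1 hKcompact
  have : Nonempty V := ⟨x⟩
  let p : ℝ → K × Icc (0 : ℝ) 1 → ℝ := fun t y =>
    Finset.univ.inf' Finset.univ_nonempty (fun w => P (fun z => t * y.1.1 z + y.2.1) w)
  have hp : Continuous fun q : ℝ × (K × Icc (0 : ℝ) 1) => p q.1 q.2 := by
    apply Continuous.finset_inf'_apply
    intro w _
    refine (hcont w).comp ?_
    refine continuous_pi fun z => ?_
    have h1 : Continuous fun q : ℝ × (K × Icc (0 : ℝ) 1) => q.2.1.1 z :=
      (continuous_apply z).comp (continuous_subtype_val.comp (continuous_fst.comp continuous_snd))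
    have h2 : Continuous fun q : ℝ × (K × Icc (0 : ℝ) 1) => (q.2.2.1 : ℝ) :=
      continuous_subtype_val.comp (continuous_snd.comp continuous_snd)
    exact (continuous_fst.mul h1).add h2
  have hlip : ∀ t ∈ Icc (0 : ℝ) 1, ∀ g : V → ℝ, Lip d L g → ∀ s : ℝ,
      Lip d (t * L) (fun z => t * g z + s) := by
    intro t ht g hg s z w
    have : t * g z + s - (t * g w + s) = t * (g z - g w) := by ring
    rw [this, abs_mul, abs_of_nonneg ht.1, mul_assoc]
    exact mul_le_mul_of_nonneg_left (hg z w) ht.1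
  have hconst : ∀ s : ℝ, ∀ w, 7 / 8 * c₀ ≤ P (fun _ => s) w := by
    intro s w
    refine H1 L hL le_rfl (fun _ => s) w ?_ ?_ ?_
    · intro z w
      simpa using mul_nonneg hL.le (hd0 z w)
    · intro z
      simpa using hm₀.le
    · intro z _
      rfl
  have main := boot_compact p hp (a := c₀ / 2) (b := 3 / 4 * c₀) (by linarith) ?_ ?_
  · -- conclusion
    have h1 := main 1 ⟨zero_le_one, le_rfl⟩
      (⟨fun z => f z - f x, by
        refine ⟨fun z w => ?_, by simp⟩
        have : f z - f x - (f w - f x) = f z - f w := by ring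
        rw [this]
        exact hf z w⟩, ⟨Int.fract (f x), Int.fract_nonneg _, (Int.fract_lt_one _).le⟩)
    have h2 := h1.trans (Finset.inf'_le _ (Finset.mem_univ x))
    have h3 := hperZ ⌊f x⌋ (fun z => 1 * (f z - f x) + Int.fract (f x)) x
    rw [← h3] at h2
    have heq : (fun z => 1 * (f z - f x) + Int.fract (f x) + (⌊f x⌋ : ℝ)) = f := by
      funext z
      have := Int.fract_add_floor (f x)
      linarith
    rw [heq] at h2
    exact h2
  · intro y
    refine Finset.le_inf' _ _ ?_
    intro w _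
    have : (fun z => (0 : ℝ) * y.1.1 z + y.2.1) = fun _ => (y.2.1 : ℝ) := by
      funext z; ring
    rw [this]
    have := hconst y.2.1 w
    linarith
  · intro t ht hy y
    refine Finset.le_inf' _ _ ?_
    intro w _
    rcases eq_or_lt_of_le ht.1 with h0 | h0
    · subst h0
      have : (fun z => (0 : ℝ) * y.1.1 z + y.2.1) = fun _ => (y.2.1 : ℝ) := by
        funext z; ring
      rw [this]
      have := hconst y.2.1 w
      linarith
    · have htL : 0 < t * L := mul_pos h0 hL
      have htL' : t * L ≤ L := by nlinarith [ht.2]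
      -- every `tL`-Lipschitz field is of the form `t g + s` up to an integer
      have hall : ∀ (f : V → ℝ) (w : V), Lip d (t * L) f → c₀ / 2 ≤ P f w := by
        intro f w hf
        have h1 := hy (⟨fun z => (f z - f x) / t, by
          refine ⟨fun z w => ?_, by simp⟩
          have : (f z - f x) / t - (f w - f x) / t = (f z - f w) / t := by ring
          rw [this, abs_div, abs_of_pos h0, div_le_iff₀ h0]
          have := hf z w
          linarith⟩, ⟨Int.fract (f x), Int.fract_nonneg _, (Int.fract_lt_one _).le⟩)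
        have h2 := h1.trans (Finset.inf'_le _ (Finset.mem_univ w))
        have h3 := hperZ ⌊f x⌋ (fun z => t * ((f z - f x) / t) + Int.fract (f x)) w
        rw [← h3] at h2
        have heq : (fun z => t * ((f z - f x) / t) + Int.fract (f x) + (⌊f x⌋ : ℝ)) = f := by
          funext z
          have := Int.fract_add_floor (f x)
          rw [mul_div_cancel₀ _ h0.ne']
          linarith
        rw [heq] at h2
        exact h2
      exact boot_step hd0 hsymm htri P htL htL' hc hC hm₀ (H1 _ htL htL')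
        (H2 _ htL htL' hall) hq hsmall _ (hlip t ht _ y.1.2.1 _) w

end

end Vale.Agent.P159.TM.H857
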