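/-
P159, T1, row E4: transfer of the law of `(d, omega)` between backgrounds, helper857.

Everything in `[0,∞]`.  `I e` = edge weight, `w e n`, `N e n` = coefficients of the n-expansion
`I e a * I e c = ∑ n, w e n * N e n (a + c) * N e n (a - c)`,
`γ x`, `δ x` = site weights with `γ x a * γ x c = δ x (a + c) * δ x (a - c)`.
-/
import Mathlib

open scoped ENNReal BigOperators

namespace Vale.Agent.P159.TM.H857

/-- Sums over product index sets of products. -/
theorem tsum_pi_prod' {E κ : Type*} [Fintype E] (φ : E → κ → ℝ≥0∞) :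
    ∑' n : E → κ, ∏ e, φ e (n e) = ∏ e, ∑' k, φ e k := by
  classical
  revert φ
  refine Fintype.induction_empty_option
    (P := fun E _ => ∀ φ : E → κ → ℝ≥0∞, ∑' n : E → κ, ∏ e, φ e (n e) = ∏ e, ∑' k, φ e k)
    ?_ ?_ ?_ E
  · intro α β _ e ih φ
    letI : Fintype α := Fintype.ofEquiv β e.symm
    have h1 := ih (fun a => φ (e a))
    have h2 : ∏ b, ∑' k, φ b k = ∏ a, ∑' k, φ (e a) k :=
      (Equiv.prod_comp e fun b => ∑' k, φ b k).symm
    rw [h2]
    have h3 : ∑' n : β → κ, ∏ b, φ b (n b) = ∑' n : α → κ, ∏ a, φ (e a) (n a) := by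
      rw [← (Equiv.arrowCongr e (Equiv.refl κ)).tsum_eq]
      refine tsum_congr fun n => ?_
      rw [← Equiv.prod_comp e]
      refine Finset.prod_congr rfl fun a _ => ?_
      simp
    rw [h3]
    exact h1
  · intro φ
    simp
  · intro α _ ih φ
    rw [Fintype.prod_option, ← ih]
    rw [← (Equiv.piOptionEquivProd (β := fun _ : Option α => κ)).symm.tsum_eq]
    rw [ENNReal.tsum_prod' (f := fun c : κ × (α → κ) =>
      ∏ e, φ e ((Equiv.piOptionEquivProd (β := fun _ : Option α => κ)).symm c e))]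
    rw [← ENNReal.tsum_mul_right]
    refine tsum_congr fun k => ?_
    rw [← ENNReal.tsum_mul_left]
    refine tsum_congr fun n => ?_
    rw [Fintype.prod_option]
    simp [Equiv.piOptionEquivProd]

theorem sum_tsum' {α β : Type*} [Fintype α] (f : α → β → ℝ≥0∞) :
    ∑ a, ∑' b, f a b = ∑' b, ∑ a, f a b :=
  (Summable.tsum_finsetSum (fun _ _ => ENNReal.summable)).symm

/-- pairs of the same parity = sums and differences -/
theorem tsum_sum_diff {V : Type*} [Fintype V] [DecidableEq V]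
    (G : (V → ℤ) → (V → ℤ) → ℝ≥0∞) :
    ∑' h : V → ℤ, ∑' h' : V → ℤ, G (h + h') (h - h')
      = ∑ σ : V → ZMod 2, ∑' p : V → ℤ, ∑' d : V → ℤ,
          (if ∀ x, (p x : ZMod 2) = σ x then 1 else 0) *
            ((if ∀ x, (d x : ZMod 2) = σ x then 1 else 0) * G p d) := by
  classical
  have h1 : ∀ p d : V → ℤ, ∑ σ : V → ZMod 2, (if ∀ x, (p x : ZMod 2) = σ x then (1 : ℝ≥0∞) else 0) *
      ((if ∀ x, (d x : ZMod 2) = σ x then 1 else 0) * G p d)
      = if ∀ x, (d x : ZMod 2) = (p x : ZMod 2) then G p d else 0 := by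
    intro p d
    rw [Finset.sum_eq_single (fun x => (p x : ZMod 2))]
    · simp
    · intro σ _ hσ
      rw [if_neg, zero_mul]
      intro h
      exact hσ (funext fun x => (h x).symm)
    · simp
  have h2 : ∑ σ : V → ZMod 2, ∑' p : V → ℤ, ∑' d : V → ℤ,
          (if ∀ x, (p x : ZMod 2) = σ x then (1 : ℝ≥0∞) else 0) *
            ((if ∀ x, (d x : ZMod 2) = σ x then 1 else 0) * G p d)
      = ∑' p : V → ℤ, ∑' d : V → ℤ, if ∀ x, (d x : ZMod 2) = (p x : ZMod 2) then G p d else 0 := by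
    rw [sum_tsum']
    refine tsum_congr fun p => ?_
    rw [sum_tsum']
    refine tsum_congr fun d => ?_
    rw [h1]
  rw [h2, ← ENNReal.tsum_prod, ← ENNReal.tsum_prod]
  -- injection `(h,h') ↦ (h+h', h-h')`
  let ι : (V → ℤ) × (V → ℤ) → (V → ℤ) × (V → ℤ) := fun q => (q.1 + q.2, q.1 - q.2)
  have hι : Function.Injective ι := by
    rintro ⟨h, h'⟩ ⟨k, k'⟩ hk
    simp only [ι, Prod.mk.injEq] at hk
    obtain ⟨h3, h4⟩ := hk
    have h5 : h = k := by
      funext x
      have := congrFun h3 x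
      have := congrFun h4 x
      simp only [Pi.add_apply, Pi.sub_apply] at *
      omega
    have h6 : h' = k' := by
      funext x
      have := congrFun h3 x
      have := congrFun h4 x
      simp only [Pi.add_apply, Pi.sub_apply] at *
      omega
    rw [h5, h6]
  have h3 := hι.tsum_eq (f := fun q : (V → ℤ) × (V → ℤ) =>
    if ∀ x, (q.2 x : ZMod 2) = (q.1 x : ZMod 2) then G q.1 q.2 else 0) (by
      rintro ⟨p, d⟩ hq
      rw [Function.mem_support] at hq
      have hpd : ∀ x, (d x : ZMod 2) = (p x : ZMod 2) := by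
        by_contra hcon
        exact hq (if_neg hcon)
      have hdiv : ∀ x, (2 : ℤ) ∣ p x - d x := by
        intro x
        have := (ZMod.intCast_eq_intCast_iff_dvd_sub _ _ 2).1 (hpd x)
        exact_mod_cast this
      choose k hk using hdiv
      refine ⟨(p - k, k), ?_⟩
      simp only [ι, Prod.mk.injEq]
      constructor
      · funext x; simp
      · funext x
        have := hk x
        simp only [Pi.sub_apply]
        omega)
  rw [← h3]
  refine tsum_congr fun q => ?_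
  have : ∀ x, ((((ι q).2 x : ℤ)) : ZMod 2) = (((ι q).1 x : ℤ) : ZMod 2) := by
    intro x
    simp only [ι, Pi.add_apply, Pi.sub_apply]
    push_cast
    have h2 : (2 : ZMod 2) = 0 := rfl
    have : (q.1 x : ZMod 2) + (q.2 x : ZMod 2) = (q.1 x : ZMod 2) - (q.2 x : ZMod 2)
        + 2 * (q.2 x : ZMod 2) := by ring
    rw [this, h2]
    simp
  rw [if_pos this]

section

variable {V E : Type*} [Fintype V] [DecidableEq V] [Fintype E]
variable (s t : E → V) (w : E → ℕ → ℝ≥0∞) (N : E → ℕ → ℤ → ℝ≥0∞) (I : E → ℤ → ℝ≥0∞)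
  (γ δ : V → ℝ → ℝ≥0∞)

/-- partition function in the background `f` -/
noncomputable def Zb (f : V → ℝ) : ℝ≥0∞ :=
  ∑' h : V → ℤ, (∏ e, I e (h (t e) - h (s e))) * ∏ x, γ x (h x - f x)

/-- parity indicator -/
noncomputable def par (σ : V → ZMod 2) (p : V → ℤ) : ℝ≥0∞ :=
  if ∀ x, (p x : ZMod 2) = σ x then 1 else 0

/-- `S_{n,σ}(f)` -/
noncomputable def Sb (n : E → ℕ) (σ : V → ZMod 2) (f : V → ℝ) : ℝ≥0∞ :=
  ∑' p : V → ℤ, par σ p *
    ((∏ e, N e (n e) (p (t e) - p (s e))) * ∏ x, δ x (p x - 2 * f x))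

/-- the functional `Φ_f(D)` -/
noncomputable def Phi (f : V → ℝ) (D : (E → ℕ) → (V → ZMod 2) → ℝ≥0∞) : ℝ≥0∞ :=
  ∑' n : E → ℕ, ∑ σ : V → ZMod 2, (∏ e, w e (n e)) * (Sb s t N δ n σ f * D n σ)

variable {s t w N I γ δ}

/-- General expansion: an observable kernel `K e (Ds, d_s, d_t) = ∑ n, w n N n (Ds) M n d_s d_t`
and a site function. -/
theorem Phi_eq (hγ : ∀ x a c, γ x a * γ x c = δ x (a + c) * δ x (a - c))
    (K : E → ℤ → ℤ → ℤ → ℝ≥0∞) (M : E → ℕ → ℤ → ℤ → ℝ≥0∞)
    (hK : ∀ e a d d', K e a d d' = ∑' n, w e n * (N e n a * M e n d d'))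
    (F : (V → ℤ) → ℝ≥0∞) (f g : V → ℝ) :
    ∑' h : V → ℤ, ∑' h' : V → ℤ,
      (∏ e, K e ((h + h') (t e) - (h + h') (s e)) ((h - h') (s e)) ((h - h') (t e))) *
        ((∏ x, γ x (h x - (f x + g x)) * γ x (h' x - (f x - g x))) * F (h - h'))
      = Phi s t w N δ f (fun n σ => ∑' d : V → ℤ, par σ d *
          ((∏ e, M e (n e) (d (s e)) (d (t e))) * ((∏ x, δ x (d x - 2 * g x)) * F d))) := by
  classical
  have h1 := tsum_sum_diff (V := V) (fun p d =>
    (∏ e, K e (p (t e) - p (s e)) (d (s e)) (d (t e))) *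
      (((∏ x, δ x (p x - 2 * f x)) * ∏ x, δ x (d x - 2 * g x)) * F d))
  have h2 : ∑' h : V → ℤ, ∑' h' : V → ℤ,
      (∏ e, K e ((h + h') (t e) - (h + h') (s e)) ((h - h') (s e)) ((h - h') (t e))) *
        ((∏ x, γ x (h x - (f x + g x)) * γ x (h' x - (f x - g x))) * F (h - h'))
      = ∑' h : V → ℤ, ∑' h' : V → ℤ, (fun p d : V → ℤ =>
    (∏ e, K e (p (t e) - p (s e)) (d (s e)) (d (t e))) *
      (((∏ x, δ x (p x - 2 * f x)) * ∏ x, δ x (d x - 2 * g x)) * F d)) (h + h') (h - h') := by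
    refine tsum_congr fun h => tsum_congr fun h' => ?_
    have h3 : (∏ x, γ x (h x - (f x + g x)) * γ x (h' x - (f x - g x)))
        = (∏ x, δ x (((h + h') x : ℤ) - 2 * f x)) * ∏ x, δ x (((h - h') x : ℤ) - 2 * g x) := by
      rw [← Finset.prod_mul_distrib]
      refine Finset.prod_congr rfl fun x _ => ?_
      rw [hγ]
      congr 2
      · simp only [Pi.add_apply]; push_cast; ring
      · simp only [Pi.sub_apply]; push_cast; ring
    rw [h3]
  rw [h2, h1]
  have h4 : ∀ (σ : V → ZMod 2), ∑' p : V → ℤ, ∑' d : V → ℤ,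
      (if ∀ x, (p x : ZMod 2) = σ x then (1 : ℝ≥0∞) else 0) *
        ((if ∀ x, (d x : ZMod 2) = σ x then 1 else 0) *
          ((∏ e, K e (p (t e) - p (s e)) (d (s e)) (d (t e))) *
      (((∏ x, δ x (p x - 2 * f x)) * ∏ x, δ x (d x - 2 * g x)) * F d)))
      = ∑' n : E → ℕ, (∏ e, w e (n e)) * (Sb s t N δ n σ f * ∑' d : V → ℤ, par σ d *
          ((∏ e, M e (n e) (d (s e)) (d (t e))) * ((∏ x, δ x (d x - 2 * g x)) * F d))) := by
    intro σ
    have h5 : ∀ p d : V → ℤ,
        (if ∀ x, (p x : ZMod 2) = σ x then (1 : ℝ≥0∞) else 0) *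
        ((if ∀ x, (d x : ZMod 2) = σ x then 1 else 0) *
          ((∏ e, K e (p (t e) - p (s e)) (d (s e)) (d (t e))) *
      (((∏ x, δ x (p x - 2 * f x)) * ∏ x, δ x (d x - 2 * g x)) * F d)))
        = ∑' n : E → ℕ, (∏ e, w e (n e)) *
          ((par σ p * ((∏ e, N e (n e) (p (t e) - p (s e))) * ∏ x, δ x (p x - 2 * f x))) *
           (par σ d * ((∏ e, M e (n e) (d (s e)) (d (t e))) *
            ((∏ x, δ x (d x - 2 * g x)) * F d)))) := by
      intro p d
      have h6 : ∏ e, K e (p (t e) - p (s e)) (d (s e)) (d (t e))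
          = ∑' n : E → ℕ, ∏ e, w e (n e) * (N e (n e) (p (t e) - p (s e)) *
              M e (n e) (d (s e)) (d (t e))) := by
        rw [tsum_pi_prod' (fun e k => w e k * (N e k (p (t e) - p (s e)) *
              M e k (d (s e)) (d (t e))))]
        exact Finset.prod_congr rfl fun e _ => hK _ _ _ _
      rw [h6, ← ENNReal.tsum_mul_right, ← ENNReal.tsum_mul_left, ← ENNReal.tsum_mul_left]
      refine tsum_congr fun n => ?_
      rw [Finset.prod_mul_distrib, Finset.prod_mul_distrib]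
      unfold par
      ring
    simp_rw [h5]
    have h7 : ∀ p : V → ℤ, ∑' d : V → ℤ, ∑' n : E → ℕ, (∏ e, w e (n e)) *
          ((par σ p * ((∏ e, N e (n e) (p (t e) - p (s e))) * ∏ x, δ x (p x - 2 * f x))) *
           (par σ d * ((∏ e, M e (n e) (d (s e)) (d (t e))) *
            ((∏ x, δ x (d x - 2 * g x)) * F d))))
        = ∑' n : E → ℕ, ∑' d : V → ℤ, (∏ e, w e (n e)) *
          ((par σ p * ((∏ e, N e (n e) (p (t e) - p (s e))) * ∏ x, δ x (p x - 2 * f x))) *
           (par σ d * ((∏ e, M e (n e) (d (s e)) (d (t e))) *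
            ((∏ x, δ x (d x - 2 * g x)) * F d)))) := fun p => ENNReal.tsum_comm
    simp_rw [h7]
    rw [ENNReal.tsum_comm]
    refine tsum_congr fun n => ?_
    unfold Sb
    rw [← ENNReal.tsum_mul_right, ← ENNReal.tsum_mul_left]
    refine tsum_congr fun p => ?_
    rw [← ENNReal.tsum_mul_left, ← ENNReal.tsum_mul_left]
  simp_rw [h4]
  rw [sum_tsum']
  rfl

/-- `(*)`: `∑ w_n S_{n,σ}(f) S_{n,σ}(g) = Z(f+g) Z(f-g)`. -/
theorem sum_SS (hγ : ∀ x a c, γ x a * γ x c = δ x (a + c) * δ x (a - c))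
    (hI : ∀ e a c, I e a * I e c = ∑' n, w e n * (N e n (a + c) * N e n (a - c)))
    (f g : V → ℝ) :
    Phi s t w N δ f (fun n σ => Sb s t N δ n σ g)
      = Zb s t I γ (fun x => f x + g x) * Zb s t I γ (fun x => f x - g x) := by
  have h1 := Phi_eq (s := s) (t := t) (w := w) (N := N) (γ := γ) (δ := δ) hγ
    (fun e a d d' => ∑' n, w e n * (N e n a * N e n (d' - d)))
    (fun e n d d' => N e n (d' - d)) (fun e a d d' => rfl) (fun _ => 1) f g
  have h2 : (fun (n : E → ℕ) (σ : V → ZMod 2) => ∑' d : V → ℤ, par σ d *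
          ((∏ e, N e (n e) (d (t e) - d (s e))) * ((∏ x, δ x (d x - 2 * g x)) * 1)))
      = fun n σ => Sb s t N δ n σ g := by
    funext n σ
    unfold Sb
    simp_rw [mul_one]
  rw [h2] at h1
  rw [← h1]
  unfold Zb
  rw [← ENNReal.tsum_mul_right]
  refine tsum_congr fun h => ?_
  rw [← ENNReal.tsum_mul_left]
  refine tsum_congr fun h' => ?_
  have h3 : ∀ e : E, ∑' n, w e n * (N e n ((h + h') (t e) - (h + h') (s e)) *
      N e n ((h - h') (t e) - (h - h') (s e))) = I e (h (t e) - h (s e)) *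
        I e (h' (t e) - h' (s e)) := by
    intro e
    rw [hI]
    refine tsum_congr fun n => ?_
    simp only [Pi.add_apply, Pi.sub_apply]
    congr 3
    · ring
    · ring
  simp_rw [h3]
  rw [Finset.prod_mul_distrib, Finset.prod_mul_distrib]
  ring

end



/-- real form of the L² estimate -/
theorem l2_real {ι : Type*} (a x y D : ι → ℝ) {Z0 Zf Z2 : ℝ} (hZ0 : 0 < Z0) (hZf : 0 < Zf)
    (ha : ∀ i, 0 ≤ a i) (hD0 : ∀ i, 0 ≤ a i * D i)
    (hD : ∀ i, a i * D i ≤ a i * y i)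
    (sxy : HasSum (fun i => a i * (x i * y i)) (Zf ^ 2))
    (syy : HasSum (fun i => a i * (y i * y i)) (Z0 ^ 2))
    (sxx : HasSum (fun i => a i * (x i * x i)) (Z2 * Z0))
    (sxD : Summable (fun i => a i * (x i * D i)))
    (syD : Summable (fun i => a i * (y i * D i))) :
    |(∑' i, a i * (x i * D i)) / Zf ^ 2 - (∑' i, a i * (y i * D i)) / Z0 ^ 2|
      ≤ √(Z2 * Z0 ^ 3 / Zf ^ 4 - 1) := by
  set u : ι → ℝ := fun i => x i / Zf ^ 2 - y i / Z0 ^ 2 with hu
  have hsu : HasSum (fun i => a i * (u i * u i)) (Z2 * Z0 / Zf ^ 4 - 1 / Z0 ^ 2) := by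
    have h1 := ((sxx.div_const (Zf ^ 4)).sub ((sxy.mul_left 2).div_const (Zf ^ 2 * Z0 ^ 2))).add
      (syy.div_const (Z0 ^ 4))
    have e1 : (fun i => a i * (u i * u i)) = fun b => a b * (x b * x b) / Zf ^ 4 -
        2 * (a b * (x b * y b)) / (Zf ^ 2 * Z0 ^ 2) + a b * (y b * y b) / Z0 ^ 4 := by
      funext i
      simp only [hu]
      field_simp
      ring
    have e2 : Z2 * Z0 / Zf ^ 4 - 1 / Z0 ^ 2
        = Z2 * Z0 / Zf ^ 4 - 2 * Zf ^ 2 / (Zf ^ 2 * Z0 ^ 2) + Z0 ^ 2 / Z0 ^ 4 := by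
      field_simp
      ring
    rw [e1, e2]
    exact h1
  have hdiff : HasSum (fun i => a i * (u i * D i))
      ((∑' i, a i * (x i * D i)) / Zf ^ 2 - (∑' i, a i * (y i * D i)) / Z0 ^ 2) := by
    have h1 := (sxD.hasSum.div_const (Zf ^ 2)).sub (syD.hasSum.div_const (Z0 ^ 2))
    have e1 : (fun i => a i * (u i * D i)) = fun b => a b * (x b * D b) / Zf ^ 2 -
        a b * (y b * D b) / Z0 ^ 2 := by
      funext i
      simp only [hu]
      ring
    rw [e1]
    exact h1
  set A : ℝ := Z2 * Z0 / Zf ^ 4 - 1 / Z0 ^ 2 with hA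
  have hA0 : 0 ≤ A := hsu.nonneg fun i => mul_nonneg (ha i) (mul_self_nonneg _)
  -- for every `lam > 0`
  have key : ∀ lam : ℝ, 0 < lam → |(∑' i, a i * (x i * D i)) / Zf ^ 2 -
      (∑' i, a i * (y i * D i)) / Z0 ^ 2| ≤ (lam * A + Z0 ^ 2 / lam) / 2 := by
    intro lam hlam
    have hterm : ∀ i, |a i * (u i * D i)| ≤
        (lam * (a i * (u i * u i)) + a i * (y i * y i) / lam) / 2 := by
      intro i
      have h1 : |a i * (u i * D i)| = |u i| * (a i * D i) := by
        have : a i * (u i * D i) = u i * (a i * D i) := by ring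
        rw [this, abs_mul, abs_of_nonneg (hD0 i)]
      have h2 : |u i| * (a i * D i) ≤ |u i| * (a i * y i) :=
        mul_le_mul_of_nonneg_left (hD i) (abs_nonneg _)
      have h3 : |u i| * y i ≤ (lam * (u i * u i) + y i * y i / lam) / 2 := by
        have h4 : 0 ≤ (lam * |u i| - y i) ^ 2 := sq_nonneg _
        have h5 : |u i| * |u i| = u i * u i := abs_mul_abs_self _
        rw [le_div_iff₀ (by norm_num : (0 : ℝ) < 2)]
        have h6 : lam * (|u i| * y i * 2) ≤ lam * (lam * (u i * u i) + y i * y i / lam) := by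
          have : lam * (lam * (u i * u i) + y i * y i / lam)
              = lam * lam * (|u i| * |u i|) + y i * y i := by
            rw [h5]; field_simp
          rw [this]
          nlinarith
        exact le_of_mul_le_mul_left h6 hlam
      calc |a i * (u i * D i)| ≤ a i * (|u i| * y i) := by
            rw [h1]; refine h2.trans (le_of_eq (by ring))
        _ ≤ a i * ((lam * (u i * u i) + y i * y i / lam) / 2) :=
            mul_le_mul_of_nonneg_left h3 (ha i)
        _ = _ := by ring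
    have hs2 : HasSum (fun i => (lam * (a i * (u i * u i)) + a i * (y i * y i) / lam) / 2)
        ((lam * A + Z0 ^ 2 / lam) / 2) :=
      ((hsu.mul_left lam).add (syy.div_const lam)).div_const 2
    rw [← hdiff.tsum_eq]
    have h7 : Summable fun i => ‖a i * (u i * D i)‖ :=
      Summable.of_nonneg_of_le (fun i => norm_nonneg _)
        (fun i => by rw [Real.norm_eq_abs]; exact hterm i) hs2.summable
    calc |∑' i, a i * (u i * D i)| ≤ ∑' i, ‖a i * (u i * D i)‖ := by
          rw [← Real.norm_eq_abs]; exact norm_tsum_le_tsum_norm h7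
      _ ≤ ∑' i, (lam * (a i * (u i * u i)) + a i * (y i * y i) / lam) / 2 :=
          h7.tsum_le_tsum (fun i => by rw [Real.norm_eq_abs]; exact hterm i) hs2.summable
      _ = _ := hs2.tsum_eq
  have hgoal : Z2 * Z0 ^ 3 / Zf ^ 4 - 1 = Z0 ^ 2 * A := by
    rw [hA]; field_simp
  rw [hgoal]
  rcases eq_or_lt_of_le hA0 with h0 | h0
  · -- A = 0
    rw [← h0, mul_zero, Real.sqrt_zero]
    by_contra hcon
    rw [not_le] at hcon
    have h1 := key (Z0 ^ 2 / |(∑' i, a i * (x i * D i)) / Zf ^ 2 -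
      (∑' i, a i * (y i * D i)) / Z0 ^ 2|) (by positivity)
    rw [← h0, mul_zero, zero_add] at h1
    have h2 : Z0 ^ 2 / (Z0 ^ 2 / |(∑' i, a i * (x i * D i)) / Zf ^ 2 -
      (∑' i, a i * (y i * D i)) / Z0 ^ 2|) = |(∑' i, a i * (x i * D i)) / Zf ^ 2 -
      (∑' i, a i * (y i * D i)) / Z0 ^ 2| := by
      field_simp
    rw [h2] at h1
    linarith
  · have hsA : 0 < √A := Real.sqrt_pos.2 h0
    have h1 := key (Z0 / √A) (by positivity)
    refine h1.trans (le_of_eq ?_)
    have h2 : √A * √A = A := Real.mul_self_sqrt hA0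
    rw [Real.sqrt_mul (by positivity), Real.sqrt_sq hZ0.le]
    have h3 : Z0 / √A * A = Z0 * √A := by
      rw [div_mul_eq_mul_div, div_eq_iff hsA.ne']
      rw [mul_assoc, h2]
    have h4 : Z0 ^ 2 / (Z0 / √A) = Z0 * √A := by
      field_simp
    rw [h3, h4]
    ring

/-- L² estimate in `[0,∞]`. -/
theorem l2_ennreal {ι : Type*} (a x y D : ι → ℝ≥0∞) {Z0 Zf Z2 : ℝ} (hZ0 : 0 < Z0) (hZf : 0 < Zf)
    (hZ2 : 0 ≤ Z2)
    (sxy : ∑' i, a i * (x i * y i) = ENNReal.ofReal (Zf ^ 2))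
    (syy : ∑' i, a i * (y i * y i) = ENNReal.ofReal (Z0 ^ 2))
    (sxx : ∑' i, a i * (x i * x i) = ENNReal.ofReal (Z2 * Z0))
    (hD : ∀ i, D i ≤ y i) :
    |(∑' i, a i * (x i * D i)).toReal / Zf ^ 2 - (∑' i, a i * (y i * D i)).toReal / Z0 ^ 2|
      ≤ √(Z2 * Z0 ^ 3 / Zf ^ 4 - 1) := by
  have hne : ∀ {F : ι → ℝ≥0∞} {r : ℝ}, ∑' i, F i = ENNReal.ofReal r → ∑' i, F i ≠ ∞ := by
    intro F r h; rw [h]; exact ENNReal.ofReal_ne_top
  have hS : ∀ {F : ι → ℝ≥0∞}, ∑' i, F i ≠ ∞ → HasSum (fun i => (F i).toReal) (∑' i, F i).toReal := by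
    intro F h
    rw [ENNReal.tsum_toReal_eq (fun i => ENNReal.ne_top_of_tsum_ne_top h i)]
    exact (ENNReal.summable_toReal h).hasSum
  have hxD : ∑' i, a i * (x i * D i) ≠ ∞ := ne_top_of_le_ne_top (hne sxy)
    (ENNReal.tsum_le_tsum fun i => mul_le_mul_right (mul_le_mul_right (hD i) _) _)
  have hyD : ∑' i, a i * (y i * D i) ≠ ∞ := ne_top_of_le_ne_top (hne syy)
    (ENNReal.tsum_le_tsum fun i => mul_le_mul_right (mul_le_mul_right (hD i) _) _)
  have t1 := hS (hne sxy)
  have t2 := hS (hne syy)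
  have t3 := hS (hne sxx)
  have t4 := hS hxD
  have t5 := hS hyD
  rw [sxy, ENNReal.toReal_ofReal (by positivity)] at t1
  rw [syy, ENNReal.toReal_ofReal (by positivity)] at t2
  rw [sxx, ENNReal.toReal_ofReal (by positivity)] at t3
  simp only [ENNReal.toReal_mul] at t1 t2 t3 t4 t5
  have h1 := l2_real (fun i => (a i).toReal) (fun i => (x i).toReal) (fun i => (y i).toReal)
    (fun i => (D i).toReal) hZ0 hZf (fun i => ENNReal.toReal_nonneg)
    (fun i => mul_nonneg ENNReal.toReal_nonneg ENNReal.toReal_nonneg)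
    (fun i => by
      rcases eq_or_ne (a i) 0 with h0 | h0
      · simp [h0]
      · have hy : y i ≠ ∞ := by
          intro hy
          have h2 := ENNReal.ne_top_of_tsum_ne_top (hne syy) i
          apply h2
          rw [hy]
          simp [h0]
        exact mul_le_mul_of_nonneg_left (ENNReal.toReal_mono hy (hD i)) ENNReal.toReal_nonneg)
    t1 t2 t3 t4.summable t5.summable
  rw [t4.tsum_eq, t5.tsum_eq] at h1
  exact h1


end Vale.Agent.P159.TM.H857
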