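/-
P159, T1, row E4: transfer of the law of `(d, omega)` between the background `f` and `0`
for the FK form of two copies (letters of `H60.two`, Bessel weights `wI`), helper857.
-/
import Vale.Agent.P159.TM.H857.E4
import Vale.Agent.P159.TM.H131.Bridge
import Vale.Agent.P159.TM.H60.FK

open scoped ENNReal BigOperators
open Finset

set_option linter.unusedSectionVars false

namespace Vale.Agent.P159.TM.H857

open Vale.Agent.P159.H353 Vale.Agent.P159.T1.H897 Vale.Agent.P159.TM.H131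
  Vale.Agent.P159.TM.H60

/-! ### monotonicity of the path counts -/

theorem NN_two (n : ℕ) (p : ℤ) (hp : -1 ≤ p) : NN n (p + 2) ≤ NN n p := by
  induction n generalizing p with
  | zero =>
    rw [NN_zero, NN_zero]
    by_cases h : p + 2 = 0
    · omega
    · rw [if_neg h]; exact Nat.zero_le _
  | succ n ih =>
    rw [NN_succ, NN_succ]
    rcases eq_or_lt_of_le hp with h | h
    · -- p = -1
      subst h
      have h1 : NN n (-1 - 1) = NN n (2 : ℤ) := by
        rw [← NN_neg]; norm_num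
      have h2 : NN n (-1 + 2 - 1) = NN n (0 : ℤ) := by norm_num
      have h3 : NN n (-1 + 2 + 1) = NN n (2 : ℤ) := by norm_num
      have h4 : NN n (-1 + 1) = NN n (0 : ℤ) := by norm_num
      rw [h1, h2, h3, h4, add_comm]
    · rcases eq_or_lt_of_le (show 0 ≤ p by omega) with h0 | h0
      · -- p = 0
        subst h0
        have h1 : NN n (0 - 1) = NN n (1 : ℤ) := by
          rw [← NN_neg]; norm_num
        have h2 : NN n (0 + 2 - 1) = NN n (1 : ℤ) := by norm_num
        have h3 : NN n (0 + 1) = NN n (1 : ℤ) := by norm_num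
        have h5 := ih 1 (by norm_num)
        have h6 : NN n (0 + 2 + 1) = NN n (1 + 2 : ℤ) := by norm_num
        rw [h1, h2, h3, h6]
        exact Nat.add_le_add_left h5 _
      · have h1 := ih (p - 1) (by omega)
        have h2 := ih (p + 1) (by omega)
        rw [show p + 2 - 1 = p - 1 + 2 by ring, show p + 2 + 1 = p + 1 + 2 by ring]
        exact Nat.add_le_add h1 h2

theorem NN_even (n : ℕ) (p : ℤ) (hp : 0 ≤ p) (j : ℕ) : NN n (p + 2 * j) ≤ NN n p := by
  induction j with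
  | zero => simp
  | succ j ih =>
    refine le_trans ?_ ih
    have := NN_two n (p + 2 * j) (by omega)
    rw [show p + 2 * ((j + 1 : ℕ) : ℤ) = p + 2 * j + 2 by push_cast; ring]
    exact this

/-- the path count with the larger span is smaller -/
theorem NN_le (n : ℕ) (d m : ℤ) : NN n (|d| + |m|) ≤ NN n (m - d) := by
  rw [← NN_natAbs n (m - d)]
  obtain ⟨j, hj⟩ : ∃ j : ℕ, |d| + |m| = ((m - d).natAbs : ℤ) + 2 * j := by
    rcases abs_cases d with ⟨h1, h1'⟩ | ⟨h1, h1'⟩ <;> rcases abs_cases m with ⟨h2, h2'⟩ | ⟨h2, h2'⟩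
    · rcases le_total m d with h | h
      · exact ⟨m.toNat, by omega⟩
      · exact ⟨d.toNat, by omega⟩
    · exact ⟨0, by omega⟩
    · exact ⟨0, by omega⟩
    · rcases le_total m d with h | h
      · exact ⟨(-d).toNat, by omega⟩
      · exact ⟨(-m).toNat, by omega⟩
  rw [hj]
  exact NN_even n _ (by positivity) j

/-- coefficients of the open edge -/
def MO (n : ℕ) (d m : ℤ) : ℕ := NN n (m - d) - NN n (|d| + |m|)

theorem MO_add (n : ℕ) (d m : ℤ) : MO n d m + NN n (|d| + |m|) = NN n (m - d) :=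
  Nat.sub_add_cancel (NN_le n d m)

section

variable {V E : Type*} [Fintype V] [DecidableEq V] [Fintype E] [DecidableEq E]
variable (s t : E → V) (b : E → ℝ) (hb : ∀ e, 0 ≤ b e) (m : V → ℝ)

/-- Gaussian site weight in the background `f` -/
noncomputable def ga (m f : V → ℝ) (x : V) (n : ℤ) : ℝ := Real.exp (-(m x / 2) * (n - f x) ^ 2)

theorem ga_nonneg (m f : V → ℝ) (x : V) (n : ℤ) : 0 ≤ ga m f x n := (Real.exp_pos _).le

/-- the FK system of two copies in the background `f` -/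
noncomputable def sysf (f : V → ℝ) : Sys V E (ℤ × ℤ) :=
  two s t (fun e => wI (b e)) (fun e n => wI_nonneg (hb e) n) (fun e => logC_wI (hb e))
    (ga m f) (ga_nonneg m f)

/-- partition function in the background `f` -/
noncomputable def Zr (f : V → ℝ) : ℝ :=
  ∑' h : V → ℤ, (∏ e, wI (b e) (h (t e) - h (s e))) * ∏ x, ga m f x (h x)

/-- unnormalised two-copy expectation of `F (d, omega)` in the background `f` -/
noncomputable def Er (f : V → ℝ) (F : (V → ℤ) → Finset E → ℝ) : ℝ :=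
  ∑' H : V → ℤ × ℤ, ∑ om : Finset E, (sysf s t b hb m f).wt om H * F (fun x => (H x).1 - (H x).2) om

/-- the half masses -/
noncomputable def de (m : V → ℝ) (x : V) (r : ℝ) : ℝ≥0∞ := ENNReal.ofReal (Real.exp (-(m x / 4) * r ^ 2))

/-- the masses -/
noncomputable def gm (m : V → ℝ) (x : V) (r : ℝ) : ℝ≥0∞ := ENNReal.ofReal (Real.exp (-(m x / 2) * r ^ 2))

theorem gm_mul (m : V → ℝ) (x : V) (a c : ℝ) : gm m x a * gm m x c = de m x (a + c) * de m x (a - c) := by
  unfold gm de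
  rw [← ENNReal.ofReal_mul (Real.exp_pos _).le, ← ENNReal.ofReal_mul (Real.exp_pos _).le,
    ← Real.exp_add, ← Real.exp_add]
  congr 2
  ring

theorem ga_eq (m f : V → ℝ) (x : V) (n : ℤ) : ENNReal.ofReal (ga m f x n) = gm m x (n - f x) := rfl

/-- partition function in `[0,∞]` -/
noncomputable def Ze (f : V → ℝ) : ℝ≥0∞ := Zb s t (fun e => Ib (b e)) (gm m) f

theorem Ze_toReal (hb : ∀ e, 0 ≤ b e) (f : V → ℝ) : (Ze s t b m f).toReal = Zr s t b m f := by
  unfold Ze Zb Zr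
  have h1 : ∀ h : V → ℤ, (∏ e, Ib (b e) (h (t e) - h (s e))) * ∏ x, gm m x (h x - f x)
      = ENNReal.ofReal ((∏ e, wI (b e) (h (t e) - h (s e))) * ∏ x, ga m f x (h x)) := by
    intro h
    rw [ENNReal.ofReal_mul (Finset.prod_nonneg fun e _ => wI_nonneg (hb e) _),
      ENNReal.ofReal_prod_of_nonneg (fun e _ => wI_nonneg (hb e) _),
      ENNReal.ofReal_prod_of_nonneg (fun x _ => ga_nonneg m f x _)]
    congr 1
    exact Finset.prod_congr rfl fun e _ => Ib_eq (hb e) _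
  simp_rw [h1]
  rw [ENNReal.tsum_toReal_eq (fun _ => ENNReal.ofReal_ne_top)]
  refine tsum_congr fun h => ?_
  rw [ENNReal.toReal_ofReal]
  exact mul_nonneg (Finset.prod_nonneg fun e _ => wI_nonneg (hb e) _)
    (Finset.prod_nonneg fun x _ => ga_nonneg m f x _)

theorem gauss_summable {c : ℝ} (hc : 0 < c) (r : ℝ) :
    Summable fun n : ℤ => Real.exp (-c * (n - r) ^ 2) := by
  have h := HurwitzKernelBounds.summable_f_int 0 (-r) (t := c / Real.pi)
    (div_pos hc Real.pi_pos)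
  refine h.congr fun n => ?_
  unfold HurwitzKernelBounds.f_int
  have : -Real.pi * ((n : ℝ) + -r) ^ 2 * (c / Real.pi) = -c * (n - r) ^ 2 := by
    have := Real.pi_pos.ne'
    field_simp
    ring
  rw [pow_zero, one_mul, this]

theorem Ze_ne_top (hb : ∀ e, 0 ≤ b e) (hm : ∀ x, 0 < m x) (f : V → ℝ) : Ze s t b m f ≠ ∞ := by
  unfold Ze Zb
  have hI : ∀ (e : E) (k : ℤ), Ib (b e) k ≤ ∑' j : ℤ, Ib (b e) j := fun e k => ENNReal.le_tsum k
  have hIt : ∀ e : E, ∑' j : ℤ, Ib (b e) j ≠ ∞ := by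
    intro e
    have h1 : ∀ j : ℤ, Ib (b e) j = ENNReal.ofReal (wI (b e) j) := fun j => Ib_eq (hb e) j
    simp_rw [h1]
    rw [← ENNReal.ofReal_tsum_of_nonneg (fun j => wI_nonneg (hb e) j) (summable_wI (hb e))]
    exact ENNReal.ofReal_ne_top
  have hgt : ∀ x : V, ∑' j : ℤ, gm m x (j - f x) ≠ ∞ := by
    intro x
    unfold gm
    rw [← ENNReal.ofReal_tsum_of_nonneg (fun j => (Real.exp_pos _).le)
      (gauss_summable (half_pos (hm x)) (f x))]
    exact ENNReal.ofReal_ne_top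
  refine ne_top_of_le_ne_top (b := (∏ e, ∑' j : ℤ, Ib (b e) j) * ∏ x, ∑' j : ℤ, gm m x (j - f x))
    (ENNReal.mul_ne_top (ENNReal.prod_ne_top fun e _ => hIt e)
      (ENNReal.prod_ne_top fun x _ => hgt x)) ?_
  rw [← tsum_pi_prod' (fun (x : V) (j : ℤ) => gm m x (j - f x)), ← ENNReal.tsum_mul_left]
  refine ENNReal.tsum_le_tsum fun h => ?_
  exact mul_le_mul_left (Finset.prod_le_prod' fun e _ => hI e _) _

theorem Ib_zero_ne (b : ℝ) : Ib b 0 ≠ 0 := by
  intro h
  unfold Ib at h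
  rw [ENNReal.tsum_eq_zero] at h
  have := h 0
  simp [wN, NN_zero] at this

theorem Ze_ne_zero (f : V → ℝ) : Ze s t b m f ≠ 0 := by
  unfold Ze Zb
  intro h
  rw [ENNReal.tsum_eq_zero] at h
  have h1 := h 0
  rw [mul_eq_zero] at h1
  rcases h1 with h1 | h1
  · rw [Finset.prod_eq_zero_iff] at h1
    obtain ⟨e, -, he⟩ := h1
    simp only [Pi.zero_apply, sub_self] at he
    exact Ib_zero_ne _ he
  · rw [Finset.prod_eq_zero_iff] at h1
    obtain ⟨x, -, hx⟩ := h1
    unfold gm at hx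
    rw [ENNReal.ofReal_eq_zero] at hx
    exact absurd (Real.exp_pos _) (not_lt.2 hx)

theorem Zr_pos (hb : ∀ e, 0 ≤ b e) (hm : ∀ x, 0 < m x) (f : V → ℝ) : 0 < Zr s t b m f := by
  rw [← Ze_toReal s t b m hb f]
  exact ENNReal.toReal_pos (Ze_ne_zero s t b m f) (Ze_ne_top s t b m hb hm f)

theorem Ze_eq (hb : ∀ e, 0 ≤ b e) (hm : ∀ x, 0 < m x) (f : V → ℝ) :
    Ze s t b m f = ENNReal.ofReal (Zr s t b m f) := by
  rw [← Ze_toReal s t b m hb f, ENNReal.ofReal_toReal (Ze_ne_top s t b m hb hm f)]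

/-! ### edge expansions -/

/-- the expansion kernel of an edge: open (`true`) or closed (`false`) -/
noncomputable def Kx (b : ℝ) (o : Prop) [Decidable o] (a d d' : ℤ) : ℝ≥0∞ :=
  ∑' n, wN b n * ((NN n a : ℝ≥0∞) * (if o then (MO n d d' : ℝ≥0∞) else (NN n (|d| + |d'|) : ℝ≥0∞)))

theorem cl_exp {b : ℝ} (hb : 0 ≤ b) (x y : ℤ × ℤ) :
    ENNReal.ofReal (min (wI b (y.1 - x.1) * wI b (y.2 - x.2)) (wI b (y.1 - x.2) * wI b (y.2 - x.1)))
      = ∑' n, wN b n * ((NN n ((y.1 + y.2) - (x.1 + x.2)) : ℝ≥0∞) *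
          (NN n (|x.1 - x.2| + |y.1 - y.2|) : ℝ≥0∞)) := by
  have h1 := Cl_eq_min hb x.1 x.2 y.1 y.2
  rw [ENNReal.ofReal_min, ENNReal.ofReal_mul (wI_nonneg hb _), ENNReal.ofReal_mul (wI_nonneg hb _),
    ← Ib_eq hb, ← Ib_eq hb, ← Ib_eq hb, ← Ib_eq hb]
  rw [← Ib_neg b (x.1 - y.1), ← Ib_neg b (x.2 - y.2), ← Ib_neg b (x.1 - y.2),
    ← Ib_neg b (x.2 - y.1)] at h1
  rw [show -(x.1 - y.1) = y.1 - x.1 by ring, show -(x.2 - y.2) = y.2 - x.2 by ring,
    show -(x.1 - y.2) = y.2 - x.1 by ring, show -(x.2 - y.1) = y.1 - x.2 by ring,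
    mul_comm (Ib b (y.2 - x.1))] at h1
  rw [← h1]
  unfold Cl
  refine tsum_congr fun n => ?_
  congr 2
  rw [← NN_neg]
  congr 2
  ring

theorem fl_exp {b : ℝ} (hb : 0 ≤ b) (x y : ℤ × ℤ) :
    ENNReal.ofReal (wI b (y.1 - x.1) * wI b (y.2 - x.2))
      = ∑' n, wN b n * ((NN n ((y.1 + y.2) - (x.1 + x.2)) : ℝ≥0∞) *
          (NN n ((y.1 - y.2) - (x.1 - x.2)) : ℝ≥0∞)) := by
  rw [ENNReal.ofReal_mul (wI_nonneg hb _), ← Ib_eq hb, ← Ib_eq hb, Ib_mul hb]
  refine tsum_congr fun n => ?_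
  congr 3
  · congr 1; ring
  · congr 1; ring

theorem op_exp {b : ℝ} (hb : 0 ≤ b) (x y : ℤ × ℤ) :
    ENNReal.ofReal (max (wI b (y.1 - x.1) * wI b (y.2 - x.2) -
        wI b (y.1 - x.2) * wI b (y.2 - x.1)) 0)
      = ∑' n, wN b n * ((NN n ((y.1 + y.2) - (x.1 + x.2)) : ℝ≥0∞) *
          (MO n (x.1 - x.2) (y.1 - y.2) : ℝ≥0∞)) := by
  set A := wI b (y.1 - x.1) * wI b (y.2 - x.2) with hA
  set B := wI b (y.1 - x.2) * wI b (y.2 - x.1) with hB
  have h1 : max (A - B) 0 + min A B = A := by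
    rcases le_total A B with h | h
    · rw [max_eq_right (by linarith), min_eq_left h, zero_add]
    · rw [max_eq_left (by linarith), min_eq_right h]; ring
  have h2 : ENNReal.ofReal (max (A - B) 0) + ENNReal.ofReal (min A B) = ENNReal.ofReal A := by
    rw [← ENNReal.ofReal_add (le_max_right _ _)
      (le_min (mul_nonneg (wI_nonneg hb _) (wI_nonneg hb _))
        (mul_nonneg (wI_nonneg hb _) (wI_nonneg hb _))), h1]
  have h3 : (∑' n, wN b n * ((NN n ((y.1 + y.2) - (x.1 + x.2)) : ℝ≥0∞) *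
          (MO n (x.1 - x.2) (y.1 - y.2) : ℝ≥0∞))) +
      ∑' n, wN b n * ((NN n ((y.1 + y.2) - (x.1 + x.2)) : ℝ≥0∞) *
          (NN n (|x.1 - x.2| + |y.1 - y.2|) : ℝ≥0∞)) = ENNReal.ofReal A := by
    rw [← ENNReal.tsum_add, hA, fl_exp hb]
    refine tsum_congr fun n => ?_
    rw [← mul_add, ← mul_add]
    congr 2
    rw [← MO_add n (x.1 - x.2) (y.1 - y.2)]
    push_cast
    rfl
  have h4 := cl_exp hb x y
  rw [← hA, ← hB] at h4
  rw [← h4] at h3
  have h5 : ENNReal.ofReal (max (A - B) 0) + ENNReal.ofReal (min A B)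
      = (∑' n, wN b n * ((NN n ((y.1 + y.2) - (x.1 + x.2)) : ℝ≥0∞) *
          (MO n (x.1 - x.2) (y.1 - y.2) : ℝ≥0∞))) + ENNReal.ofReal (min A B) := by
    rw [h2, h3]
  exact (ENNReal.add_left_inj ENNReal.ofReal_ne_top).1 h5

/-- `∑_om` of the expansion coefficients -/
noncomputable def Dm (m : V → ℝ) (F : (V → ℤ) → Finset E → ℝ) (om : Finset E) (n : E → ℕ)
    (σ : V → ZMod 2) : ℝ≥0∞ :=
  ∑' d : V → ℤ, par σ d * ((∏ e, (if e ∈ om then (MO (n e) (d (s e)) (d (t e)) : ℝ≥0∞)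
      else (NN (n e) (|d (s e)| + |d (t e)|) : ℝ≥0∞))) *
    ((∏ x, de m x (d x - 2 * (0 : ℝ))) * ENNReal.ofReal (F d om)))

theorem wt_exp (f : V → ℝ) (om : Finset E) (h h' : V → ℤ) :
    ENNReal.ofReal ((sysf s t b hb m f).wt om (fun x => (h x, h' x)))
      = (∏ e, Kx (b e) (e ∈ om) ((h + h') (t e) - (h + h') (s e)) ((h - h') (s e))
          ((h - h') (t e))) * ∏ x, gm m x (h x - (f x + 0)) * gm m x (h' x - (f x - 0)) := by
  have hop : ∀ e, 0 ≤ (sysf s t b hb m f).op e (h (s e), h' (s e)) (h (t e), h' (t e)) :=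
    fun e => (sysf s t b hb m f).op_nonneg _ _ _
  have hcl : ∀ e, 0 ≤ (sysf s t b hb m f).cl e (h (s e), h' (s e)) (h (t e), h' (t e)) :=
    fun e => (sysf s t b hb m f).cl_nonneg _ _ _
  have hg : ∀ x, 0 ≤ ga m f x (h x) * ga m f x (h' x) :=
    fun x => mul_nonneg (ga_nonneg _ _ _ _) (ga_nonneg _ _ _ _)
  have e0 : (sysf s t b hb m f).wt om (fun x => (h x, h' x))
      = (∏ e ∈ om, (sysf s t b hb m f).op e (h (s e), h' (s e)) (h (t e), h' (t e))) *
        (∏ e ∈ omᶜ, (sysf s t b hb m f).cl e (h (s e), h' (s e)) (h (t e), h' (t e))) *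
        ∏ x, (ga m f x (h x) * ga m f x (h' x)) := rfl
  rw [e0, ENNReal.ofReal_mul (mul_nonneg (Finset.prod_nonneg fun e _ => hop e)
    (Finset.prod_nonneg fun e _ => hcl e)), ENNReal.ofReal_mul
    (Finset.prod_nonneg fun e _ => hop e), ENNReal.ofReal_prod_of_nonneg (fun e _ => hop e),
    ENNReal.ofReal_prod_of_nonneg (fun e _ => hcl e),
    ENNReal.ofReal_prod_of_nonneg (fun x _ => hg x)]
  congr 1
  · rw [← Finset.prod_mul_prod_compl om fun e => Kx (b e) (e ∈ om)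
      ((h + h') (t e) - (h + h') (s e)) ((h - h') (s e)) ((h - h') (t e))]
    congr 1
    · refine Finset.prod_congr rfl fun e he => ?_
      have h1 := op_exp (hb e) (h (s e), h' (s e)) (h (t e), h' (t e))
      have h2 : (sysf s t b hb m f).op e (h (s e), h' (s e)) (h (t e), h' (t e))
          = max (wI (b e) (h (t e) - h (s e)) * wI (b e) (h' (t e) - h' (s e)) -
            wI (b e) (h (t e) - h' (s e)) * wI (b e) (h' (t e) - h (s e))) 0 := rfl
      rw [h2, h1]
      unfold Kx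
      refine tsum_congr fun n => ?_
      rw [if_pos he]
      rfl
    · refine Finset.prod_congr rfl fun e he => ?_
      have he' : e ∉ om := Finset.mem_compl.1 he
      have h1 := cl_exp (hb e) (h (s e), h' (s e)) (h (t e), h' (t e))
      have h2 : (sysf s t b hb m f).cl e (h (s e), h' (s e)) (h (t e), h' (t e))
          = min (wI (b e) (h (t e) - h (s e)) * wI (b e) (h' (t e) - h' (s e)))
            (wI (b e) (h (t e) - h' (s e)) * wI (b e) (h' (t e) - h (s e))) := rfl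
      rw [h2, h1]
      unfold Kx
      refine tsum_congr fun n => ?_
      rw [if_neg he']
      rfl
  · refine Finset.prod_congr rfl fun x _ => ?_
    rw [ENNReal.ofReal_mul (ga_nonneg _ _ _ _), ga_eq, ga_eq, add_zero, sub_zero]

/-- the two-copy expectation is the functional `Φ_f` -/
theorem Er_eq (f : V → ℝ) {F : (V → ℤ) → Finset E → ℝ} (F0 : ∀ d om, 0 ≤ F d om) :
    Er s t b hb m f F = (Phi s t (fun e => wN (b e)) (fun _ n a => (NN n a : ℝ≥0∞)) (de m) f
      (fun n σ => ∑ om : Finset E, Dm s t m F om n σ)).toReal := by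
  have h1 : Er s t b hb m f F = (∑' H : V → ℤ × ℤ, ∑ om : Finset E,
      ENNReal.ofReal ((sysf s t b hb m f).wt om H) *
        ENNReal.ofReal (F (fun x => (H x).1 - (H x).2) om)).toReal := by
    unfold Er
    rw [ENNReal.tsum_toReal_eq]
    · refine tsum_congr fun H => ?_
      rw [ENNReal.toReal_sum]
      · refine Finset.sum_congr rfl fun om _ => ?_
        rw [ENNReal.toReal_mul, ENNReal.toReal_ofReal (Sys.wt_nonneg _ _ _),
          ENNReal.toReal_ofReal (F0 _ _)]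
      · intro om _
        exact ENNReal.mul_ne_top ENNReal.ofReal_ne_top ENNReal.ofReal_ne_top
    · intro H
      exact ENNReal.sum_ne_top.2 fun om _ =>
        ENNReal.mul_ne_top ENNReal.ofReal_ne_top ENNReal.ofReal_ne_top
  rw [h1]
  congr 1
  -- split the configurations
  rw [← (Equiv.arrowProdEquivProdArrow V (fun _ => ℤ) (fun _ => ℤ)).symm.tsum_eq]
  rw [ENNReal.tsum_prod' (f := fun c : (V → ℤ) × (V → ℤ) => ∑ om : Finset E,
      ENNReal.ofReal ((sysf s t b hb m f).wt om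
        ((Equiv.arrowProdEquivProdArrow V (fun _ => ℤ) (fun _ => ℤ)).symm c)) *
        ENNReal.ofReal (F (fun x => (((Equiv.arrowProdEquivProdArrow V (fun _ => ℤ)
          (fun _ => ℤ)).symm c) x).1 - (((Equiv.arrowProdEquivProdArrow V (fun _ => ℤ)
          (fun _ => ℤ)).symm c) x).2) om))]
  have h2 : ∀ h h' : V → ℤ, ∑ om : Finset E,
      ENNReal.ofReal ((sysf s t b hb m f).wt om
        ((Equiv.arrowProdEquivProdArrow V (fun _ => ℤ) (fun _ => ℤ)).symm (h, h'))) *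
        ENNReal.ofReal (F (fun x => (((Equiv.arrowProdEquivProdArrow V (fun _ => ℤ)
          (fun _ => ℤ)).symm (h, h')) x).1 - (((Equiv.arrowProdEquivProdArrow V (fun _ => ℤ)
          (fun _ => ℤ)).symm (h, h')) x).2) om)
      = ∑ om : Finset E, (∏ e, Kx (b e) (e ∈ om) ((h + h') (t e) - (h + h') (s e))
          ((h - h') (s e)) ((h - h') (t e))) *
          ((∏ x, gm m x (h x - (f x + 0)) * gm m x (h' x - (f x - 0))) *
            ENNReal.ofReal (F (h - h') om)) := by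
    intro h h'
    refine Finset.sum_congr rfl fun om _ => ?_
    have h3 := wt_exp s t b hb m f om h h'
    have h4 : ENNReal.ofReal ((sysf s t b hb m f).wt om
        ((Equiv.arrowProdEquivProdArrow V (fun _ => ℤ) (fun _ => ℤ)).symm (h, h')))
        = ENNReal.ofReal ((sysf s t b hb m f).wt om (fun x => (h x, h' x))) := rfl
    rw [h4, h3, mul_assoc]
    rfl
  simp_rw [h2]
  have h5 : ∀ om : Finset E, ∑' h : V → ℤ, ∑' h' : V → ℤ,
      (∏ e, Kx (b e) (e ∈ om) ((h + h') (t e) - (h + h') (s e))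
          ((h - h') (s e)) ((h - h') (t e))) *
          ((∏ x, gm m x (h x - (f x + 0)) * gm m x (h' x - (f x - 0))) *
            ENNReal.ofReal (F (h - h') om))
      = Phi s t (fun e => wN (b e)) (fun _ n a => (NN n a : ℝ≥0∞)) (de m) f
        (fun n σ => Dm s t m F om n σ) := by
    intro om
    exact Phi_eq (s := s) (t := t) (w := fun e => wN (b e)) (N := fun _ n a => (NN n a : ℝ≥0∞))
      (γ := gm m) (δ := de m) (gm_mul m) (fun e a d d' => Kx (b e) (e ∈ om) a d d')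
      (fun e n d d' => if e ∈ om then (MO n d d' : ℝ≥0∞) else (NN n (|d| + |d'|) : ℝ≥0∞))
      (fun e a d d' => rfl) (fun d => ENNReal.ofReal (F d om)) f (fun _ => 0)
  have h6 : ∑' h : V → ℤ, ∑' h' : V → ℤ, ∑ om : Finset E,
      (∏ e, Kx (b e) (e ∈ om) ((h + h') (t e) - (h + h') (s e))
          ((h - h') (s e)) ((h - h') (t e))) *
          ((∏ x, gm m x (h x - (f x + 0)) * gm m x (h' x - (f x - 0))) *
            ENNReal.ofReal (F (h - h') om))
      = ∑ om : Finset E, Phi s t (fun e => wN (b e)) (fun _ n a => (NN n a : ℝ≥0∞)) (de m) f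
        (fun n σ => Dm s t m F om n σ) := by
    simp_rw [← sum_tsum', h5]
  rw [h6]
  unfold Phi
  rw [sum_tsum']
  refine tsum_congr fun n => ?_
  rw [Finset.sum_comm]
  refine Finset.sum_congr rfl fun σ _ => ?_
  rw [Finset.mul_sum, Finset.mul_sum]

theorem Dm_le {F : (V → ℤ) → Finset E → ℝ} (F1 : ∀ d om, F d om ≤ 1) (n : E → ℕ)
    (σ : V → ZMod 2) :
    ∑ om : Finset E, Dm s t m F om n σ
      ≤ Sb s t (fun _ n a => (NN n a : ℝ≥0∞)) (de m) n σ (fun _ => 0) := by
  unfold Dm Sb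
  rw [sum_tsum']
  refine ENNReal.tsum_le_tsum fun d => ?_
  rw [← Finset.mul_sum]
  refine mul_le_mul_right ?_ _
  calc ∑ om : Finset E, (∏ e, (if e ∈ om then (MO (n e) (d (s e)) (d (t e)) : ℝ≥0∞)
      else (NN (n e) (|d (s e)| + |d (t e)|) : ℝ≥0∞))) *
    ((∏ x, de m x (d x - 2 * (0 : ℝ))) * ENNReal.ofReal (F d om))
      ≤ ∑ om : Finset E, (∏ e, (if e ∈ om then (MO (n e) (d (s e)) (d (t e)) : ℝ≥0∞)
      else (NN (n e) (|d (s e)| + |d (t e)|) : ℝ≥0∞))) *
    (∏ x, de m x (d x - 2 * (0 : ℝ))) := by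
        refine Finset.sum_le_sum fun om _ => mul_le_mul_right ?_ _
        calc (∏ x, de m x (d x - 2 * (0 : ℝ))) * ENNReal.ofReal (F d om)
            ≤ (∏ x, de m x (d x - 2 * (0 : ℝ))) * 1 := by
              refine mul_le_mul_right ?_ _
              rw [← ENNReal.ofReal_one]
              exact ENNReal.ofReal_le_ofReal (F1 d om)
          _ = _ := mul_one _
    _ = (∏ e, (NN (n e) (d (t e) - d (s e)) : ℝ≥0∞)) * ∏ x, de m x (d x - 2 * (0 : ℝ)) := by
        rw [← Finset.sum_mul]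
        congr 1
        have h1 : ∀ e, (NN (n e) (d (t e) - d (s e)) : ℝ≥0∞)
            = (MO (n e) (d (s e)) (d (t e)) : ℝ≥0∞) +
              (NN (n e) (|d (s e)| + |d (t e)|) : ℝ≥0∞) := by
          intro e
          rw [← MO_add]
          push_cast
          rfl
        simp_rw [h1]
        rw [Finset.prod_add, Finset.powerset_univ]
        refine Finset.sum_congr rfl fun om _ => ?_
        rw [← Finset.compl_eq_univ_sdiff, ← Finset.prod_mul_prod_compl om]
        congr 1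
        · exact Finset.prod_congr rfl fun e he => by rw [if_pos he]
        · exact Finset.prod_congr rfl fun e he => by rw [if_neg (Finset.mem_compl.1 he)]

theorem Phi_prod (w : E → ℕ → ℝ≥0∞) (N : E → ℕ → ℤ → ℝ≥0∞) (δ : V → ℝ → ℝ≥0∞) (f : V → ℝ)
    (D : (E → ℕ) → (V → ZMod 2) → ℝ≥0∞) :
    Phi s t w N δ f D = ∑' i : (E → ℕ) × (V → ZMod 2), (∏ e, w e (i.1 e)) *
      (Sb s t N δ i.1 i.2 f * D i.1 i.2) := by
  unfold Phi
  rw [ENNReal.tsum_prod' (f := fun i : (E → ℕ) × (V → ZMod 2) => (∏ e, w e (i.1 e)) *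
      (Sb s t N δ i.1 i.2 f * D i.1 i.2))]
  exact tsum_congr fun n => (tsum_fintype _).symm

/-- **E4**: for every `F (d, omega)` with values in `[0,1]`,
`|P_f(F) - P_0(F)| ≤ (Z(2f) Z(0)³ / Z(f)⁴ - 1)^{1/2}`. -/
theorem E4 (hm : ∀ x, 0 < m x) (f : V → ℝ) {F : (V → ℤ) → Finset E → ℝ}
    (F0 : ∀ d om, 0 ≤ F d om) (F1 : ∀ d om, F d om ≤ 1) :
    |Er s t b hb m f F / Zr s t b m f ^ 2 -
        Er s t b hb m (fun _ => 0) F / Zr s t b m (fun _ => 0) ^ 2|
      ≤ √(Zr s t b m (fun x => 2 * f x) * Zr s t b m (fun _ => 0) ^ 3 / Zr s t b m f ^ 4 - 1) := by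
  have hI : ∀ (e : E) (a c : ℤ), Ib (b e) a * Ib (b e) c = ∑' n, wN (b e) n *
      ((NN n (a + c) : ℝ≥0∞) * NN n (a - c)) := fun e a c => Ib_mul (hb e) a c
  have hSS : ∀ f g : V → ℝ, Phi s t (fun e => wN (b e)) (fun _ n a => (NN n a : ℝ≥0∞)) (de m) f
      (fun n σ => Sb s t (fun _ n a => (NN n a : ℝ≥0∞)) (de m) n σ g)
      = Ze s t b m (fun x => f x + g x) * Ze s t b m (fun x => f x - g x) := fun f g =>
    sum_SS (s := s) (t := t) (w := fun e => wN (b e)) (N := fun _ n a => (NN n a : ℝ≥0∞))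
      (I := fun e => Ib (b e)) (γ := gm m) (δ := de m) (gm_mul m) hI f g
  have hp := Zr_pos s t b m hb hm
  have hmul : ∀ f g : V → ℝ, Ze s t b m f * Ze s t b m g
      = ENNReal.ofReal (Zr s t b m f * Zr s t b m g) := by
    intro f g
    rw [Ze_eq s t b m hb hm f, Ze_eq s t b m hb hm g, ENNReal.ofReal_mul (hp f).le]
  rw [Er_eq s t b hb m f F0, Er_eq s t b hb m (fun _ => 0) F0, Phi_prod, Phi_prod]
  refine l2_ennreal (fun i : (E → ℕ) × (V → ZMod 2) => ∏ e, wN (b e) (i.1 e))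
    (fun i => Sb s t (fun _ n a => (NN n a : ℝ≥0∞)) (de m) i.1 i.2 f)
    (fun i => Sb s t (fun _ n a => (NN n a : ℝ≥0∞)) (de m) i.1 i.2 (fun _ => 0))
    (fun i => ∑ om : Finset E, Dm s t m F om i.1 i.2)
    (hp _) (hp _) (hp _).le ?_ ?_ ?_ (fun i => Dm_le s t m F1 i.1 i.2)
  · have h1 := hSS f (fun _ => 0)
    rw [Phi_prod] at h1
    rw [h1]
    simp only [add_zero, sub_zero]
    rw [hmul, sq]
  · have h1 := hSS (fun _ => 0) (fun _ => 0)
    rw [Phi_prod] at h1
    rw [h1]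
    simp only [add_zero, sub_zero]
    rw [hmul, sq]
  · have h1 := hSS f f
    rw [Phi_prod] at h1
    rw [h1]
    simp only [sub_self]
    rw [hmul]
    congr 3
    funext x
    ring

end

end Vale.Agent.P159.TM.H857
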