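/-
P159, T1, row B4: assembly of the bootstrap of part B (helper857).

Letters: `H60.two` / `sysf` (FK form of two copies), `H871.{Z,U,kap,Q0,Gin}`, `Er` of E4i.
`O x d om` = the event `O_x^+` (any family of events of `(d, omega)`, e.g. `H459.OEv`).
-/
import Vale.Agent.P159.TM.H857.E4i
import Vale.Agent.P159.TM.H857.Boot
import Vale.Agent.P159.TM.H871.Inst

open scoped ENNReal BigOperators
open Finset Filter Topology

set_option linter.unusedSectionVars false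

namespace Vale.Agent.P159.TM.H857

open Vale.Agent.P159.H353 Vale.Agent.P159.T1.H897 Vale.Agent.P159.TM.H131
  Vale.Agent.P159.TM.H60

section

variable {V E : Type*} [Fintype V] [DecidableEq V] [Fintype E] [DecidableEq E]
variable (s t : E → V) (b : E → ℝ) (hb : ∀ e, 0 ≤ b e) (m : V → ℝ)

/-- the gradient weight -/
noncomputable def Wg : (V → ℤ) → ℝ := Wk s t (fun e => wI (b e))

theorem wI_le_sum {b : ℝ} (hb : 0 ≤ b) (n : ℤ) : wI b n ≤ ∑' k, wI b k :=
  (summable_wI hb).le_tsum n fun k _ => wI_nonneg hb k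

theorem wI_zero_pos {b : ℝ} (hb : 0 ≤ b) : 0 < wI b 0 := by
  have h1 : Ib b 0 ≠ 0 := Ib_zero_ne b
  rw [Ib_eq hb] at h1
  rcases lt_or_ge 0 (wI b 0) with h | h
  · exact h
  · exact absurd (ENNReal.ofReal_eq_zero.2 h) h1

include hb in
theorem wt_Wg : H871.Wt (Wg s t b) :=
  H871.wt_Wk (fun e n => wI_nonneg (hb e) n) (fun e => ⟨_, fun n => wI_le_sum (hb e) n⟩)
    fun e => wI_zero_pos (hb e)

include hb in
theorem sup_Wg : H871.Sup (Wg s t b) :=
  H871.sup_Wk (fun e n => wI_nonneg (hb e) n) fun e => logC_wI (hb e)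

theorem shift_Wg (h : V → ℤ) : Wg s t b (h + 1) = Wg s t b h := H871.shift_Wk h

include hb in
theorem even_Wg (h : V → ℤ) : Wg s t b (-h) = Wg s t b h := by
  refine H871.even_Wk (fun e n => ?_) h
  have h1 := Ib_neg (b e) n
  rw [Ib_eq (hb e), Ib_eq (hb e)] at h1
  have h2 := congrArg ENNReal.toReal h1
  rwa [ENNReal.toReal_ofReal (wI_nonneg (hb e) _), ENNReal.toReal_ofReal (wI_nonneg (hb e) _)] at h2

theorem prod_ga (f : V → ℝ) (h : V → ℤ) : ∏ x, ga m f x (h x) = H871.gs m f h := by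
  unfold ga H871.gs
  rw [← Real.exp_sum, ← Finset.sum_neg_distrib]
  congr 1
  exact Finset.sum_congr rfl fun x _ => by ring

theorem Zr_eq (f : V → ℝ) : Zr s t b m f = H871.Z (Wg s t b) m f := by
  unfold Zr H871.Z
  refine tsum_congr fun h => ?_
  rw [prod_ga]
  rfl

/-- probability of an event of `(d, omega)` in the background `f` -/
noncomputable def Pf (f : V → ℝ) (O : (V → ℤ) → Finset E → Prop) : ℝ :=
  Er s t b hb m f (fun d om => open Classical in if O d om then 1 else 0) / Zr s t b m f ^ 2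

/-! ### continuity and periodicity in the background -/

/-- the edge weight of the two copies together with an observable -/
noncomputable def WF (F : (V → ℤ) → Finset E → ℝ) (H : V ⊕ V → ℤ) : ℝ :=
  ∑ om : Finset E, ((∏ e ∈ om, (sysf s t b hb m 0).op e (H (Sum.inl (s e)), H (Sum.inr (s e)))
      (H (Sum.inl (t e)), H (Sum.inr (t e)))) *
    (∏ e ∈ omᶜ, (sysf s t b hb m 0).cl e (H (Sum.inl (s e)), H (Sum.inr (s e)))
      (H (Sum.inl (t e)), H (Sum.inr (t e))))) * F (fun x => H (Sum.inl x) - H (Sum.inr x)) om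

theorem WF_nonneg {F : (V → ℤ) → Finset E → ℝ} (F0 : ∀ d om, 0 ≤ F d om) (H : V ⊕ V → ℤ) :
    0 ≤ WF s t b hb m F H := by
  unfold WF
  refine Finset.sum_nonneg fun om _ => mul_nonneg (mul_nonneg ?_ ?_) (F0 _ _)
  · exact Finset.prod_nonneg fun e _ => (sysf s t b hb m 0).op_nonneg _ _ _
  · exact Finset.prod_nonneg fun e _ => (sysf s t b hb m 0).cl_nonneg _ _ _

theorem WF_le {F : (V → ℤ) → Finset E → ℝ} {C : ℝ} (F1 : ∀ d om, F d om ≤ C)
    (H : V ⊕ V → ℤ) : WF s t b hb m F H ≤ C *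
      ((∏ e, wI (b e) (H (Sum.inl (t e)) - H (Sum.inl (s e)))) *
        ∏ e, wI (b e) (H (Sum.inr (t e)) - H (Sum.inr (s e)))) := by
  have h1 : (∏ e, wI (b e) (H (Sum.inl (t e)) - H (Sum.inl (s e)))) *
        ∏ e, wI (b e) (H (Sum.inr (t e)) - H (Sum.inr (s e)))
      = ∑ om : Finset E, (∏ e ∈ om, (sysf s t b hb m 0).op e
          (H (Sum.inl (s e)), H (Sum.inr (s e))) (H (Sum.inl (t e)), H (Sum.inr (t e)))) *
        (∏ e ∈ omᶜ, (sysf s t b hb m 0).cl e (H (Sum.inl (s e)), H (Sum.inr (s e)))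
          (H (Sum.inl (t e)), H (Sum.inr (t e)))) := by
    rw [← Finset.prod_mul_distrib]
    have h2 : ∀ e, wI (b e) (H (Sum.inl (t e)) - H (Sum.inl (s e))) *
        wI (b e) (H (Sum.inr (t e)) - H (Sum.inr (s e)))
        = (sysf s t b hb m 0).op e (H (Sum.inl (s e)), H (Sum.inr (s e)))
            (H (Sum.inl (t e)), H (Sum.inr (t e))) +
          (sysf s t b hb m 0).cl e (H (Sum.inl (s e)), H (Sum.inr (s e)))
            (H (Sum.inl (t e)), H (Sum.inr (t e))) := by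
      intro e
      rw [Sys.op_add_cl]
      rfl
    simp_rw [h2]
    rw [Finset.prod_add, Finset.powerset_univ]
    refine Finset.sum_congr rfl fun om _ => ?_
    rw [← Finset.compl_eq_univ_sdiff]
  rw [h1, Finset.mul_sum]
  unfold WF
  refine Finset.sum_le_sum fun om _ => ?_
  rw [mul_comm C]
  refine mul_le_mul_of_nonneg_left (F1 _ _) (mul_nonneg ?_ ?_)
  · exact Finset.prod_nonneg fun e _ => (sysf s t b hb m 0).op_nonneg _ _ _
  · exact Finset.prod_nonneg fun e _ => (sysf s t b hb m 0).cl_nonneg _ _ _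

theorem WF_bdd {F : (V → ℤ) → Finset E → ℝ} {C : ℝ} (hC : 0 ≤ C) (F1 : ∀ d om, F d om ≤ C) :
    ∃ B, ∀ H : V ⊕ V → ℤ, WF s t b hb m F H ≤ B := by
  refine ⟨C * ((∏ e, ∑' k, wI (b e) k) * ∏ e, ∑' k, wI (b e) k), fun H => ?_⟩
  refine (WF_le s t b hb m F1 H).trans ?_
  refine mul_le_mul_of_nonneg_left ?_ hC
  have h3 : ∀ (g : E → ℤ), ∏ e, wI (b e) (g e) ≤ ∏ e, ∑' k, wI (b e) k := fun g =>
    Finset.prod_le_prod (fun e _ => wI_nonneg (hb e) _) fun e _ => wI_le_sum (hb e) _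
  exact mul_le_mul (h3 _) (h3 _) (Finset.prod_nonneg fun e _ => wI_nonneg (hb e) _)
    (Finset.prod_nonneg fun e _ => tsum_nonneg fun k => wI_nonneg (hb e) k)

/-- `Er` as a partition function on the doubled set of sites -/
theorem Er_eq_Z (f : V → ℝ) (F : (V → ℤ) → Finset E → ℝ) :
    Er s t b hb m f F = H871.Z (WF s t b hb m F) (Sum.elim m m) (Sum.elim f f) := by
  unfold Er H871.Z
  let e1 : (V ⊕ V → ℤ) ≃ (V → ℤ × ℤ) :=
    (Equiv.sumArrowEquivProdArrow V V ℤ).trans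
      (Equiv.arrowProdEquivProdArrow V (fun _ => ℤ) (fun _ => ℤ)).symm
  rw [← e1.tsum_eq]
  refine tsum_congr fun H => ?_
  have h1 : ∀ x, e1 H x = (H (Sum.inl x), H (Sum.inr x)) := fun x => rfl
  have h2 : H871.gs (Sum.elim m m) (Sum.elim f f) H
      = ∏ x, (ga m f x (H (Sum.inl x)) * ga m f x (H (Sum.inr x))) := by
    rw [Finset.prod_mul_distrib, prod_ga, prod_ga]
    unfold H871.gs
    rw [← Real.exp_add, Fintype.sum_sum_type]
    simp only [Sum.elim_inl, Sum.elim_inr]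
    rw [neg_add]
  rw [h2]
  unfold WF
  rw [Finset.sum_mul]
  refine Finset.sum_congr rfl fun om _ => ?_
  have h3 : (sysf s t b hb m f).wt om (e1 H)
      = (∏ e ∈ om, (sysf s t b hb m 0).op e (H (Sum.inl (s e)), H (Sum.inr (s e)))
          (H (Sum.inl (t e)), H (Sum.inr (t e)))) *
        (∏ e ∈ omᶜ, (sysf s t b hb m 0).cl e (H (Sum.inl (s e)), H (Sum.inr (s e)))
          (H (Sum.inl (t e)), H (Sum.inr (t e)))) *
        ∏ x, (ga m f x (H (Sum.inl x)) * ga m f x (H (Sum.inr x))) := rfl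
  rw [h3]
  have h4 : (fun x => (e1 H x).1 - (e1 H x).2) = fun x => H (Sum.inl x) - H (Sum.inr x) := rfl
  rw [h4]
  ring

theorem sum_pos_mass (hm : ∀ x, 0 < m x) : ∀ y : V ⊕ V, 0 < Sum.elim m m y := by
  rintro (x | x) <;> exact hm x

theorem continuous_Er (hm : ∀ x, 0 < m x) {F : (V → ℤ) → Finset E → ℝ}
    (F0 : ∀ d om, 0 ≤ F d om) (F1 : ∀ d om, F d om ≤ 1) :
    Continuous fun f : V → ℝ => Er s t b hb m f F := by
  have hF1 : H871.Wt (WF s t b hb m (fun d om => F d om + 1)) := by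
    refine ⟨fun H => WF_nonneg s t b hb m (fun d om => by have := F0 d om; linarith) H,
      WF_bdd s t b hb m (C := 2) (by norm_num) (fun d om => by have := F1 d om; linarith), ?_⟩
    refine ⟨0, ?_⟩
    have h1 : WF s t b hb m (fun _ _ => 1) 0 ≤ WF s t b hb m (fun d om => F d om + 1) 0 := by
      unfold WF
      refine Finset.sum_le_sum fun om _ => mul_le_mul_of_nonneg_left (by
        have := F0 (fun x => (0 : V ⊕ V → ℤ) (Sum.inl x) - (0 : V ⊕ V → ℤ) (Sum.inr x)) om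
        linarith) (mul_nonneg
        (Finset.prod_nonneg fun e _ => (sysf s t b hb m 0).op_nonneg _ _ _)
        (Finset.prod_nonneg fun e _ => (sysf s t b hb m 0).cl_nonneg _ _ _))
    refine lt_of_lt_of_le ?_ h1
    unfold WF
    simp only [mul_one]
    rw [← full_expand]
    refine Finset.prod_pos fun e _ => ?_
    rw [Sys.op_add_cl]
    have : (sysf s t b hb m 0).fl e ((0 : V ⊕ V → ℤ) (Sum.inl (s e)), (0 : V ⊕ V → ℤ) (Sum.inr (s e)))
        ((0 : V ⊕ V → ℤ) (Sum.inl (t e)), (0 : V ⊕ V → ℤ) (Sum.inr (t e)))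
        = wI (b e) 0 * wI (b e) 0 := by
      simp [sysf, two]
    rw [this]
    exact mul_pos (wI_zero_pos (hb e)) (wI_zero_pos (hb e))
  have h1W : H871.Wt (WF s t b hb m (fun _ _ => 1)) := by
    refine ⟨fun H => WF_nonneg s t b hb m (fun d om => zero_le_one) H,
      WF_bdd s t b hb m (C := 1) zero_le_one (fun d om => le_rfl), ?_⟩
    refine ⟨0, ?_⟩
    unfold WF
    simp only [mul_one]
    rw [← full_expand]
    refine Finset.prod_pos fun e _ => ?_
    rw [Sys.op_add_cl]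
    have : (sysf s t b hb m 0).fl e ((0 : V ⊕ V → ℤ) (Sum.inl (s e)), (0 : V ⊕ V → ℤ) (Sum.inr (s e)))
        ((0 : V ⊕ V → ℤ) (Sum.inl (t e)), (0 : V ⊕ V → ℤ) (Sum.inr (t e)))
        = wI (b e) 0 * wI (b e) 0 := by
      simp [sysf, two]
    rw [this]
    exact mul_pos (wI_zero_pos (hb e)) (wI_zero_pos (hb e))
  have hel : Continuous fun f : V → ℝ => (Sum.elim f f : V ⊕ V → ℝ) := by
    refine continuous_pi fun y => ?_
    rcases y with x | x
    · exact continuous_apply x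
    · exact continuous_apply x
  have hmm := sum_pos_mass m hm
  have h2 : Continuous fun f : V → ℝ => H871.Z (WF s t b hb m (fun d om => F d om + 1))
      (Sum.elim m m) (Sum.elim f f) - H871.Z (WF s t b hb m (fun _ _ => 1)) (Sum.elim m m)
        (Sum.elim f f) :=
    ((hF1.continuous_Z hmm).comp hel).sub ((h1W.continuous_Z hmm).comp hel)
  refine h2.congr fun f => ?_
  rw [Er_eq_Z]
  unfold H871.Z
  rw [← (hF1.summable hmm _).tsum_sub (h1W.summable hmm _)]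
  refine tsum_congr fun H => ?_
  rw [← sub_mul]
  congr 1
  unfold WF
  rw [← Finset.sum_sub_distrib]
  refine Finset.sum_congr rfl fun om _ => ?_
  ring

include hb in
theorem continuous_Zr (hm : ∀ x, 0 < m x) : Continuous (Zr s t b m) := by
  have h1 : Zr s t b m = H871.Z (Wg s t b) m := funext fun f => Zr_eq s t b m f
  rw [h1]
  exact (wt_Wg s t b hb).continuous_Z hm

theorem continuous_Pf (hm : ∀ x, 0 < m x) (O : (V → ℤ) → Finset E → Prop) :
    Continuous fun f : V → ℝ => Pf s t b hb m f O := by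
  unfold Pf
  refine Continuous.div (continuous_Er s t b hb m hm (fun d om => ?_) fun d om => ?_)
    ((continuous_Zr s t b hb m hm).pow 2) fun f => (pow_pos (Zr_pos s t b m hb hm f) 2).ne'
  · split_ifs <;> norm_num
  · split_ifs <;> norm_num

theorem WF_shift (F : (V → ℤ) → Finset E → ℝ) (H : V ⊕ V → ℤ) :
    WF s t b hb m F (H + 1) = WF s t b hb m F H := by
  unfold WF
  refine Finset.sum_congr rfl fun om _ => ?_
  have h1 : (fun x => (H + 1) (Sum.inl x) - (H + 1) (Sum.inr x))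
      = fun x : V => H (Sum.inl x) - H (Sum.inr x) := by
    funext x
    simp
  rw [h1]
  have hfl : ∀ (e : E) (p q : ℤ × ℤ), (sysf s t b hb m 0).fl e (p + 1) (q + 1)
      = (sysf s t b hb m 0).fl e p q := by
    intro e p q
    simp [sysf, two]
  have hfs : ∀ (e : E) (p q : ℤ × ℤ), (sysf s t b hb m 0).fl e ((sysf s t b hb m 0).sw (p + 1))
      (q + 1) = (sysf s t b hb m 0).fl e ((sysf s t b hb m 0).sw p) q := by
    intro e p q
    simp [sysf, two]
  have hp : ∀ x : V, ((H + 1) (Sum.inl x), (H + 1) (Sum.inr x))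
      = (H (Sum.inl x), H (Sum.inr x)) + 1 := fun x => rfl
  congr 2
  · refine Finset.prod_congr rfl fun e _ => ?_
    unfold Sys.op
    rw [hp, hp, hfl, hfs]
  · refine Finset.prod_congr rfl fun e _ => ?_
    unfold Sys.cl
    rw [hp, hp, hfl, hfs]

theorem Pf_shift (O : (V → ℤ) → Finset E → Prop) (f : V → ℝ) :
    Pf s t b hb m (fun z => f z + 1) O = Pf s t b hb m f O := by
  unfold Pf
  rw [Er_eq_Z, Er_eq_Z, Zr_eq, Zr_eq, H871.Z_shift (shift_Wg s t b)]
  congr 1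
  have h1 : (Sum.elim (fun z => f z + 1) (fun z => f z + 1) : V ⊕ V → ℝ)
      = fun y => Sum.elim f f y + 1 := by
    funext y
    rcases y with x | x <;> rfl
  rw [h1, H871.Z_shift (WF_shift s t b hb m _)]

theorem Pf_nonneg (_hm : ∀ x, 0 < m x) (f : V → ℝ) (O : (V → ℤ) → Finset E → Prop) :
    0 ≤ Pf s t b hb m f O := by
  unfold Pf
  refine div_nonneg ?_ (sq_nonneg _)
  unfold Er
  refine tsum_nonneg fun H => Finset.sum_nonneg fun om _ => mul_nonneg (Sys.wt_nonneg _ _ _) ?_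
  beta_reduce
  split_ifs <;> norm_num

/-! ### the density bound (B2 + B3) -/

/-- E4 with `U`: `|P_f(O) - P_0(O)|² ≤ exp(4 U(f) - U(2f)) - 1` -/
theorem E4_U (hm : ∀ x, 0 < m x) (f : V → ℝ) (O : (V → ℤ) → Finset E → Prop) :
    |Pf s t b hb m f O - Pf s t b hb m (fun _ => 0) O|
      ≤ √(Real.exp (4 * H871.U (Wg s t b) m f - H871.U (Wg s t b) m (fun x => 2 * f x)) - 1) := by
  have h := E4 s t b hb m hm f (F := fun d om => open Classical in if O d om then 1 else 0)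
    (fun d om => by split_ifs <;> norm_num) (fun d om => by split_ifs <;> norm_num)
  unfold Pf
  refine h.trans (le_of_eq ?_)
  congr 2
  have p0 := Zr_pos s t b m hb hm (fun _ => 0)
  have pf := Zr_pos s t b m hb hm f
  have p2 := Zr_pos s t b m hb hm (fun x => 2 * f x)
  have e0 : H871.Z (Wg s t b) m 0 = Zr s t b m (fun _ => 0) := (Zr_eq s t b m _).symm
  unfold H871.U
  rw [e0, ← Zr_eq, ← Zr_eq, Real.log_div pf.ne' p0.ne', Real.log_div p2.ne' p0.ne']
  have e1 : 4 * -(Real.log (Zr s t b m f) - Real.log (Zr s t b m fun _ => 0)) -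
      -(Real.log (Zr s t b m fun x => 2 * f x) - Real.log (Zr s t b m fun _ => 0))
      = Real.log (Zr s t b m (fun x => 2 * f x) * Zr s t b m (fun _ => 0) ^ 3 /
          Zr s t b m f ^ 4) := by
    rw [Real.log_div (by positivity) (by positivity), Real.log_mul (by positivity) (by positivity),
      Real.log_pow, Real.log_pow]
    push_cast
    ring
  rw [e1, Real.exp_log (by positivity)]

include hb in
/-- `U(c + ψ) ≤ κ + 2 U(ψ)` and `U(2(c+ψ)) ≥ -κ/2` -/
theorem U_shift_le (hm : ∀ x, 0 < m x) (hG : H871.Gin (Wg s t b) m) (ψ : V → ℝ) (c : ℝ) :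
    H871.U (Wg s t b) m (fun x => c + ψ x) ≤ H871.kap (Wg s t b) m + 2 * H871.U (Wg s t b) m ψ := by
  have hW := wt_Wg s t b hb
  have h1 := hG.U_le hW hm (fun _ => c) ψ
  have h2 := H871.osc_kap hW hm (shift_Wg s t b) (even_Wg s t b hb) hG 0 c 0
  have h3 := H871.mid_kap hW hm (shift_Wg s t b) (sup_Wg s t b hb) (even_Wg s t b hb) hG 0
    ((fun _ => c) - ψ)
  have h0 : H871.U (Wg s t b) m 0 = 0 := hW.U_zero hm
  have e1 : (fun x => (0 : V → ℝ) x + c) = fun _ => c := by funext x; simp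
  have e2 : (fun x => (0 : V → ℝ) x + 0) = 0 := by funext x; simp
  rw [e1, e2, h0, sub_zero] at h2
  have hev : ∀ f : V → ℝ, H871.U (Wg s t b) m (-f) = H871.U (Wg s t b) m f := fun f => by
    unfold H871.U
    rw [H871.Z_neg (even_Wg s t b hb)]
  rw [h0, zero_add, zero_sub, hev] at h3
  have e3 : ((fun _ => c) + ψ : V → ℝ) = fun x => c + ψ x := rfl
  rw [e3] at h1
  have h4 := (abs_le.1 h2).2
  linarith

include hb in
theorem U_low (hm : ∀ x, 0 < m x) (hG : H871.Gin (Wg s t b) m) (f : V → ℝ) :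
    -(H871.kap (Wg s t b) m / 2) ≤ H871.U (Wg s t b) m f := by
  have hW := wt_Wg s t b hb
  have h3 := H871.mid_kap hW hm (shift_Wg s t b) (sup_Wg s t b hb) (even_Wg s t b hb) hG 0 f
  have h0 : H871.U (Wg s t b) m 0 = 0 := hW.U_zero hm
  have hev : H871.U (Wg s t b) m (-f) = H871.U (Wg s t b) m f := by
    unfold H871.U
    rw [H871.Z_neg (even_Wg s t b hb)]
  rw [h0, zero_add, zero_sub, hev] at h3
  linarith

/-- **B2 + B3**: the density bound for one clamp.  `κ' = κ per site`, `a` = stiffness bound. -/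
theorem H1_of (hm : ∀ x, 0 < m x) (hG : H871.Gin (Wg s t b) m)
    {κ' a Cv m₀ l c₀ η : ℝ} (hl : 0 < l) (hm₀l : l ≤ m₀) (hm₀ : m₀ ^ 2 ≤ 1 / 2) (hκ' : 0 ≤ κ')
    (ha : 0 ≤ a)
    (hQ : ∀ ψ : V → ℝ, (∑ x, m x * ψ x ^ 2) - H871.Q0 (Wg s t b) m ψ
      ≤ κ' * ∑ x, ψ x ^ 2 + a * ∑ e, (ψ (t e) - ψ (s e)) ^ 2)
    (hkap : H871.kap (Wg s t b) m ≤ η) (hκV : κ' * Fintype.card V ≤ η)
    (d : V → V → ℝ) (hd1 : ∀ e, d (s e) (t e) ≤ 1) (hsymm : ∀ z w, d z w = d w z)
    (hvol : ∀ (x : V) (ρ : ℝ), 1 ≤ ρ →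
      ((Finset.univ.filter fun e => d x (s e) < ρ ∨ d x (t e) < ρ).card : ℝ) ≤ Cv * ρ ^ 2)
    (hsm : Real.exp (7 * η + 4 * (a * Cv * m₀ ^ 2)) - 1 ≤ (c₀ / 8) ^ 2) (hc₀ : 0 ≤ c₀)
    (O : V → (V → ℤ) → Finset E → Prop)
    (h0 : ∀ x, c₀ ≤ Pf s t b hb m (fun _ => 0) (O x))
    (f : V → ℝ) (x : V) (hf : Lip d l f) (hfm : ∀ z, |f z - f x| ≤ m₀)
    (hfar : ∀ z, m₀ ≤ l * d x z → f z = f x) :
    7 / 8 * c₀ ≤ Pf s t b hb m f (O x) := by
  have hm₀' : 0 < m₀ := lt_of_lt_of_le hl hm₀l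
  set ψ : V → ℝ := fun z => f z - f x with hψ
  have hfψ : f = fun z => f x + ψ z := by
    funext z
    simp [hψ]
  have hη0 : 0 ≤ η := le_trans (by positivity) hκV
  -- energy
  have hen : ∑ e, (ψ (t e) - ψ (s e)) ^ 2 ≤ Cv * m₀ ^ 2 := by
    have h1 : ∑ e, (ψ (t e) - ψ (s e)) ^ 2
        ≤ ∑ e ∈ Finset.univ.filter (fun e => d x (s e) < m₀ / l ∨ d x (t e) < m₀ / l), l ^ 2 := by
      rw [← Finset.sum_filter_add_sum_filter_not Finset.univ
        (fun e => d x (s e) < m₀ / l ∨ d x (t e) < m₀ / l)]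
      have h2 : ∑ e ∈ Finset.univ.filter (fun e => ¬ (d x (s e) < m₀ / l ∨ d x (t e) < m₀ / l)),
          (ψ (t e) - ψ (s e)) ^ 2 = 0 := by
        refine Finset.sum_eq_zero fun e he => ?_
        rw [Finset.mem_filter, not_or, not_lt, not_lt] at he
        have h3 : f (s e) = f x := hfar _ (by
          have := (div_le_iff₀ hl).1 he.2.1
          linarith)
        have h4 : f (t e) = f x := hfar _ (by
          have := (div_le_iff₀ hl).1 he.2.2
          linarith)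
        simp [hψ, h3, h4]
      rw [h2, add_zero]
      refine Finset.sum_le_sum fun e _ => ?_
      have h3 : |ψ (t e) - ψ (s e)| ≤ l := by
        have h4 : ψ (t e) - ψ (s e) = f (t e) - f (s e) := by simp [hψ]
        rw [h4]
        refine (hf (t e) (s e)).trans ?_
        rw [hsymm]
        calc l * d (s e) (t e) ≤ l * 1 := mul_le_mul_of_nonneg_left (hd1 e) hl.le
          _ = l := mul_one l
      rw [← sq_abs]
      exact pow_le_pow_left₀ (abs_nonneg _) h3 2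
    rw [Finset.sum_const, nsmul_eq_mul] at h1
    have h5 := hvol x (m₀ / l) (by rw [le_div_iff₀ hl]; linarith)
    calc ∑ e, (ψ (t e) - ψ (s e)) ^ 2 ≤ _ := h1
      _ ≤ Cv * (m₀ / l) ^ 2 * l ^ 2 := mul_le_mul_of_nonneg_right h5 (sq_nonneg _)
      _ = Cv * m₀ ^ 2 := by field_simp
  have hψ2 : κ' * ∑ x, ψ x ^ 2 ≤ η * m₀ ^ 2 := by
    have h1 : ∑ x, ψ x ^ 2 ≤ Fintype.card V * m₀ ^ 2 := by
      calc ∑ x, ψ x ^ 2 ≤ ∑ _x : V, m₀ ^ 2 := Finset.sum_le_sum fun z _ => by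
            rw [← sq_abs]; exact pow_le_pow_left₀ (abs_nonneg _) (hfm z) 2
        _ = _ := by rw [Finset.sum_const, nsmul_eq_mul, Finset.card_univ]
    calc κ' * ∑ x, ψ x ^ 2 ≤ κ' * (Fintype.card V * m₀ ^ 2) := mul_le_mul_of_nonneg_left h1 hκ'
      _ = κ' * Fintype.card V * m₀ ^ 2 := by ring
      _ ≤ η * m₀ ^ 2 := mul_le_mul_of_nonneg_right hκV (sq_nonneg _)
  have hUψ : 2 * H871.U (Wg s t b) m ψ ≤ η * m₀ ^ 2 + a * (Cv * m₀ ^ 2) := by
    have h1 := H871.U_quad (wt_Wg s t b hb) hm (even_Wg s t b hb) hG ψ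
    have h2 := hQ ψ
    have h3 : a * ∑ e, (ψ (t e) - ψ (s e)) ^ 2 ≤ a * (Cv * m₀ ^ 2) :=
      mul_le_mul_of_nonneg_left hen ha
    linarith
  have hUf : H871.U (Wg s t b) m f ≤ η + (η * m₀ ^ 2 + a * (Cv * m₀ ^ 2)) := by
    rw [hfψ]
    have := U_shift_le s t b hb m hm hG ψ (f x)
    linarith
  have hU2 := U_low s t b hb m hm hG (fun x => 2 * f x)
  have hexp : 4 * H871.U (Wg s t b) m f - H871.U (Wg s t b) m (fun x => 2 * f x)
      ≤ 7 * η + 4 * (a * Cv * m₀ ^ 2) := by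
    have h1 : η * m₀ ^ 2 ≤ η * (1 / 2) := mul_le_mul_of_nonneg_left hm₀ hη0
    nlinarith
  have hE := E4_U s t b hb m hm f (O x)
  have hroot : √(Real.exp (4 * H871.U (Wg s t b) m f -
      H871.U (Wg s t b) m (fun x => 2 * f x)) - 1) ≤ c₀ / 8 := by
    rw [Real.sqrt_le_left (by positivity)]
    refine le_trans ?_ hsm
    have := Real.exp_le_exp.2 hexp
    linarith
  have h1 := (abs_le.1 (hE.trans hroot)).1
  have h2 := h0 x
  linarith

/-- **B4**: the probability of `O_x^+` is at least `3c₀/4` in every background of slope `≤ L`.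
Inputs: `h0` (A6 at background 0), `hQ`, `hkap`, `hκV` (Theorem A, small total activity),
`H2` (B1 + E5: exponentially small influence under the bootstrap assumption). -/
theorem B4 (hm : ∀ x, 0 < m x) (hG : H871.Gin (Wg s t b) m)
    {κ' a Cv m₀ L c₀ η C c : ℝ} (hL : 0 < L) (hm₀L : L ≤ m₀) (hm₀ : m₀ ^ 2 ≤ 1 / 2)
    (hκ' : 0 ≤ κ') (ha : 0 ≤ a) (hc₀ : 0 < c₀) (hc : 0 < c) (hC : 0 ≤ C)
    (hQ : ∀ ψ : V → ℝ, (∑ x, m x * ψ x ^ 2) - H871.Q0 (Wg s t b) m ψ
      ≤ κ' * ∑ x, ψ x ^ 2 + a * ∑ e, (ψ (t e) - ψ (s e)) ^ 2)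
    (hkap : H871.kap (Wg s t b) m ≤ η) (hκV : κ' * Fintype.card V ≤ η)
    (d : V → V → ℝ) (hd0 : ∀ z w, 0 ≤ d z w) (hd1 : ∀ e, d (s e) (t e) ≤ 1)
    (hsymm : ∀ z w, d z w = d w z) (htri : ∀ x z w, d x w ≤ d x z + d z w)
    (hvol : ∀ (x : V) (ρ : ℝ), 1 ≤ ρ →
      ((Finset.univ.filter fun e => d x (s e) < ρ ∨ d x (t e) < ρ).card : ℝ) ≤ Cv * ρ ^ 2)
    (hsm : Real.exp (7 * η + 4 * (a * Cv * m₀ ^ 2)) - 1 ≤ (c₀ / 8) ^ 2)
    (O : V → (V → ℤ) → Finset E → Prop)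
    (h0 : ∀ x, c₀ ≤ Pf s t b hb m (fun _ => 0) (O x))
    (H2 : ∀ l : ℝ, 0 < l → l ≤ L → (∀ f x, Lip d l f → c₀ / 2 ≤ Pf s t b hb m f (O x)) →
      ∀ (f g : V → ℝ) (x : V) (r : ℝ), Lip d l f → Lip d l g → 0 ≤ r →
      (∀ z, d x z ≤ r → f z = g z) → (∀ z, |f z - g z| ≤ 1) →
        |Pf s t b hb m f (O x) - Pf s t b hb m g (O x)| ≤ C * Real.exp (-(c * r)))
    (hq : Real.exp (-(c / (2 * L))) ≤ 1 / 2)
    (hsmall : 2 * C * Real.exp (-(c * m₀ / (2 * L))) ≤ c₀ / 8)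
    (f : V → ℝ) (hf : Lip d L f) (x : V) : 3 / 4 * c₀ ≤ Pf s t b hb m f (O x) :=
  bootstrap hd0 hsymm htri (fun f x => Pf s t b hb m f (O x))
    (fun x => continuous_Pf s t b hb m hm (O x)) (fun f x => Pf_shift s t b hb m (O x) f)
    hL hc₀ hc hC (lt_of_lt_of_le hL hm₀L)
    (fun _ hl hlL f x hf hfm hfar => H1_of s t b hb m hm hG hl (hlL.trans hm₀L) hm₀ hκ' ha hQ
      hkap hκV d hd1 hsymm hvol hsm hc₀.le O h0 f x hf hfm hfar)
    H2 hq hsmall f hf x

end

end Vale.Agent.P159.TM.H857
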