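/-
P159, T1, row B1/B4, analytic half of (H2) (helper857): the influence of a change of the background
on a local event of `(d, omega)` of two copies.

The conditional probability `Fc` of the event given the heights depends on the heights in `B` only;
one copy is changed at a time (mean value theorem, `H104.hasDerivAt_E`) and `H426.cov_influence` is
applied with the other copy frozen.
-/
import Vale.Agent.P159.TM.H857.B4
import Vale.Agent.P159.TM.H104.Mass
import Vale.Agent.P159.TM.H426.Infl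
import Vale.Agent.P159.TM.H576.Infl
import Vale.Agent.P159.TM.H576.Inst

open scoped ENNReal BigOperators
open Finset Filter Topology

set_option linter.unusedSectionVars false

namespace Vale.Agent.P159.TM.H857

open Vale.Agent.P159.H353 Vale.Agent.P159.T1.H897 Vale.Agent.P159.TM.H131
  Vale.Agent.P159.TM.H60

/-! ### sums over sets of edges -/

section fin

variable {E : Type*} [Fintype E] [DecidableEq E]

theorem sum_split (I : Finset E) (Φ : Finset E → ℝ) :
    ∑ om : Finset E, Φ om = ∑ A ∈ I.powerset, ∑ A' ∈ Iᶜ.powerset, Φ (A ∪ A') := by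
  rw [← Finset.sum_product']
  refine Finset.sum_bij' (fun om _ => (om ∩ I, om ∩ Iᶜ)) (fun p _ => p.1 ∪ p.2) ?_ ?_ ?_ ?_ ?_
  · intro om _
    simp only [Finset.mem_product, Finset.mem_powerset]
    exact ⟨Finset.inter_subset_right, Finset.inter_subset_right⟩
  · intro p _
    exact Finset.mem_univ _
  · intro om _
    show om ∩ I ∪ om ∩ Iᶜ = om
    rw [← Finset.inter_union_distrib_left, Finset.union_compl, Finset.inter_univ]
  · intro p hp
    simp only [Finset.mem_product, Finset.mem_powerset] at hp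
    obtain ⟨h1, h2⟩ := hp
    have h3 : Disjoint p.2 I := by
      rw [Finset.disjoint_left]
      intro e he hI
      exact (Finset.mem_compl.1 (h2 he)) hI
    have h4 : Disjoint p.1 Iᶜ := by
      rw [Finset.disjoint_left]
      intro e he hI
      exact (Finset.mem_compl.1 hI) (h1 he)
    refine Prod.ext ?_ ?_
    · show (p.1 ∪ p.2) ∩ I = p.1
      rw [Finset.union_inter_distrib_right, Finset.disjoint_iff_inter_eq_empty.1 h3,
        Finset.union_empty, Finset.inter_eq_left.2 h1]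
    · show (p.1 ∪ p.2) ∩ Iᶜ = p.2
      rw [Finset.union_inter_distrib_right, Finset.disjoint_iff_inter_eq_empty.1 h4,
        Finset.empty_union, Finset.inter_eq_left.2 h2]
  · intro om _
    show Φ om = Φ (om ∩ I ∪ om ∩ Iᶜ)
    rw [← Finset.inter_union_distrib_left, Finset.union_compl, Finset.inter_univ]

/-- product weights: the edges off `I` are summed out -/
theorem sum_local (I : Finset E) (p q : E → ℝ) (G : Finset E → ℝ)
    (hG : ∀ om, G om = G (om ∩ I)) :
    ∑ om : Finset E, (∏ e ∈ om, p e) * (∏ e ∈ omᶜ, q e) * G om =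
      (∏ e ∈ Iᶜ, (p e + q e)) *
        ∑ A ∈ I.powerset, (∏ e ∈ A, p e) * (∏ e ∈ I \ A, q e) * G A := by
  rw [sum_split I, Finset.mul_sum]
  refine Finset.sum_congr rfl fun A hA => ?_
  rw [Finset.mem_powerset] at hA
  rw [Finset.prod_add, Finset.sum_mul]
  refine Finset.sum_congr rfl fun A' hA' => ?_
  rw [Finset.mem_powerset] at hA'
  have hd : Disjoint A A' := by
    rw [Finset.disjoint_left]
    intro e he he'
    exact (Finset.mem_compl.1 (hA' he')) (hA he)
  have hc : (A ∪ A')ᶜ = (I \ A) ∪ (Iᶜ \ A') := by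
    ext e
    simp only [Finset.mem_compl, Finset.mem_union, Finset.mem_sdiff]
    by_cases h1 : e ∈ I
    · have h2 : e ∉ A' := fun h => (Finset.mem_compl.1 (hA' h)) h1
      simp [h1, h2]
    · have h2 : e ∉ A := fun h => h1 (hA h)
      simp [h1, h2]
  have hd2 : Disjoint (I \ A) (Iᶜ \ A') := by
    rw [Finset.disjoint_left]
    intro e he he'
    exact (Finset.mem_compl.1 (Finset.mem_sdiff.1 he').1) (Finset.mem_sdiff.1 he).1
  have hi : (A ∪ A') ∩ I = A := by
    have h3 : Disjoint A' I := by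
      rw [Finset.disjoint_left]
      intro e he hI
      exact (Finset.mem_compl.1 (hA' he)) hI
    rw [Finset.union_inter_distrib_right, Finset.disjoint_iff_inter_eq_empty.1 h3,
      Finset.union_empty, Finset.inter_eq_left.2 hA]
  rw [hG (A ∪ A'), hi, Finset.prod_union hd, hc, Finset.prod_union hd2]
  ring

end fin

section

variable {V E : Type*} [Fintype V] [DecidableEq V] [Fintype E] [DecidableEq E]
variable (s t : E → V) (b : E → ℝ) (hb : ∀ e, 0 ≤ b e) (m : V → ℝ)

/-! ### the conditional probability of an event given the heights -/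

/-- open weight of the edge `e` -/
noncomputable def oe (H : V → ℤ × ℤ) (e : E) : ℝ := (sysf s t b hb m 0).op e (H (s e)) (H (t e))

/-- closed weight of the edge `e` -/
noncomputable def ce (H : V → ℤ × ℤ) (e : E) : ℝ := (sysf s t b hb m 0).cl e (H (s e)) (H (t e))

/-- full weight of the edge `e` -/
noncomputable def fe (H : V → ℤ × ℤ) (e : E) : ℝ := (sysf s t b hb m 0).fl e (H (s e)) (H (t e))

theorem oe_nonneg (H : V → ℤ × ℤ) (e : E) : 0 ≤ oe s t b hb m H e :=
  (sysf s t b hb m 0).op_nonneg _ _ _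

theorem ce_nonneg (H : V → ℤ × ℤ) (e : E) : 0 ≤ ce s t b hb m H e :=
  (sysf s t b hb m 0).cl_nonneg _ _ _

theorem oe_add_ce (H : V → ℤ × ℤ) (e : E) :
    oe s t b hb m H e + ce s t b hb m H e = fe s t b hb m H e :=
  (sysf s t b hb m 0).op_add_cl _ _ _

theorem fe_nonneg (H : V → ℤ × ℤ) (e : E) : 0 ≤ fe s t b hb m H e :=
  (sysf s t b hb m 0).fl_nonneg _ _ _

open Classical in
/-- conditional probability of `O` given the heights -/
noncomputable def Fc (O : (V → ℤ) → Finset E → Prop) (B : Finset V) (H : V → ℤ × ℤ) : ℝ :=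
  ∑ A ∈ (inE s t B).powerset, (∏ e ∈ A, oe s t b hb m H e / fe s t b hb m H e) *
    (∏ e ∈ inE s t B \ A, ce s t b hb m H e / fe s t b hb m H e) *
      if O (fun x => (H x).1 - (H x).2) A then 1 else 0

theorem Fc_nonneg (O : (V → ℤ) → Finset E → Prop) (B : Finset V) (H : V → ℤ × ℤ) :
    0 ≤ Fc s t b hb m O B H := by
  unfold Fc
  refine Finset.sum_nonneg fun A _ => mul_nonneg (mul_nonneg ?_ ?_) ?_
  · exact Finset.prod_nonneg fun e _ => div_nonneg (oe_nonneg ..) (fe_nonneg ..)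
  · exact Finset.prod_nonneg fun e _ => div_nonneg (ce_nonneg ..) (fe_nonneg ..)
  · split_ifs <;> norm_num

theorem Fc_le (O : (V → ℤ) → Finset E → Prop) (B : Finset V) (H : V → ℤ × ℤ) :
    Fc s t b hb m O B H ≤ 1 := by
  unfold Fc
  calc _ ≤ ∑ A ∈ (inE s t B).powerset, (∏ e ∈ A, oe s t b hb m H e / fe s t b hb m H e) *
        (∏ e ∈ inE s t B \ A, ce s t b hb m H e / fe s t b hb m H e) := by
        refine Finset.sum_le_sum fun A _ => mul_le_of_le_one_right (mul_nonneg ?_ ?_) ?_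
        · exact Finset.prod_nonneg fun e _ => div_nonneg (oe_nonneg ..) (fe_nonneg ..)
        · exact Finset.prod_nonneg fun e _ => div_nonneg (ce_nonneg ..) (fe_nonneg ..)
        · split_ifs <;> norm_num
    _ = ∏ e ∈ inE s t B, (oe s t b hb m H e / fe s t b hb m H e +
          ce s t b hb m H e / fe s t b hb m H e) := (Finset.prod_add _ _ _).symm
    _ ≤ 1 := by
        refine Finset.prod_le_one (fun e _ => add_nonneg (div_nonneg (oe_nonneg ..)
          (fe_nonneg ..)) (div_nonneg (ce_nonneg ..) (fe_nonneg ..))) fun e _ => ?_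
        rw [← add_div, oe_add_ce]
        exact div_self_le_one _

theorem Fc_congr {O : (V → ℤ) → Finset E → Prop} {B : Finset V}
    (hO : ∀ D D' om om', (∀ v ∈ B, D v = D' v) → om ∩ inE s t B = om' ∩ inE s t B →
      (O D om ↔ O D' om')) {H K : V → ℤ × ℤ} (h : ∀ x ∈ B, H x = K x) :
    Fc s t b hb m O B H = Fc s t b hb m O B K := by
  unfold Fc
  have e1 : ∀ e ∈ inE s t B, oe s t b hb m H e = oe s t b hb m K e ∧
      ce s t b hb m H e = ce s t b hb m K e ∧ fe s t b hb m H e = fe s t b hb m K e := by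
    intro e he
    rw [mem_inE] at he
    unfold oe ce fe
    rw [h _ he.1, h _ he.2]
    exact ⟨rfl, rfl, rfl⟩
  refine Finset.sum_congr rfl fun A hA => ?_
  rw [Finset.mem_powerset] at hA
  have h1 : ∏ e ∈ A, oe s t b hb m H e / fe s t b hb m H e =
      ∏ e ∈ A, oe s t b hb m K e / fe s t b hb m K e :=
    Finset.prod_congr rfl fun e he => by rw [(e1 e (hA he)).1, (e1 e (hA he)).2.2]
  have h2 : ∏ e ∈ inE s t B \ A, ce s t b hb m H e / fe s t b hb m H e =
      ∏ e ∈ inE s t B \ A, ce s t b hb m K e / fe s t b hb m K e :=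
    Finset.prod_congr rfl fun e he => by
      rw [(e1 e (Finset.mem_sdiff.1 he).1).2.1, (e1 e (Finset.mem_sdiff.1 he).1).2.2]
  have h3 : O (fun x => (H x).1 - (H x).2) A ↔ O (fun x => (K x).1 - (K x).2) A :=
    hO _ _ _ _ (fun v hv => by rw [h v hv]) rfl
  rw [h1, h2]
  by_cases h4 : O (fun x => (H x).1 - (H x).2) A
  · rw [if_pos h4, if_pos (h3.1 h4)]
  · rw [if_neg h4, if_neg fun h5 => h4 (h3.2 h5)]

open Classical in
/-- the sum over the open edges -/
theorem sum_wt_Fc {O : (V → ℤ) → Finset E → Prop} {B : Finset V}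
    (hO : ∀ D D' om om', (∀ v ∈ B, D v = D' v) → om ∩ inE s t B = om' ∩ inE s t B →
      (O D om ↔ O D' om')) (f : V → ℝ) (H : V → ℤ × ℤ) :
    ∑ om : Finset E, (sysf s t b hb m f).wt om H *
        (if O (fun x => (H x).1 - (H x).2) om then 1 else 0) =
      (sysf s t b hb m f).tot H * Fc s t b hb m O B H := by
  set D : V → ℤ := fun x => (H x).1 - (H x).2 with hD
  set G : Finset E → ℝ := fun om => if O D om then 1 else 0 with hG
  have hG' : ∀ om, G om = G (om ∩ inE s t B) := by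
    intro om
    have h1 : O D om ↔ O D (om ∩ inE s t B) := hO _ _ _ _ (fun v _ => rfl) (by
      rw [Finset.inter_assoc, Finset.inter_self])
    simp only [hG]
    by_cases h2 : O D om
    · rw [if_pos h2, if_pos (h1.1 h2)]
    · rw [if_neg h2, if_neg fun h3 => h2 (h1.2 h3)]
  set γ : ℝ := ∏ v, (sysf s t b hb m f).g v (H v) with hγ
  have e1 : ∑ om : Finset E, (sysf s t b hb m f).wt om H * G om =
      γ * ∑ om : Finset E, (∏ e ∈ om, oe s t b hb m H e) * (∏ e ∈ omᶜ, ce s t b hb m H e) *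
        G om := by
    rw [Finset.mul_sum]
    refine Finset.sum_congr rfl fun om _ => ?_
    have : (sysf s t b hb m f).wt om H = (∏ e ∈ om, oe s t b hb m H e) *
        (∏ e ∈ omᶜ, ce s t b hb m H e) * γ := rfl
    rw [this]
    ring
  have e2 : (sysf s t b hb m f).tot H = (∏ e, fe s t b hb m H e) * γ := rfl
  have key : ∑ om : Finset E, (∏ e ∈ om, oe s t b hb m H e) * (∏ e ∈ omᶜ, ce s t b hb m H e) *
        G om = (∏ e, fe s t b hb m H e) * Fc s t b hb m O B H := by
    rw [sum_local (inE s t B) _ _ G hG', ← Finset.prod_mul_prod_compl (inE s t B)]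
    simp only [oe_add_ce]
    rw [mul_comm (∏ e ∈ inE s t B, fe s t b hb m H e), mul_assoc]
    congr 1
    unfold Fc
    rw [Finset.mul_sum]
    refine Finset.sum_congr rfl fun A hA => ?_
    rw [Finset.mem_powerset] at hA
    have hf0 : ∀ e, fe s t b hb m H e * (oe s t b hb m H e / fe s t b hb m H e) =
        oe s t b hb m H e := by
      intro e
      by_cases h0 : fe s t b hb m H e = 0
      · have h1 := oe_add_ce s t b hb m H e
        have h2 := oe_nonneg s t b hb m H e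
        have h3 := ce_nonneg s t b hb m H e
        rw [h0, zero_mul]
        linarith
      · exact mul_div_cancel₀ _ h0
    have hf1 : ∀ e, fe s t b hb m H e * (ce s t b hb m H e / fe s t b hb m H e) =
        ce s t b hb m H e := by
      intro e
      by_cases h0 : fe s t b hb m H e = 0
      · have h1 := oe_add_ce s t b hb m H e
        have h2 := oe_nonneg s t b hb m H e
        have h3 := ce_nonneg s t b hb m H e
        rw [h0, zero_mul]
        linarith
      · exact mul_div_cancel₀ _ h0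
    have h5 : ∏ e ∈ inE s t B, fe s t b hb m H e =
        (∏ e ∈ A, fe s t b hb m H e) * ∏ e ∈ inE s t B \ A, fe s t b hb m H e := by
      rw [mul_comm, Finset.prod_sdiff hA]
    have h6 : ∏ e ∈ A, oe s t b hb m H e = (∏ e ∈ A, fe s t b hb m H e) *
        ∏ e ∈ A, oe s t b hb m H e / fe s t b hb m H e := by
      rw [← Finset.prod_mul_distrib]
      exact Finset.prod_congr rfl fun e _ => (hf0 e).symm
    have h7 : ∏ e ∈ inE s t B \ A, ce s t b hb m H e =
        (∏ e ∈ inE s t B \ A, fe s t b hb m H e) *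
        ∏ e ∈ inE s t B \ A, ce s t b hb m H e / fe s t b hb m H e := by
      rw [← Finset.prod_mul_distrib]
      exact Finset.prod_congr rfl fun e _ => (hf1 e).symm
    rw [h5, h6, h7]
    ring
  rw [e1, key, e2]
  ring

/-! ### one copy -/

theorem gr_eq (f : V → ℝ) (h : V → ℤ) : ∏ x, ga m f x (h x) = H870.gr m h f := by
  unfold ga H870.gr
  rw [← Real.exp_sum, ← Finset.sum_neg_distrib]
  congr 1
  exact Finset.sum_congr rfl fun x _ => by ring

/-- the weight of one copy -/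
theorem wt_eq (f : V → ℝ) (h : V → ℤ) :
    H426.wt s t (fun e => wI (b e)) (ga m f) h = Wg s t b h * H870.gr m h f := by
  unfold H426.wt
  rw [gr_eq]
  rfl

include hb in
theorem Wg_nonneg (h : V → ℤ) : 0 ≤ Wg s t b h :=
  Finset.prod_nonneg fun e _ => wI_nonneg (hb e) _

include hb in
theorem Wg_bdd (h : V → ℤ) : Wg s t b h ≤ ∏ e, ∑' k, wI (b e) k :=
  Finset.prod_le_prod (fun e _ => wI_nonneg (hb e) _) fun e _ => wI_le_sum (hb e) _

include hb in
theorem Wg_pos0 : ∃ h : V → ℤ, 0 < Wg s t b h :=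
  ⟨fun _ => 0, Finset.prod_pos fun e _ => by
    show 0 < wI (b e) (0 - 0)
    rw [sub_self]
    exact wI_zero_pos (hb e)⟩

include hb in
theorem em_Wg (hm : ∀ x, 0 < m x) : H104.EM (H104.bw (Wg s t b) m) :=
  H104.em_bw hm (Wg_nonneg s t b hb) (Wg_bdd s t b hb) (Wg_pos0 s t b hb)

include hb in
theorem summ_wt (hm : ∀ x, 0 < m x) (f : V → ℝ) {F : (V → ℤ) → ℝ} (hF : H104.Gr F) :
    Summable fun h => H426.wt s t (fun e => wI (b e)) (ga m f) h * F h := by
  have h1 := (em_Wg s t b hb m hm).summ hF (H104.mf m f)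
  refine (h1.mul_left (Real.exp (-H104.me m f))).congr fun h => ?_
  rw [wt_eq, H104.gr_bg]
  unfold H104.bw
  ring

theorem Zr_eq' (f : V → ℝ) : Zr s t b m f = H870.Zr (Wg s t b) m f := by
  unfold Zr H870.Zr
  refine tsum_congr fun h => ?_
  rw [gr_eq]
  rfl

theorem Zr_eq_wt (f : V → ℝ) :
    Zr s t b m f = ∑' h, H426.wt s t (fun e => wI (b e)) (ga m f) h := rfl

theorem op_eq (e : E) (p q : ℤ × ℤ) :
    H426.op (wI (b e)) p q = (sysf s t b hb m 0).op e p q := by
  unfold H426.op H426.fu H426.sw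
  rw [mul_comm (wI (b e) (q.2 - p.1))]
  rfl

theorem cl_eq' (e : E) (p q : ℤ × ℤ) :
    H426.cl (wI (b e)) p q = (sysf s t b hb m 0).cl e p q := by
  unfold H426.cl H426.fu H426.sw
  rw [mul_comm (wI (b e) (q.2 - p.1))]
  rfl

theorem WP_eq (f : V → ℝ) (H : V → ℤ × ℤ) (S : Finset E) :
    H426.WP s t (fun e => wI (b e)) (ga m f) H S = (sysf s t b hb m f).wt S H := by
  unfold H426.WP Sys.wt
  congr 1
  congr 1
  · exact Finset.prod_congr rfl fun e _ => op_eq s t b hb m e _ _
  · exact Finset.prod_congr rfl fun e _ => cl_eq' s t b hb m e _ _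

/-- the influence functional: expected `m |ψ| |d|` over the clusters which meet `B` -/
noncomputable def In (f ψ : V → ℝ) (B : Finset V) : ℝ≥0∞ :=
  ∑ z, ENNReal.ofReal (m z * |ψ z|) * H576.Ex (sysf s t b hb m f)
    (fun x om => H576.ad (sysf s t b hb m f) x z *
      H576.ind (∃ y ∈ B, y ∈ clus s t om z))

theorem tot_eq (f : V → ℝ) (H : V → ℤ × ℤ) : (sysf s t b hb m f).tot H =
    H426.wt s t (fun e => wI (b e)) (ga m f) (fun x => (H x).1) *
      H426.wt s t (fun e => wI (b e)) (ga m f) fun x => (H x).2 := by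
  rw [← Sys.sum_wt, ← H426.sum_WP]
  exact Finset.sum_congr rfl fun S _ => (WP_eq s t b hb m f H S).symm

include hb in
theorem summ_wt0 (hm : ∀ x, 0 < m x) (f : V → ℝ) :
    Summable (H426.wt s t (fun e => wI (b e)) (ga m f)) := by
  have := summ_wt s t b hb m hm f (H104.Gr.const (V := V) 1)
  simpa using this

theorem summ_tot (hm : ∀ x, 0 < m x) (f : V → ℝ) :
    Summable fun H => (sysf s t b hb m f).tot H := by
  have h1 := summ_wt0 s t b hb m hm f
  have h2 := summable_mul_of_summable_norm h1.norm h1.norm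
  have h3 := (H426.prE V).summable_iff.2 h2
  exact h3.congr fun H => (tot_eq s t b hb m f H).symm

theorem tsum_tot (hm : ∀ x, 0 < m x) (f : V → ℝ) :
    ∑' H, (sysf s t b hb m f).tot H = Zr s t b m f ^ 2 := by
  have h1 := summ_wt0 s t b hb m hm f
  have h2 := tsum_mul_tsum_of_summable_norm h1.norm h1.norm
  rw [pow_two, Zr_eq_wt, h2]
  rw [← (H426.prE V).tsum_eq]
  exact tsum_congr fun H => tot_eq s t b hb m f H

theorem Ex_one (hm : ∀ x, 0 < m x) (f : V → ℝ) :
    H576.Ex (sysf s t b hb m f) (fun _ _ => 1) = ENNReal.ofReal (Zr s t b m f ^ 2) := by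
  rw [H576.Ex_one_real _ (summ_tot s t b hb m hm f), tsum_tot s t b hb m hm f]

open Classical in
theorem cov_one (hm : ∀ x, 0 < m x) (f ψ : V → ℝ) {B : Finset V} {G : (V → ℤ) → ℝ}
    (G0 : ∀ h, 0 ≤ G h) (G1 : ∀ h, G h ≤ 1)
    (hG : ∀ h k : V → ℤ, (∀ x ∈ B, h x = k x) → G h = G k) {K : ℝ} (hK0 : 0 ≤ K)
    (hK : In s t b hb m f ψ B ≤
      ENNReal.ofReal K * H576.Ex (sysf s t b hb m f) (fun _ _ => 1)) :
    |H104.Cf (Wg s t b) m f G (H870.lin m ψ)| ≤ K / 2 := by
  have gG : H104.Gr G := H104.Gr.of_bdd (C := 1) fun h => by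
    rw [abs_of_nonneg (G0 h)]; exact G1 h
  have gx : ∀ x : V, H104.Gr fun h : V → ℤ => (h x : ℝ) := by
    intro x
    have h1 := H104.Gr.li (Pi.single x (1 : ℝ) : V → ℝ)
    have h2 : H104.li (Pi.single x (1 : ℝ) : V → ℝ) = fun h : V → ℤ => (h x : ℝ) := by
      funext h
      unfold H104.li
      simp [Pi.single_apply]
    rwa [h2] at h1
  have s0 : Summable (H426.wt s t (fun e => wI (b e)) (ga m f)) := by
    have := summ_wt s t b hb m hm f (H104.Gr.const (V := V) 1)
    simpa using this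
  have sF := summ_wt s t b hb m hm f gG
  have sx := fun x => summ_wt s t b hb m hm f (gx x)
  have sFx := fun x => summ_wt s t b hb m hm f (gG.mul (gx x))
  have key := H426.cov_influence (s := s) (t := t) (w := fun e => wI (b e)) (a := ga m f)
    (fun e n => wI_nonneg (hb e) n) (ga_nonneg m f) (B := (B : Set V)) (F := G)
    (fun h k hh => hG h k fun x hx => hh x hx) (fun x => m x * ψ x) s0 sF sx sFx
  set R : ℝ := ∑' H : V → ℤ × ℤ, ∑ S, H426.WP s t (fun e => wI (b e)) (ga m f) H S *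
        (|G (fun x => (H x).1) - G fun x => (H x).2| *
          ∑ x, if H426.CB s t S (B : Set V) x then |m x * ψ x| * |H426.df H x| else 0) with hR
  have hZ : 0 < Zr s t b m f := Zr_pos s t b m hb hm f
  -- the right hand side
  have hRK : R ≤ K * Zr s t b m f ^ 2 := by
    have hnn : ∀ H : V → ℤ × ℤ, 0 ≤ ∑ S, H426.WP s t (fun e => wI (b e)) (ga m f) H S *
        (|G (fun x => (H x).1) - G fun x => (H x).2| *
          ∑ x, if H426.CB s t S (B : Set V) x then |m x * ψ x| * |H426.df H x| else 0) := by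
      intro H
      refine Finset.sum_nonneg fun S _ => mul_nonneg (H426.WP_nonneg
        (fun e n => wI_nonneg (hb e) n) (ga_nonneg m f) H S) (mul_nonneg (abs_nonneg _) ?_)
      refine Finset.sum_nonneg fun x _ => ?_
      split_ifs
      · exact mul_nonneg (abs_nonneg _) (abs_nonneg _)
      · exact le_rfl
    by_cases hs : Summable fun H : V → ℤ × ℤ => ∑ S, H426.WP s t (fun e => wI (b e)) (ga m f) H S *
        (|G (fun x => (H x).1) - G fun x => (H x).2| *
          ∑ x, if H426.CB s t S (B : Set V) x then |m x * ψ x| * |H426.df H x| else 0)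
    swap
    · rw [hR, tsum_eq_zero_of_not_summable hs]
      positivity
    have e1 : ENNReal.ofReal R ≤ In s t b hb m f ψ B := by
      rw [hR, ENNReal.ofReal_tsum_of_nonneg hnn hs]
      unfold In
      simp_rw [← H576.Ex_mul]
      rw [← H576.Ex_sum]
      unfold H576.Ex
      refine ENNReal.tsum_le_tsum fun H => ?_
      rw [ENNReal.ofReal_sum_of_nonneg fun S _ => mul_nonneg (H426.WP_nonneg
        (fun e n => wI_nonneg (hb e) n) (ga_nonneg m f) H S) (mul_nonneg (abs_nonneg _)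
          (Finset.sum_nonneg fun x _ => by
            split_ifs
            · exact mul_nonneg (abs_nonneg _) (abs_nonneg _)
            · exact le_rfl))]
      refine Finset.sum_le_sum fun S _ => ?_
      rw [WP_eq s t b hb m, ENNReal.ofReal_mul (Sys.wt_nonneg _ _ _)]
      refine mul_le_mul_right ?_ _
      have h1 : |G (fun x => (H x).1) - G fun x => (H x).2| ≤ 1 := by
        rw [abs_le]
        have a1 := G0 (fun x => (H x).1)
        have a2 := G1 (fun x => (H x).1)
        have a3 := G0 (fun x => (H x).2)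
        have a4 := G1 (fun x => (H x).2)
        constructor <;> linarith
      have hS0 : 0 ≤ ∑ x, if H426.CB s t S (B : Set V) x then |m x * ψ x| * |H426.df H x|
          else 0 := Finset.sum_nonneg fun x _ => by
            split_ifs
            · exact mul_nonneg (abs_nonneg _) (abs_nonneg _)
            · exact le_rfl
      refine (ENNReal.ofReal_le_ofReal (mul_le_of_le_one_left hS0 h1)).trans ?_
      rw [ENNReal.ofReal_sum_of_nonneg fun x _ => by
            split_ifs
            · exact mul_nonneg (abs_nonneg _) (abs_nonneg _)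
            · exact le_rfl]
      refine Finset.sum_le_sum fun x _ => ?_
      by_cases hx : H426.CB s t S (B : Set V) x
      · rw [if_pos hx]
        have hx' : ∃ y ∈ B, y ∈ clus s t S x := by
          obtain ⟨y, hy, hc⟩ := hx
          exact ⟨y, hy, mem_clus.2 hc⟩
        rw [H576.ind_true hx', mul_one, ENNReal.ofReal_mul (abs_nonneg _), abs_mul,
          abs_of_pos (hm x)]
        refine mul_le_mul_right (le_of_eq ?_) _
        unfold H576.ad H426.df
        have h5 : |((H x).1 : ℝ) - ((H x).2 : ℝ)| =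
            ((((sysf s t b hb m f).d (H x)).natAbs : ℕ) : ℝ) := by
          have : (sysf s t b hb m f).d (H x) = (H x).1 - (H x).2 := rfl
          rw [this, Nat.cast_natAbs, Int.cast_abs]
          push_cast
          rfl
        rw [h5, ENNReal.ofReal_natCast]
      · rw [if_neg hx]
        simp
    have e2 : H576.Ex (sysf s t b hb m f) (fun _ _ => 1) =
        ENNReal.ofReal (Zr s t b m f ^ 2) := Ex_one s t b hb m hm f
    rw [e2, ← ENNReal.ofReal_mul hK0] at hK
    have e3 := e1.trans hK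
    rwa [ENNReal.ofReal_le_ofReal_iff (by positivity)] at e3
  -- the left hand side
  have e4 : H104.Cf (Wg s t b) m f G (H870.lin m ψ) =
      ((∑' h, H426.wt s t (fun e => wI (b e)) (ga m f) h) *
        (∑' h, H426.wt s t (fun e => wI (b e)) (ga m f) h * (G h * ∑ x, m x * ψ x * (h x : ℝ))) -
        (∑' h, H426.wt s t (fun e => wI (b e)) (ga m f) h * G h) *
          ∑' h, H426.wt s t (fun e => wI (b e)) (ga m f) h * ∑ x, m x * ψ x * (h x : ℝ)) /
        Zr s t b m f ^ 2 := by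
    unfold H104.Cf H870.Ex H870.lin
    rw [← Zr_eq']
    simp only [← wt_eq]
    rw [← Zr_eq_wt]
    field_simp
  rw [e4, abs_div, abs_of_pos (pow_pos hZ 2), div_le_iff₀ (pow_pos hZ 2)]
  refine key.trans ?_
  linarith

/-- the change of the mean of a local functional along a segment of backgrounds -/
theorem ex_diff (hm : ∀ x, 0 < m x) (f g : V → ℝ) {B : Finset V} {G : (V → ℤ) → ℝ}
    (G0 : ∀ h, 0 ≤ G h) (G1 : ∀ h, G h ≤ 1)
    (hG : ∀ h k : V → ℤ, (∀ x ∈ B, h x = k x) → G h = G k) {K : ℝ} (hK0 : 0 ≤ K)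
    (hK : ∀ τ ∈ Set.Icc (0 : ℝ) 1, In s t b hb m (f + τ • (g - f)) (g - f) B ≤
      ENNReal.ofReal K * H576.Ex (sysf s t b hb m (f + τ • (g - f))) (fun _ _ => 1)) :
    |H870.Ex (Wg s t b) m g G - H870.Ex (Wg s t b) m f G| ≤ K / 2 := by
  have gG : H104.Gr G := H104.Gr.of_bdd (C := 1) fun h => by
    rw [abs_of_nonneg (G0 h)]; exact G1 h
  have hd := H104.hasDerivAt_E hm (Wg_nonneg s t b hb) (Wg_bdd s t b hb) (Wg_pos0 s t b hb) gG f
    (g - f)
  have key := norm_image_sub_le_of_norm_deriv_le_segment_01'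
    (f := fun τ : ℝ => H870.Ex (Wg s t b) m (f + τ • (g - f)) G) (C := K / 2)
    (fun τ _ => (hd τ).hasDerivWithinAt) fun τ hτ => by
      rw [Real.norm_eq_abs]
      exact cov_one s t b hb m hm _ _ G0 G1 hG hK0 (hK τ ⟨hτ.1, hτ.2.le⟩)
  simpa using key

end

/-! ### two copies -/

section

theorem fub {α β : Type*} {u : α → ℝ} {v : β → ℝ} (su : Summable u) (sv : Summable v)
    (u0 : ∀ a, 0 ≤ u a) (v0 : ∀ c, 0 ≤ v c) {Φ : α → β → ℝ} (Φ1 : ∀ a c, |Φ a c| ≤ 1) :
    ∑' z : α × β, u z.1 * v z.2 * Φ z.1 z.2 = ∑' a, u a * ∑' c, v c * Φ a c := by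
  have hs : Summable fun z : α × β => u z.1 * v z.2 * Φ z.1 z.2 := by
    refine Summable.of_norm_bounded (summable_mul_of_summable_norm su.norm sv.norm) fun z => ?_
    rw [Real.norm_eq_abs, abs_mul, abs_of_nonneg (mul_nonneg (u0 _) (v0 _))]
    exact mul_le_of_le_one_right (mul_nonneg (u0 _) (v0 _)) (Φ1 _ _)
  rw [hs.tsum_prod]
  refine tsum_congr fun a => ?_
  rw [← tsum_mul_left]
  exact tsum_congr fun c => by ring

theorem fub' {α β : Type*} {u : α → ℝ} {v : β → ℝ} (su : Summable u) (sv : Summable v)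
    (u0 : ∀ a, 0 ≤ u a) (v0 : ∀ c, 0 ≤ v c) {Φ : α → β → ℝ} (Φ1 : ∀ a c, |Φ a c| ≤ 1) :
    ∑' z : α × β, u z.1 * v z.2 * Φ z.1 z.2 = ∑' c, v c * ∑' a, u a * Φ a c := by
  rw [← fub sv su v0 u0 (Φ := fun c a => Φ a c) fun c a => Φ1 a c,
    ← (Equiv.prodComm β α).tsum_eq]
  refine tsum_congr fun z => ?_
  show u z.2 * v z.1 * Φ z.2 z.1 = v z.1 * u z.2 * Φ z.2 z.1
  ring

end

section

variable {V E : Type*} [Fintype V] [DecidableEq V] [Fintype E] [DecidableEq E]
variable (s t : E → V) (b : E → ℝ) (hb : ∀ e, 0 ≤ b e) (m : V → ℝ)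

include hb in
theorem Ex_close (hm : ∀ x, 0 < m x) (q : V → ℝ) {φ ψ : (V → ℤ) → ℝ} (g1 : H104.Gr φ)
    (g2 : H104.Gr ψ) {c : ℝ} (hc : ∀ h, |φ h - ψ h| ≤ c) :
    |H870.Ex (Wg s t b) m q φ - H870.Ex (Wg s t b) m q ψ| ≤ c := by
  have hμ := em_Wg s t b hb m hm
  rw [H104.Ex_eq, H104.Ex_eq, ← H104.Ex_sub hμ g1 g2, abs_le]
  constructor
  · rw [← H104.Ex_const hμ (-c) (H104.mf m q)]
    exact H104.Ex_mono hμ (H104.Gr.const _) (g1.sub g2) (fun h => (abs_le.1 (hc h)).1) _
  · conv_rhs => rw [← H104.Ex_const hμ c (H104.mf m q)]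
    exact H104.Ex_mono hμ (g1.sub g2) (H104.Gr.const _) (fun h => (abs_le.1 (hc h)).2) _

/-- two copies in the backgrounds `p`, `q` -/
noncomputable def QQ (p q : V → ℝ) (F : (V → ℤ) → (V → ℤ) → ℝ) : ℝ :=
  ∑' z : (V → ℤ) × (V → ℤ), H426.wt s t (fun e => wI (b e)) (ga m p) z.1 *
    H426.wt s t (fun e => wI (b e)) (ga m q) z.2 * F z.1 z.2

include hb in
theorem wt_nn (f : V → ℝ) (h : V → ℤ) : 0 ≤ H426.wt s t (fun e => wI (b e)) (ga m f) h :=
  mul_nonneg (Finset.prod_nonneg fun e _ => wI_nonneg (hb e) _)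
    (Finset.prod_nonneg fun x _ => ga_nonneg m f x _)

theorem Ex_wt (f : V → ℝ) (Y : (V → ℤ) → ℝ) : H870.Ex (Wg s t b) m f Y =
    (∑' h, H426.wt s t (fun e => wI (b e)) (ga m f) h * Y h) / Zr s t b m f := by
  unfold H870.Ex
  rw [← Zr_eq']
  simp only [← wt_eq]

include hb in
theorem QQ_left (hm : ∀ x, 0 < m x) (p q : V → ℝ) {F : (V → ℤ) → (V → ℤ) → ℝ}
    (F1 : ∀ h k, |F h k| ≤ 1) : QQ s t b m p q F / (Zr s t b m p * Zr s t b m q) =
      H870.Ex (Wg s t b) m q fun k => H870.Ex (Wg s t b) m p fun h => F h k := by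
  unfold QQ
  rw [fub' (summ_wt0 s t b hb m hm p) (summ_wt0 s t b hb m hm q) (wt_nn s t b hb m p)
    (wt_nn s t b hb m q) F1]
  simp only [Ex_wt]
  have hp := (Zr_pos s t b m hb hm p).ne'
  have hq := (Zr_pos s t b m hb hm q).ne'
  have e1 : ∀ k, H426.wt s t (fun e => wI (b e)) (ga m q) k *
      ((∑' h, H426.wt s t (fun e => wI (b e)) (ga m p) h * F h k) / Zr s t b m p) =
      (H426.wt s t (fun e => wI (b e)) (ga m q) k *
        ∑' h, H426.wt s t (fun e => wI (b e)) (ga m p) h * F h k) / Zr s t b m p := fun k => by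
    ring
  simp_rw [e1]
  rw [tsum_div_const, div_div]

include hb in
theorem QQ_right (hm : ∀ x, 0 < m x) (p q : V → ℝ) {F : (V → ℤ) → (V → ℤ) → ℝ}
    (F1 : ∀ h k, |F h k| ≤ 1) : QQ s t b m p q F / (Zr s t b m p * Zr s t b m q) =
      H870.Ex (Wg s t b) m p fun h => H870.Ex (Wg s t b) m q fun k => F h k := by
  unfold QQ
  rw [fub (summ_wt0 s t b hb m hm p) (summ_wt0 s t b hb m hm q) (wt_nn s t b hb m p)
    (wt_nn s t b hb m q) F1]
  simp only [Ex_wt]
  have hp := (Zr_pos s t b m hb hm p).ne'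
  have hq := (Zr_pos s t b m hb hm q).ne'
  have e1 : ∀ k, H426.wt s t (fun e => wI (b e)) (ga m p) k *
      ((∑' h, H426.wt s t (fun e => wI (b e)) (ga m q) h * F k h) / Zr s t b m q) =
      (H426.wt s t (fun e => wI (b e)) (ga m p) k *
        ∑' h, H426.wt s t (fun e => wI (b e)) (ga m q) h * F k h) / Zr s t b m q := fun k => by
    ring
  simp_rw [e1]
  rw [tsum_div_const, div_div, mul_comm (Zr s t b m p)]

theorem Pf_eq_QQ {O : (V → ℤ) → Finset E → Prop} {B : Finset V}
    (hO : ∀ D D' om om', (∀ v ∈ B, D v = D' v) → om ∩ inE s t B = om' ∩ inE s t B →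
      (O D om ↔ O D' om')) (f : V → ℝ) :
    Pf s t b hb m f O = QQ s t b m f f (fun h k => Fc s t b hb m O B fun x => (h x, k x)) /
      (Zr s t b m f * Zr s t b m f) := by
  unfold Pf Er
  rw [pow_two]
  congr 1
  have e1 := fun H : V → ℤ × ℤ => sum_wt_Fc s t b hb m hO f H
  refine (tsum_congr e1).trans ?_
  unfold QQ
  rw [← (H426.prE V).tsum_eq]
  exact tsum_congr fun H => by rw [tot_eq]; rfl

include hb in
theorem gr_ex (hm : ∀ x, 0 < m x) (p : V → ℝ) {F : (V → ℤ) → (V → ℤ) → ℝ}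
    (F0 : ∀ h k, 0 ≤ F h k) (F1 : ∀ h k, F h k ≤ 1) :
    H104.Gr fun k => H870.Ex (Wg s t b) m p fun h => F h k := by
  have hμ := em_Wg s t b hb m hm
  refine H104.Gr.of_bdd (C := 1) fun k => ?_
  have gF : H104.Gr fun h => F h k := H104.Gr.of_bdd (C := 1) fun h => by
    rw [abs_of_nonneg (F0 h k)]; exact F1 h k
  rw [H104.Ex_eq, abs_of_nonneg (H104.Ex_nonneg hμ (fun h => F0 h k) _)]
  calc H104.Ex (H104.bw (Wg s t b) m) (H104.mf m p) (fun h => F h k)
      ≤ H104.Ex (H104.bw (Wg s t b) m) (H104.mf m p) (fun _ => 1) :=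
        H104.Ex_mono hμ gF (H104.Gr.const _) (fun h => F1 h k) _
    _ = 1 := H104.Ex_one hμ _

/-- **analytic half of (H2)** -/
theorem H2a (hm : ∀ x, 0 < m x) {f g : V → ℝ} {B : Finset V}
    {O : (V → ℤ) → Finset E → Prop}
    (hO : ∀ D D' om om', (∀ v ∈ B, D v = D' v) → om ∩ inE s t B = om' ∩ inE s t B →
      (O D om ↔ O D' om')) {K : ℝ} (hK0 : 0 ≤ K)
    (hK : ∀ τ ∈ Set.Icc (0 : ℝ) 1, In s t b hb m (f + τ • (g - f)) (g - f) B ≤
      ENNReal.ofReal K * H576.Ex (sysf s t b hb m (f + τ • (g - f))) (fun _ _ => 1)) :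
    |Pf s t b hb m f O - Pf s t b hb m g O| ≤ K := by
  set F : (V → ℤ) → (V → ℤ) → ℝ := fun h k => Fc s t b hb m O B fun x => (h x, k x) with hF
  have F0 : ∀ h k, 0 ≤ F h k := fun h k => Fc_nonneg ..
  have F1 : ∀ h k, F h k ≤ 1 := fun h k => Fc_le ..
  have F2 : ∀ h k, |F h k| ≤ 1 := fun h k => by rw [abs_of_nonneg (F0 h k)]; exact F1 h k
  have L1 : ∀ k : V → ℤ, ∀ h h' : V → ℤ, (∀ x ∈ B, h x = h' x) → F h k = F h' k := by
    intro k h h' hh
    exact Fc_congr s t b hb m hO fun x hx => by rw [hh x hx]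
  have L2 : ∀ h : V → ℤ, ∀ k k' : V → ℤ, (∀ x ∈ B, k x = k' x) → F h k = F h k' := by
    intro h k k' hh
    exact Fc_congr s t b hb m hO fun x hx => by rw [hh x hx]
  have a1 : |H870.Ex (Wg s t b) m f (fun k => H870.Ex (Wg s t b) m f fun h => F h k) -
      H870.Ex (Wg s t b) m f (fun k => H870.Ex (Wg s t b) m g fun h => F h k)| ≤ K / 2 := by
    refine Ex_close s t b hb m hm f (gr_ex s t b hb m hm f F0 F1) (gr_ex s t b hb m hm g F0 F1)
      fun k => ?_
    rw [abs_sub_comm]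
    exact ex_diff s t b hb m hm f g (fun h => F0 h k) (fun h => F1 h k) (L1 k) hK0 hK
  have a2 : |H870.Ex (Wg s t b) m g (fun h => H870.Ex (Wg s t b) m f fun k => F h k) -
      H870.Ex (Wg s t b) m g (fun h => H870.Ex (Wg s t b) m g fun k => F h k)| ≤ K / 2 := by
    refine Ex_close s t b hb m hm g
      (gr_ex s t b hb m hm f (F := fun k h => F h k) (fun k h => F0 h k) fun k h => F1 h k)
      (gr_ex s t b hb m hm g (F := fun k h => F h k) (fun k h => F0 h k) fun k h => F1 h k)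
      fun h => ?_
    rw [abs_sub_comm]
    exact ex_diff s t b hb m hm f g (fun k => F0 h k) (fun k => F1 h k) (L2 h) hK0 hK
  rw [Pf_eq_QQ s t b hb m hO f, Pf_eq_QQ s t b hb m hO g]
  rw [QQ_left s t b hb m hm f f F2, QQ_right s t b hb m hm g g F2]
  have a3 : H870.Ex (Wg s t b) m f (fun k => H870.Ex (Wg s t b) m g fun h => F h k) =
      H870.Ex (Wg s t b) m g (fun h => H870.Ex (Wg s t b) m f fun k => F h k) := by
    rw [← QQ_left s t b hb m hm g f F2, ← QQ_right s t b hb m hm g f F2]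
  rw [a3] at a1
  have h1 := abs_le.1 a1
  have h2 := abs_le.1 a2
  rw [abs_le]
  constructor <;> linarith [h1.1, h1.2, h2.1, h2.2]

/-- **(H2) of the bootstrap from the first-moment influence bound** (letters of `H576.infl`) -/
theorem H2_of (hm : ∀ x, 0 < m x) {L c₀ C c : ℝ} (hC : 0 ≤ C) (d : V → V → ℝ)
    (O : V → (V → ℤ) → Finset E → Prop) (B : V → Finset V)
    (hO : ∀ x, ∀ D D' om om', (∀ v ∈ B x, D v = D' v) →
      om ∩ inE s t (B x) = om' ∩ inE s t (B x) → (O x D om ↔ O x D' om'))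
    (hI : ∀ l : ℝ, 0 < l → l ≤ L → (∀ f x, Lip d l f → c₀ / 2 ≤ Pf s t b hb m f (O x)) →
      ∀ (f : V → ℝ) (x : V) (r : ℝ), Lip d l f → 0 ≤ r →
        ∑ z ∈ univ.filter (fun z => r < d x z), ENNReal.ofReal (m z) *
          H576.Ex (sysf s t b hb m f) (fun X om => H576.ad (sysf s t b hb m f) X z *
            H576.ind (∃ y ∈ B x, y ∈ clus s t om z)) ≤
          ENNReal.ofReal (C * Real.exp (-(c * r))) * H576.Ex (sysf s t b hb m f) (fun _ _ => 1))
    (l : ℝ) (hl : 0 < l) (hlL : l ≤ L)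
    (hP : ∀ f x, Lip d l f → c₀ / 2 ≤ Pf s t b hb m f (O x))
    (f g : V → ℝ) (x : V) (r : ℝ) (hf : Lip d l f) (hg : Lip d l g) (hr : 0 ≤ r)
    (hfg : ∀ z, d x z ≤ r → f z = g z) (h1 : ∀ z, |f z - g z| ≤ 1) :
    |Pf s t b hb m f (O x) - Pf s t b hb m g (O x)| ≤ C * Real.exp (-(c * r)) := by
  refine H2a s t b hb m hm (hO x) (mul_nonneg hC (Real.exp_pos _).le) fun τ hτ => ?_
  have hLip : Lip d l (f + τ • (g - f)) := by
    intro z w
    have e1 : (f + τ • (g - f)) z - (f + τ • (g - f)) w =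
        (1 - τ) * (f z - f w) + τ * (g z - g w) := by
      simp only [Pi.add_apply, Pi.smul_apply, Pi.sub_apply, smul_eq_mul]
      ring
    rw [e1]
    refine (abs_add_le _ _).trans ?_
    rw [abs_mul, abs_mul, abs_of_nonneg (by linarith [hτ.2] : (0 : ℝ) ≤ 1 - τ),
      abs_of_nonneg hτ.1]
    have h2 := hf z w
    have h3 := hg z w
    have h4 : 0 ≤ 1 - τ := by linarith [hτ.2]
    nlinarith [mul_le_mul_of_nonneg_left h2 h4, mul_le_mul_of_nonneg_left h3 hτ.1]
  refine le_trans ?_ (hI l hl hlL hP _ x r hLip hr)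
  unfold In
  rw [← Finset.sum_subset (Finset.subset_univ (univ.filter fun z => r < d x z))]
  · refine Finset.sum_le_sum fun z _ => mul_le_mul_left (ENNReal.ofReal_le_ofReal ?_) _
    refine mul_le_of_le_one_right (hm z).le ?_
    have := h1 z
    rwa [abs_sub_comm] at this
  · intro z _ hz
    have h5 : d x z ≤ r := by
      by_contra h6
      exact hz (Finset.mem_filter.2 ⟨Finset.mem_univ _, not_le.1 h6⟩)
    have h6 : (g - f) z = 0 := by
      show g z - f z = 0
      rw [hfg z h5, sub_self]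
    rw [h6]
    simp

/-- **B4 with (H2) replaced by the first-moment influence bound** -/
theorem B4' (hm : ∀ x, 0 < m x) (hG : H871.Gin (Wg s t b) m)
    {κ' a Cv m₀ L c₀ η C c : ℝ} (hL : 0 < L) (hm₀L : L ≤ m₀) (hm₀ : m₀ ^ 2 ≤ 1 / 2)
    (hκ' : 0 ≤ κ') (ha : 0 ≤ a) (hc₀ : 0 < c₀) (hc : 0 < c) (hC : 0 ≤ C)
    (hQ : ∀ ψ : V → ℝ, (∑ x, m x * ψ x ^ 2) - H871.Q0 (Wg s t b) m ψ
      ≤ κ' * ∑ x, ψ x ^ 2 + a * ∑ e, (ψ (t e) - ψ (s e)) ^ 2)
    (hkap : H871.kap (Wg s t b) m ≤ η) (hκV : κ' * Fintype.card V ≤ η)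
    (d : V → V → ℝ) (hd0 : ∀ z w, 0 ≤ d z w) (hd1 : ∀ e, d (s e) (t e) ≤ 1)
    (hsymm : ∀ z w, d z w = d w z) (htri : ∀ x z w, d x w ≤ d x z + d z w)
    (hvol : ∀ (x : V) (ρ : ℝ), 1 ≤ ρ →
      ((Finset.univ.filter fun e => d x (s e) < ρ ∨ d x (t e) < ρ).card : ℝ) ≤ Cv * ρ ^ 2)
    (hsm : Real.exp (7 * η + 4 * (a * Cv * m₀ ^ 2)) - 1 ≤ (c₀ / 8) ^ 2)
    (O : V → (V → ℤ) → Finset E → Prop) (B : V → Finset V)
    (hO : ∀ x, ∀ D D' om om', (∀ v ∈ B x, D v = D' v) →
      om ∩ inE s t (B x) = om' ∩ inE s t (B x) → (O x D om ↔ O x D' om'))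
    (h0 : ∀ x, c₀ ≤ Pf s t b hb m (fun _ => 0) (O x))
    (hI : ∀ l : ℝ, 0 < l → l ≤ L → (∀ f x, Lip d l f → c₀ / 2 ≤ Pf s t b hb m f (O x)) →
      ∀ (f : V → ℝ) (x : V) (r : ℝ), Lip d l f → 0 ≤ r →
        ∑ z ∈ univ.filter (fun z => r < d x z), ENNReal.ofReal (m z) *
          H576.Ex (sysf s t b hb m f) (fun X om => H576.ad (sysf s t b hb m f) X z *
            H576.ind (∃ y ∈ B x, y ∈ clus s t om z)) ≤
          ENNReal.ofReal (C * Real.exp (-(c * r))) * H576.Ex (sysf s t b hb m f) (fun _ _ => 1))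
    (hq : Real.exp (-(c / (2 * L))) ≤ 1 / 2)
    (hsmall : 2 * C * Real.exp (-(c * m₀ / (2 * L))) ≤ c₀ / 8)
    (f : V → ℝ) (hf : Lip d L f) (x : V) : 3 / 4 * c₀ ≤ Pf s t b hb m f (O x) :=
  B4 s t b hb m hm hG hL hm₀L hm₀ hκ' ha hc₀ hc hC hQ hkap hκV d hd0 hd1 hsymm htri hvol hsm O h0
    (fun l hl hlL hP f g x r hf hg hr hfg h1 =>
      H2_of s t b hb m hm hC d O B hO hI l hl hlL hP f g x r hf hg hr hfg h1)
    hq hsmall f hf x

end

end Vale.Agent.P159.TM.H857
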