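/-
P159, T1 (helper857): `ThmB1 -> ThmH2` of `TM/Spec/AB.lean`.
-/
import Vale.Agent.P159.TM.H857.H2a
import Vale.Agent.P159.TM.H459.Blocks
import Vale.Agent.P159.TM.Spec.AB

open scoped ENNReal BigOperators
open Finset Filter Topology

set_option linter.unusedSectionVars false

namespace Vale.Agent.P159.TM.H857

open Vale.Agent.P159.H353 Vale.Agent.P159.T1.H897 Vale.Agent.P159.TM.H131
  Vale.Agent.P159.TM.H60 Vale.Agent.P159.TM.H459

/-! ### the torus letters -/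

section torus

variable {N : ℕ} [NeZero N]

theorem ms_pos {ξ : ℕ} (hξ : 0 < ξ) (x : Spec.V N) : 0 < SpecC.ms (N := N) (ξ : ℝ) x := by
  unfold SpecC.ms
  positivity

theorem σ2_eq {b : ℝ} (hb : 0 ≤ b) (ξ : ℕ) (f : Spec.V N → ℝ) : Spec.σ2 N b ξ hb f =
    sysf tS tT (fun _ => b) (fun _ => hb) (SpecC.ms (ξ : ℝ)) f := by
  have h : Spec.aT (ξ : ℝ) f = ga (SpecC.ms (ξ : ℝ)) f := by
    funext v n
    unfold Spec.aT ga
    congr 1
    ring
  unfold Spec.σ2 sysf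
  congr 1

/-- the event of `Spec.OT` as an event of `(d, omega)` -/
def OD (μ r : ℕ) (x0 : Spec.V N) (D : Spec.V N → ℤ) (om : Finset (Spec.E N)) : Prop :=
  H459.OEv tS tT (ball x0 r) (ball x0 (2 * r)) (ball x0 (4 * r)) μ D om

theorem PO_eq {b : ℝ} (hb : 0 ≤ b) {ξ : ℕ} (hξ : 0 < ξ) (μ r : ℕ) (f : Spec.V N → ℝ)
    (x0 : Spec.V N) : Spec.PO N b ξ hb μ r f x0 =
      Pf tS tT (fun _ => b) (fun _ => hb) (SpecC.ms (ξ : ℝ)) f (OD μ r x0) := by
  classical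
  unfold Spec.PO
  rw [σ2_eq]
  have hm := ms_pos (N := N) hξ
  have hs := summ_tot tS tT (fun _ : Spec.E N => b) (fun _ => hb) (SpecC.ms (ξ : ℝ)) hm f
  rw [Ex_one tS tT (fun _ : Spec.E N => b) (fun _ => hb) (SpecC.ms (ξ : ℝ)) hm f]
  have h1 := (H576.Ex_real (sysf tS tT (fun _ : Spec.E N => b) (fun _ => hb)
    (SpecC.ms (ξ : ℝ)) f) hs (f := fun x om => if Spec.OT μ r x0 x om then 1 else 0)
    (fun x om => by split_ifs <;> norm_num) (K := 1)
    (fun x om => by split_ifs <;> norm_num)).2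
  have h2 : (fun (x : Spec.V N → ℤ × ℤ) (om : Finset (Spec.E N)) =>
      H576.ind (Spec.OT μ r x0 x om)) =
      fun x om => ENNReal.ofReal (if Spec.OT μ r x0 x om then 1 else 0) := by
    funext x om
    by_cases h : Spec.OT μ r x0 x om
    · rw [H576.ind_true h, if_pos h, ENNReal.ofReal_one]
    · rw [H576.ind_false h, if_neg h, ENNReal.ofReal_zero]
  rw [h2, h1, ENNReal.toReal_div, ENNReal.toReal_ofReal, ENNReal.toReal_ofReal (sq_nonneg _)]
  · unfold Pf Er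
    congr 1
  · refine tsum_nonneg fun x => Finset.sum_nonneg fun om _ => mul_nonneg (Sys.wt_nonneg _ _ _) ?_
    split_ifs <;> norm_num

theorem OD_congr (μ r : ℕ) (x0 : Spec.V N) (D D' : Spec.V N → ℤ) (om om' : Finset (Spec.E N))
    (hD : ∀ v ∈ ball x0 (4 * r), D v = D' v)
    (h : om ∩ inE tS tT (ball x0 (4 * r)) = om' ∩ inE tS tT (ball x0 (4 * r))) :
    OD μ r x0 D om ↔ OD μ r x0 D' om' := H459.OEv_congr hD h

theorem wI_pos {b : ℝ} (hb : 0 < b) (n : ℤ) : 0 < wI b n := by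
  rw [wI_eq]
  refine mul_pos (Real.exp_pos _) ?_
  have h := (summable_aw_col hb.le n).le_tsum n.natAbs fun k _ => aw_nonneg hb.le k n
  refine lt_of_lt_of_le ?_ h
  unfold aw cb
  rw [← two_mul, Nat.choose_self]
  positivity

theorem fk_T {b : ℝ} (hb : 0 < b) {ξ : ℕ} (hξ : 0 < ξ) (f : Spec.V N → ℝ) :
    H576.Fk (Spec.σ2 N b ξ hb.le f) H576.le2 := by
  have hm := ms_pos (N := N) hξ
  have hs := summ_tot tS tT (fun _ : Spec.E N => b) (fun _ => hb.le) (SpecC.ms (ξ : ℝ)) hm f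
  have ht := tsum_tot tS tT (fun _ : Spec.E N => b) (fun _ => hb.le) (SpecC.ms (ξ : ℝ)) hm f
  have hz := Zr_pos tS tT (fun _ : Spec.E N => b) (SpecC.ms (ξ : ℝ)) (fun _ => hb.le) hm f
  rw [σ2_eq]
  refine H576.two_Fk (fun _ n => wI_pos hb n) _ _ hs ?_
  have : 0 < ∑' x, (sysf tS tT (fun _ : Spec.E N => b) (fun _ => hb.le)
      (SpecC.ms (ξ : ℝ)) f).tot x := by
    rw [ht]; positivity
  exact this

theorem plus_plusE {b : ℝ} (hb : 0 ≤ b) (ξ : ℕ) (f : Spec.V N → ℝ) (x : Spec.V N → ℤ × ℤ)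
    (om : Finset (Spec.E N)) : H576.plus (Spec.σ2 N b ξ hb f) x om =
      plusE tS tT (fun v => (x v).1 - (x v).2) om := rfl

theorem evs_T {b : ℝ} (hb : 0 < b) {ξ : ℕ} (hξ : 0 < ξ) {f : Spec.V N → ℝ} {c₀ : ℝ} {μ r : ℕ}
    (hP : ∀ x0, c₀ ≤ Spec.PO N b ξ hb.le μ r f x0) :
    H576.Evs (Spec.σ2 N b ξ hb.le f) H576.le2 (univ : Finset (Spec.V N))
      (fun x => ball x r) (fun x => ball x (4 * r)) (fun x => (ball x (2 * r))ᶜ)
      (fun x X om => Spec.OT μ r x X om) (ENNReal.ofReal c₀) (μ : ℝ≥0∞) where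
  mono := by
    intro x0 _ x x' om om' hx ho hO
    refine H459.OEv_mono (fun v => ?_) ho hO
    have := hx v
    have h1 := this.1
    have h2 := this.2
    omega
  prob := by
    intro x0 _
    have M := fk_T hb hξ f
    have h1 := hP x0
    unfold Spec.PO at h1
    have h2 : H576.Ex (Spec.σ2 N b ξ hb.le f) (fun x om => H576.ind (Spec.OT μ r x0 x om)) =
        H576.Ex (Spec.σ2 N b ξ hb.le f) (fun x om => H576.ind (Spec.OT μ r x0 x
          (H576.plus (Spec.σ2 N b ξ hb.le f) x om))) := by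
      refine H576.Ex_congr fun x om _ => H576.ind_congr ?_
      rw [plus_plusE]
      exact H459.OEv_plus.symm
    have hle : H576.Ex (Spec.σ2 N b ξ hb.le f) (fun x om => H576.ind (Spec.OT μ r x0 x om)) ≤
        H576.Ex (Spec.σ2 N b ξ hb.le f) (fun _ _ => 1) :=
      H576.Ex_mono fun x om _ => H576.ind_le_one _
    have hne : H576.Ex (Spec.σ2 N b ξ hb.le f) (fun x om => H576.ind (Spec.OT μ r x0 x om)) /
        H576.Ex (Spec.σ2 N b ξ hb.le f) (fun _ _ => 1) ≠ ∞ :=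
      ne_top_of_le_ne_top ENNReal.one_ne_top (ENNReal.div_le_of_le_mul (by rwa [one_mul]))
    have h3 := (ENNReal.ofReal_le_iff_le_toReal hne).2 h1
    rw [ENNReal.le_div_iff_mul_le (Or.inl M.Z0) (Or.inl M.Zt)] at h3
    rw [← h2]
    exact h3
  force := by
    intro x0 _ x T hT hO u hu h1 h2
    obtain ⟨q, hq, hqc⟩ := h2
    have h3 := H459.force (s := tS) (t := tT) (D := fun v => (x v).1 - (x v).2) (T := T) (u := u)
      hO h1 ⟨q, Finset.mem_compl.1 hq, hqc⟩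
    have h4 : ∑ z ∈ ball x0 (4 * r), (H576.mf (Spec.σ2 N b ξ hb.le f) x T u z : ℝ≥0∞) =
        ((∑ z ∈ ball x0 (4 * r), H576.mf (Spec.σ2 N b ξ hb.le f) x T u z : ℕ) : ℝ≥0∞) := by
      push_cast
      rfl
    rw [h4, Nat.cast_le]
    refine h3.trans (le_of_eq ?_)
    refine Finset.sum_congr rfl fun z _ => ?_
    unfold H576.mf
    by_cases hz : z ∈ clus tS tT T u
    · rw [if_pos hz]
      exact (if_pos hz).symm
    · rw [if_neg hz]
      exact (if_neg hz).symm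

/-! ### geometry -/

theorem sum_exp_line (n : ℕ) [NeZero n] {c : ℝ} (hc : 0 < c) :
    (Summable fun i : ℤ => Real.exp (-(c * |(i : ℝ)|))) ∧
    ∑ a : ZMod n, Real.exp (-(c * (a.valMinAbs.natAbs : ℝ))) ≤
      ∑' i : ℤ, Real.exp (-(c * |(i : ℝ)|)) := by
  have hs : Summable fun i : ℤ => Real.exp (-(c * |(i : ℝ)|)) := by
    have h1 : Summable fun n : ℕ => Real.exp ((n : ℝ) * (-c)) :=
      Real.summable_exp_nat_mul_iff.2 (by linarith)
    refine Summable.of_nat_of_neg ?_ ?_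
    · refine h1.congr fun n => ?_
      simp only [Int.cast_natCast, Nat.abs_cast]
      congr 1
      ring
    · refine h1.congr fun n => ?_
      simp only [Int.cast_neg, Int.cast_natCast, abs_neg, Nat.abs_cast]
      congr 1
      ring
  refine ⟨hs, ?_⟩
  have e1 : ∀ a : ZMod n, Real.exp (-(c * (a.valMinAbs.natAbs : ℝ))) =
      Real.exp (-(c * |((a.valMinAbs : ℤ) : ℝ)|)) := by
    intro a
    rw [Nat.cast_natAbs, Int.cast_abs]
  simp_rw [e1]
  rw [← Finset.sum_image (s := univ) (g := fun a : ZMod n => a.valMinAbs)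
    (f := fun i : ℤ => Real.exp (-(c * |(i : ℝ)|))) fun a _ b _ h => ZMod.injective_valMinAbs h]
  exact hs.sum_le_tsum _ fun i _ => (Real.exp_pos _).le

theorem sum_exp_sd (n : ℕ) [NeZero n] (b0 : ZMod n × ZMod n) {c : ℝ} (hc : 0 < c) :
    ∑ β : ZMod n × ZMod n, Real.exp (-(c * (sd b0 β : ℝ))) ≤
      (∑' i : ℤ, Real.exp (-(c / 2 * |(i : ℝ)|))) ^ 2 := by
  have h1 := (sum_exp_line n (half_pos hc)).2
  have h0 : 0 ≤ ∑ a : ZMod n, Real.exp (-(c / 2 * (a.valMinAbs.natAbs : ℝ))) :=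
    Finset.sum_nonneg fun _ _ => (Real.exp_pos _).le
  calc ∑ β : ZMod n × ZMod n, Real.exp (-(c * (sd b0 β : ℝ)))
      = ∑ β : ZMod n × ZMod n, Real.exp (-(c * (sn β : ℝ))) := by
        rw [← (Equiv.subRight b0).sum_comp fun β : ZMod n × ZMod n => Real.exp (-(c * (sn β : ℝ)))]
        rfl
    _ ≤ ∑ β : ZMod n × ZMod n, Real.exp (-(c / 2 * (β.1.valMinAbs.natAbs : ℝ))) *
          Real.exp (-(c / 2 * (β.2.valMinAbs.natAbs : ℝ))) := by
        refine Finset.sum_le_sum fun β _ => ?_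
        rw [← Real.exp_add]
        refine Real.exp_le_exp.2 ?_
        have h2 : (β.1.valMinAbs.natAbs : ℝ) ≤ (sn β : ℝ) := by
          exact_mod_cast le_max_left _ _
        have h3 : (β.2.valMinAbs.natAbs : ℝ) ≤ (sn β : ℝ) := by
          exact_mod_cast le_max_right _ _
        nlinarith
    _ = (∑ a : ZMod n, Real.exp (-(c / 2 * (a.valMinAbs.natAbs : ℝ)))) *
          ∑ a : ZMod n, Real.exp (-(c / 2 * (a.valMinAbs.natAbs : ℝ))) := by
        rw [Finset.sum_mul_sum, Fintype.sum_prod_type]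
    _ ≤ _ := by
        rw [pow_two]
        exact mul_le_mul h1 h1 h0 (h0.trans h1)

/-- a ball of radius `4 r` is covered by `81` balls of radius `r` -/
theorem cover (x0 : Spec.V N) (r : ℕ) : ∃ I : Finset (Spec.V N), I.card ≤ 81 ∧
    (∀ c ∈ I, sd x0 c ≤ 4 * r) ∧ ∀ y ∈ ball x0 (4 * r), ∃ c ∈ I, y ∈ ball c r := by
  classical
  rcases Nat.eq_zero_or_pos r with rfl | hr
  · refine ⟨{x0}, by simp, fun c hc => ?_, fun y hy => ⟨x0, by simp, by simpa using hy⟩⟩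
    rw [Finset.mem_singleton] at hc
    rw [hc, sd_self]
  set φ : ℤ × ℤ → Spec.V N := fun p =>
    x0 + (((p.1 * r : ℤ) : ZMod N), ((p.2 * r : ℤ) : ZMod N)) with hφ
  refine ⟨(Finset.Icc (-4 : ℤ) 4 ×ˢ Finset.Icc (-4 : ℤ) 4).image φ, ?_, ?_, ?_⟩
  · refine Finset.card_image_le.trans ?_
    rw [Finset.card_product, Int.card_Icc]
    decide
  · intro c hc
    obtain ⟨p, hp, rfl⟩ := Finset.mem_image.1 hc
    rw [Finset.mem_product, Finset.mem_Icc, Finset.mem_Icc] at hp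
    unfold sd sn
    simp only [hφ, add_sub_cancel_left]
    have h1 := vma_le_of_eq ((p.1 * r : ℤ) : ZMod N) (p.1 * r) rfl
    have h2 := vma_le_of_eq ((p.2 * r : ℤ) : ZMod N) (p.2 * r) rfl
    have h3 : (p.1 * (r : ℤ)).natAbs ≤ 4 * r := by
      rw [Int.natAbs_mul, Int.natAbs_natCast]
      exact Nat.mul_le_mul_right r (by omega)
    have h4 : (p.2 * (r : ℤ)).natAbs ≤ 4 * r := by
      rw [Int.natAbs_mul, Int.natAbs_natCast]
      exact Nat.mul_le_mul_right r (by omega)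
    exact max_le (h1.trans h3) (h2.trans h4)
  · intro y hy
    rw [mem_ball] at hy
    unfold sd sn at hy
    set a1 : ℤ := (y - x0).1.valMinAbs with ha1
    set a2 : ℤ := (y - x0).2.valMinAbs with ha2
    have hy1 : a1.natAbs ≤ 4 * r := (le_max_left _ _).trans hy
    have hy2 : a2.natAbs ≤ 4 * r := (le_max_right _ _).trans hy
    have hrz : (0 : ℤ) < r := by exact_mod_cast hr
    have key : ∀ a : ℤ, a.natAbs ≤ 4 * r → -4 ≤ a / r ∧ a / r ≤ 4 ∧
        (a - a / r * r).natAbs ≤ r := by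
      intro a ha
      have h1 := Int.emod_add_mul_ediv a r
      have h2 := Int.emod_nonneg a hrz.ne'
      have h3 := Int.emod_lt_of_pos a hrz
      refine ⟨?_, ?_, ?_⟩
      · rw [Int.le_ediv_iff_mul_le hrz]
        omega
      · have h5 : a / r < 5 := by
          rw [Int.ediv_lt_iff_lt_mul hrz]
          omega
        omega
      · have h4 : a - a / r * r = a % r := by
          rw [mul_comm]
          linarith
        rw [h4]
        omega
    obtain ⟨k1, k2, k3⟩ := key a1 hy1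
    obtain ⟨k4, k5, k6⟩ := key a2 hy2
    refine ⟨φ (a1 / r, a2 / r), Finset.mem_image.2 ⟨_, ?_, rfl⟩, ?_⟩
    · rw [Finset.mem_product, Finset.mem_Icc, Finset.mem_Icc]
      exact ⟨⟨k1, k2⟩, ⟨k4, k5⟩⟩
    · rw [mem_ball]
      unfold sd sn
      have e1 : (y - φ (a1 / r, a2 / r)).1 = ((a1 - a1 / r * r : ℤ) : ZMod N) := by
        have : (y - x0).1 = ((a1 : ℤ) : ZMod N) := (ZMod.coe_valMinAbs _).symm
        rw [Prod.fst_sub] at this
        simp only [hφ, Prod.fst_sub, Prod.fst_add]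
        rw [← sub_sub, this]
        push_cast
        ring
      have e2 : (y - φ (a1 / r, a2 / r)).2 = ((a2 - a2 / r * r : ℤ) : ZMod N) := by
        have : (y - x0).2 = ((a2 : ℤ) : ZMod N) := (ZMod.coe_valMinAbs _).symm
        rw [Prod.snd_sub] at this
        simp only [hφ, Prod.snd_sub, Prod.snd_add]
        rw [← sub_sub, this]
        push_cast
        ring
      exact max_le ((vma_le_of_eq _ _ e1).trans k3) ((vma_le_of_eq _ _ e2).trans k6)

/-! ### the block sums -/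

theorem Wd_le_WF {S : Type*} {σ : Sys (Spec.V N) (Spec.E N) S} {A B Λ : Finset (Spec.V N)}
    (hAB : A ⊆ B) {Φ : Finset (Spec.V N) → Prop}
    (hΦ : ∀ om u, u ∈ A → Φ (clus σ.s σ.t om u) → ∃ z, z ∉ Λ ∧ z ∈ clus σ.s σ.t om u) :
    H576.Wd σ A Φ ≤ H576.Ex σ (Spec.WF σ B Λ) := by
  unfold H576.Wd
  rw [← H576.Ex_sum]
  refine H576.Ex_mono fun x om hw => ?_
  unfold Spec.WF
  refine (Finset.sum_le_sum fun u hu => ?_).trans (Finset.sum_le_sum_of_subset hAB)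
  by_cases hd : σ.d (x u) = 0
  · rw [H576.mf_zero hd]
    simp
  rw [← Finset.sum_mul]
  refine mul_le_mul' ?_ (H576.ind_mono fun h => ?_)
  · rw [Finset.mul_sum]
    refine (Finset.sum_le_sum fun v _ => ?_).trans (Finset.sum_le_sum_of_subset hAB)
    rw [Nat.cast_mul]
  · obtain ⟨z, hz, hzc⟩ := hΦ om u hu h
    refine ⟨z, hz, ?_⟩
    have h1 := H576.supp_mf hw hd
    rw [← h1] at hzc
    exact (Finset.mem_filter.1 hzc).2

open Classical in
/-- one block at block distance `k ≥ 4` -/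
theorem far_block {b : ℝ} (hb : 0 < b) {ξ : ℕ} (hξ : 0 < ξ) {f : Spec.V N → ℝ} {c₀ : ℝ}
    {μ r : ℕ} (hr : 8 * r ≤ ξ) (hP : ∀ x0, c₀ ≤ Spec.PO N b ξ hb.le μ r f x0)
    {C₁ c₁ : ℝ} (hC₁ : 0 ≤ C₁)
    (hW : ∀ (x0 : Spec.V N) (n : ℕ), Spec.Ele (Spec.σ2 N b ξ hb.le f)
      (Spec.WF (Spec.σ2 N b ξ hb.le f) (ball x0 ξ) (ball x0 n))
        (C₁ * (ξ : ℝ) ^ 4 * Real.exp (-(c₁ * n / ξ))))
    {n : ℕ} [NeZero n] (hN : N = n * ξ) (x0 : Spec.V N) (β : ZMod n × ZMod n)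
    (hk : 4 ≤ sd (bk n ξ x0) β) {c : Spec.V N} (hc : sd x0 c ≤ 4 * r) :
    ENNReal.ofReal c₀ * (μ : ℝ≥0∞) * ∑ z ∈ blk N n ξ β, H576.Ex (Spec.σ2 N b ξ hb.le f)
        (fun x om => H576.ad (Spec.σ2 N b ξ hb.le f) x z *
          H576.ind (∃ y ∈ ball c r, y ∈ clus tS tT om z)) ≤
      ENNReal.ofReal (2 * (C₁ * (ξ : ℝ) ^ 4 *
        Real.exp (-(c₁ * ((sd (bk n ξ x0) β : ℝ) - 4))))) *
        H576.Ex (Spec.σ2 N b ξ hb.le f) (fun _ _ => 1) := by
  set σ := Spec.σ2 N b ξ hb.le f with hσ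
  set k : ℕ := sd (bk n ξ x0) β with hkdef
  set n' : ℕ := ξ * (k - 4) with hn'
  have hn'4 : n' + 4 * ξ = ξ * k := by
    rw [hn', mul_comm 4 ξ, ← Nat.mul_add, Nat.sub_add_cancel hk]
  have hexp : Real.exp (-(c₁ * (n' : ℝ) / ξ)) = Real.exp (-(c₁ * ((k : ℝ) - 4))) := by
    congr 2
    have h1 : (n' : ℝ) = (ξ : ℝ) * ((k : ℝ) - 4) := by
      rw [hn']
      push_cast [Nat.cast_sub hk]
      ring
    have h2 : (ξ : ℝ) ≠ 0 := by positivity
    rw [h1]
    field_simp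
  rcases (blk N n ξ β).eq_empty_or_nonempty with h0 | ⟨z0, hz0⟩
  · rw [h0, Finset.sum_empty, mul_zero]
    exact zero_le
  have far : ∀ z ∈ blk N n ξ β, ξ * k ≤ sd x0 z + (ξ - 1) := by
    intro z hz
    rw [mem_blk] at hz
    have := bk_le (n := n) hξ hN x0 z
    rwa [hz] at this
  have h1 := H576.infl (fk_T hb hξ f) (evs_T hb hξ hP) (i := c) (Finset.mem_univ _)
    (A := blk N n ξ β) (fun z hz => by
      rw [Finset.mem_compl, mem_ball]
      have h2 := far z hz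
      have h3 := sd_tri x0 c z
      omega) (J := (Finset.univ : Finset Unit)) (b' := fun _ => ball c ξ)
    (fun y hy => ⟨(), Finset.mem_univ _, ball_mono (by omega) hy⟩)
  refine h1.trans ?_
  rw [Finset.sum_const, Finset.card_univ, Fintype.card_unit, one_smul, ENNReal.ofReal_mul two_pos.le,
    show ENNReal.ofReal 2 = 2 by simp, mul_assoc, two_mul]
  refine add_le_add ?_ ?_
  · refine (Wd_le_WF (B := ball z0 ξ) (Λ := ball z0 n') ?_ ?_).trans ?_
    · intro z hz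
      rw [mem_ball]
      have h4 := sd_of_bk_eq (n := n) hξ hN (z := z0) (w := z)
        ((mem_blk.1 hz0).trans (mem_blk.1 hz).symm)
      omega
    · intro om u _ hy
      obtain ⟨y, hy, hyc⟩ := hy
      refine ⟨y, ?_, hyc⟩
      rw [mem_ball] at hy ⊢
      have h4 := far z0 hz0
      have h5 := sd_tri x0 c z0
      have h6 := sd_tri c y z0
      rw [sd_symm y z0] at h6
      omega
    · have := hW z0 n'
      unfold Spec.Ele at this
      rwa [hexp] at this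
  · refine (Wd_le_WF (B := ball c ξ) (Λ := ball c n') (Finset.Subset.refl _) ?_).trans ?_
    · intro om u _ hy
      obtain ⟨y, hy, hyc⟩ := hy
      refine ⟨y, ?_, hyc⟩
      rw [mem_ball]
      have h4 := far y hy
      have h5 := sd_tri x0 c y
      omega
    · have := hW c n'
      unfold Spec.Ele at this
      rwa [hexp] at this

open Classical in
/-- one block, source `ball x0 (4 r)` -/
theorem far_block' {b : ℝ} (hb : 0 < b) {ξ : ℕ} (hξ : 0 < ξ) {f : Spec.V N → ℝ} {c₀ : ℝ}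
    (hc₀ : 0 < c₀) {μ r : ℕ} (hμ : 0 < μ)
    (hr : 8 * r ≤ ξ) (hP : ∀ x0, c₀ ≤ Spec.PO N b ξ hb.le μ r f x0)
    {C₁ c₁ : ℝ} (hC₁ : 0 ≤ C₁)
    (hW : ∀ (x0 : Spec.V N) (n : ℕ), Spec.Ele (Spec.σ2 N b ξ hb.le f)
      (Spec.WF (Spec.σ2 N b ξ hb.le f) (ball x0 ξ) (ball x0 n))
        (C₁ * (ξ : ℝ) ^ 4 * Real.exp (-(c₁ * n / ξ))))
    {n : ℕ} [NeZero n] (hN : N = n * ξ) (x0 : Spec.V N) (β : ZMod n × ZMod n)
    (hk : 4 ≤ sd (bk n ξ x0) β) :
    ∑ z ∈ blk N n ξ β, H576.Ex (Spec.σ2 N b ξ hb.le f)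
        (fun x om => H576.ad (Spec.σ2 N b ξ hb.le f) x z *
          H576.ind (∃ y ∈ ball x0 (4 * r), y ∈ clus tS tT om z)) ≤
      ENNReal.ofReal (162 * (C₁ * (ξ : ℝ) ^ 4 *
        Real.exp (-(c₁ * ((sd (bk n ξ x0) β : ℝ) - 4)))) / (c₀ * μ)) *
        H576.Ex (Spec.σ2 N b ξ hb.le f) (fun _ _ => 1) := by
  obtain ⟨I, hI1, hI2, hI3⟩ := cover x0 r
  set σ := Spec.σ2 N b ξ hb.le f with hσ
  set T : ℝ := C₁ * (ξ : ℝ) ^ 4 * Real.exp (-(c₁ * ((sd (bk n ξ x0) β : ℝ) - 4))) with hT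
  have hT0 : 0 ≤ T := by positivity
  have hpμ : 0 < c₀ * μ := mul_pos hc₀ (by exact_mod_cast hμ)
  set Y : ℝ≥0∞ := H576.Ex σ (fun _ _ => 1) with hY
  -- union over the centres
  have h1 : ∑ z ∈ blk N n ξ β, H576.Ex σ (fun x om => H576.ad σ x z *
        H576.ind (∃ y ∈ ball x0 (4 * r), y ∈ clus tS tT om z)) ≤
      ∑ c ∈ I, ∑ z ∈ blk N n ξ β, H576.Ex σ (fun x om => H576.ad σ x z *
        H576.ind (∃ y ∈ ball c r, y ∈ clus tS tT om z)) := by
    rw [Finset.sum_comm]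
    refine Finset.sum_le_sum fun z _ => ?_
    rw [← H576.Ex_sum]
    refine H576.Ex_mono fun x om _ => ?_
    rw [← Finset.mul_sum]
    refine mul_le_mul' le_rfl ?_
    by_cases h : ∃ y ∈ ball x0 (4 * r), y ∈ clus tS tT om z
    · obtain ⟨y, hy, hyc⟩ := h
      obtain ⟨c, hc, hyc'⟩ := hI3 y hy
      calc H576.ind (∃ y ∈ ball x0 (4 * r), y ∈ clus tS tT om z) ≤ 1 := H576.ind_le_one _
        _ = H576.ind (∃ y ∈ ball c r, y ∈ clus tS tT om z) :=
            (H576.ind_true ⟨y, hyc', hyc⟩).symm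
        _ ≤ _ := Finset.single_le_sum
            (f := fun c => H576.ind (∃ y ∈ ball c r, y ∈ clus tS tT om z))
            (fun _ _ => zero_le) hc
    · rw [H576.ind_false h]
      exact zero_le
  refine h1.trans ?_
  have h2 : ∀ c ∈ I, ∑ z ∈ blk N n ξ β, H576.Ex σ (fun x om => H576.ad σ x z *
        H576.ind (∃ y ∈ ball c r, y ∈ clus tS tT om z)) ≤
      ENNReal.ofReal (2 * T / (c₀ * μ)) * Y := by
    intro c hc
    have h3 := far_block hb hξ hr hP hC₁ hW hN x0 β hk (hI2 c hc)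
    rw [← hσ, ← hT, ← hY] at h3
    have e1 : ENNReal.ofReal c₀ * (μ : ℝ≥0∞) = ENNReal.ofReal (c₀ * μ) := by
      rw [ENNReal.ofReal_mul hc₀.le, ENNReal.ofReal_natCast]
    rw [e1] at h3
    have e2 : ENNReal.ofReal (1 / (c₀ * μ)) * ENNReal.ofReal (c₀ * μ) = 1 := by
      rw [← ENNReal.ofReal_mul (by positivity), one_div, inv_mul_cancel₀ hpμ.ne',
        ENNReal.ofReal_one]
    have h4 := mul_le_mul_right h3 (ENNReal.ofReal (1 / (c₀ * μ)))
    rw [← mul_assoc, e2, one_mul, ← mul_assoc, ← ENNReal.ofReal_mul (by positivity)] at h4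
    refine h4.trans (le_of_eq ?_)
    congr 2
    ring
  refine (Finset.sum_le_sum h2).trans ?_
  rw [Finset.sum_const, nsmul_eq_mul, ← mul_assoc]
  refine mul_le_mul' ?_ le_rfl
  rw [← ENNReal.ofReal_natCast, ← ENNReal.ofReal_mul (Nat.cast_nonneg _)]
  refine ENNReal.ofReal_le_ofReal ?_
  have h5 : (I.card : ℝ) ≤ 81 := by exact_mod_cast hI1
  have h6 : 0 ≤ 2 * T / (c₀ * μ) := by positivity
  calc (I.card : ℝ) * (2 * T / (c₀ * μ)) ≤ 81 * (2 * T / (c₀ * μ)) :=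
        mul_le_mul_of_nonneg_right h5 h6
    _ = 162 * T / (c₀ * μ) := by ring

open Classical in
/-- the influence functional of a change of the background off `ball x0 n0`, `n0 ≥ 5 ξ` -/
theorem In_far {b : ℝ} (hb : 0 < b) {ξ : ℕ} (hξ : 0 < ξ) {f ψ : Spec.V N → ℝ} {c₀ : ℝ}
    (hc₀ : 0 < c₀) {μ r : ℕ} (hμ : 0 < μ)
    (hr : 8 * r ≤ ξ) (hP : ∀ x0, c₀ ≤ Spec.PO N b ξ hb.le μ r f x0)
    {C₁ c₁ : ℝ} (hC₁ : 0 ≤ C₁) (hc₁ : 0 < c₁)
    (hW : ∀ (x0 : Spec.V N) (n : ℕ), Spec.Ele (Spec.σ2 N b ξ hb.le f)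
      (Spec.WF (Spec.σ2 N b ξ hb.le f) (ball x0 ξ) (ball x0 n))
        (C₁ * (ξ : ℝ) ^ 4 * Real.exp (-(c₁ * n / ξ))))
    (hd : ξ ∣ N) (x0 : Spec.V N) {n0 : ℕ} (hn0 : 5 * ξ ≤ n0) (hψ1 : ∀ z, |ψ z| ≤ 1)
    (hψ0 : ∀ z ∈ ball x0 n0, ψ z = 0) :
    In tS tT (fun _ => b) (fun _ => hb.le) (SpecC.ms (ξ : ℝ)) f ψ (ball x0 (4 * r)) ≤
      ENNReal.ofReal (162 * C₁ * Real.exp (4 * c₁ + c₁ / 2) *
        (∑' i : ℤ, Real.exp (-(c₁ / 2 / 2 * |(i : ℝ)|))) ^ 2 * ((ξ : ℝ) ^ 2 / (c₀ * μ)) *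
          Real.exp (-(c₁ / 2 * n0 / ξ))) *
        H576.Ex (sysf tS tT (fun _ => b) (fun _ => hb.le) (SpecC.ms (ξ : ℝ)) f)
          (fun _ _ => 1) := by
  obtain ⟨n, hn⟩ := hd
  have hN : N = n * ξ := by rw [hn, mul_comm]
  have hn0' : n ≠ 0 := by
    rintro rfl
    exact NeZero.ne N (by simpa using hN)
  have : NeZero n := ⟨hn0'⟩
  rw [← σ2_eq hb.le ξ f]
  set σ := Spec.σ2 N b ξ hb.le f with hσ
  set Y : ℝ≥0∞ := H576.Ex σ (fun _ _ => 1) with hY
  set F : Spec.V N → ℝ≥0∞ := fun z => H576.Ex σ (fun x om => H576.ad σ x z *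
        H576.ind (∃ y ∈ ball x0 (4 * r), y ∈ clus tS tT om z)) with hF
  have hξR : (0 : ℝ) < ξ := by exact_mod_cast hξ
  have hμR : (0 : ℝ) < μ := by exact_mod_cast hμ
  have e1 : In tS tT (fun _ => b) (fun _ => hb.le) (SpecC.ms (ξ : ℝ)) f ψ (ball x0 (4 * r)) =
      ∑ z, ENNReal.ofReal (SpecC.ms (ξ : ℝ) z * |ψ z|) * F z := by
    unfold In
    rw [← σ2_eq hb.le ξ f]
  -- blocks
  have e2 : ∑ z, ENNReal.ofReal (SpecC.ms (ξ : ℝ) z * |ψ z|) * F z =
      ∑ β : ZMod n × ZMod n, ∑ z ∈ blk N n ξ β,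
        ENNReal.ofReal (SpecC.ms (ξ : ℝ) z * |ψ z|) * F z := by
    rw [← Finset.sum_fiberwise_of_maps_to (s := univ) (t := univ)
      (g := fun z : Spec.V N => bk n ξ z) (fun z _ => Finset.mem_univ _)]
    rfl
  set S : ℝ := ∑' i : ℤ, Real.exp (-(c₁ / 2 / 2 * |(i : ℝ)|)) with hS
  set A : ℝ := 162 * C₁ * Real.exp (4 * c₁ + c₁ / 2) * ((ξ : ℝ) ^ 2 / (c₀ * μ)) *
          Real.exp (-(c₁ / 2 * n0 / ξ)) with hA
  have hA0 : 0 ≤ A := by positivity
  have h3 : ∀ β : ZMod n × ZMod n, ∑ z ∈ blk N n ξ β,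
        ENNReal.ofReal (SpecC.ms (ξ : ℝ) z * |ψ z|) * F z ≤
      ENNReal.ofReal (A * Real.exp (-(c₁ / 2 * (sd (bk n ξ x0) β : ℝ)))) * Y := by
    intro β
    by_cases hβ : ∀ z ∈ blk N n ξ β, z ∈ ball x0 n0
    · rw [Finset.sum_eq_zero fun z hz => by
        rw [hψ0 z (hβ z hz)]
        simp]
      exact zero_le
    · push Not at hβ
      obtain ⟨z1, hz1, hz1'⟩ := hβ
      rw [mem_ball, not_le] at hz1'
      have h4 := le_bk (n := n) hξ hN x0 z1
      rw [mem_blk.1 hz1] at h4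
      set k : ℕ := sd (bk n ξ x0) β with hk
      have h5 : n0 < ξ * k + ξ := by omega
      have hk4 : 4 ≤ k := by
        by_contra h6
        have h7 : k ≤ 3 := by omega
        have h8 := Nat.mul_le_mul_left ξ h7
        omega
      have h9 := far_block' hb hξ hc₀ hμ hr hP hC₁ hW hN x0 β hk4
      rw [← hσ, ← hY, ← hk] at h9
      calc ∑ z ∈ blk N n ξ β, ENNReal.ofReal (SpecC.ms (ξ : ℝ) z * |ψ z|) * F z
          ≤ ∑ z ∈ blk N n ξ β, ENNReal.ofReal (1 / (ξ : ℝ) ^ 2) * F z := by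
            refine Finset.sum_le_sum fun z _ => mul_le_mul' (ENNReal.ofReal_le_ofReal ?_) le_rfl
            unfold SpecC.ms
            exact mul_le_of_le_one_right (by positivity) (hψ1 z)
        _ = ENNReal.ofReal (1 / (ξ : ℝ) ^ 2) * ∑ z ∈ blk N n ξ β, F z := by
            rw [Finset.mul_sum]
        _ ≤ ENNReal.ofReal (1 / (ξ : ℝ) ^ 2) * (ENNReal.ofReal (162 * (C₁ * (ξ : ℝ) ^ 4 *
              Real.exp (-(c₁ * ((k : ℝ) - 4)))) / (c₀ * μ)) * Y) := mul_le_mul' le_rfl h9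
        _ = ENNReal.ofReal (1 / (ξ : ℝ) ^ 2 * (162 * (C₁ * (ξ : ℝ) ^ 4 *
              Real.exp (-(c₁ * ((k : ℝ) - 4)))) / (c₀ * μ))) * Y := by
            rw [← mul_assoc, ← ENNReal.ofReal_mul (by positivity)]
        _ ≤ _ := by
            refine mul_le_mul' (ENNReal.ofReal_le_ofReal ?_) le_rfl
            have h10 : (n0 : ℝ) / ξ ≤ (k : ℝ) + 1 := by
              rw [div_le_iff₀ hξR]
              have : (n0 : ℝ) ≤ (ξ : ℝ) * k + ξ := by exact_mod_cast h5.le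
              linarith
            have h11 : Real.exp (-(c₁ * ((k : ℝ) - 4))) ≤
                Real.exp (4 * c₁ + c₁ / 2) * Real.exp (-(c₁ / 2 * n0 / ξ)) *
                  Real.exp (-(c₁ / 2 * (k : ℝ))) := by
              rw [← Real.exp_add, ← Real.exp_add]
              refine Real.exp_le_exp.2 ?_
              have h12 : c₁ / 2 * n0 / ξ = c₁ / 2 * ((n0 : ℝ) / ξ) := by ring
              rw [h12]
              nlinarith
            rw [hA]
            calc 1 / (ξ : ℝ) ^ 2 * (162 * (C₁ * (ξ : ℝ) ^ 4 *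
                  Real.exp (-(c₁ * ((k : ℝ) - 4)))) / (c₀ * μ))
                = (162 * C₁ * ((ξ : ℝ) ^ 2 / (c₀ * μ))) *
                    Real.exp (-(c₁ * ((k : ℝ) - 4))) := by
                  field_simp
              _ ≤ (162 * C₁ * ((ξ : ℝ) ^ 2 / (c₀ * μ))) *
                    (Real.exp (4 * c₁ + c₁ / 2) * Real.exp (-(c₁ / 2 * n0 / ξ)) *
                      Real.exp (-(c₁ / 2 * (k : ℝ)))) :=
                  mul_le_mul_of_nonneg_left h11 (by positivity)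
              _ = _ := by ring
  rw [e1, e2]
  refine (Finset.sum_le_sum fun β _ => h3 β).trans ?_
  rw [← Finset.sum_mul]
  refine mul_le_mul' ?_ le_rfl
  rw [← ENNReal.ofReal_sum_of_nonneg fun β _ => by positivity]
  refine ENNReal.ofReal_le_ofReal ?_
  rw [← Finset.mul_sum]
  have h13 := sum_exp_sd n (bk n ξ x0) (half_pos hc₁)
  rw [← hS] at h13
  refine (mul_le_mul_of_nonneg_left h13 hA0).trans (le_of_eq ?_)
  rw [hA]
  ring

end torus

/-- **(H2) on the torus from B1** -/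
theorem H2_of_B1 {b1 b2 a c₀ δ : ℝ} {A : ℕ} (hb1 : 0 < b1) (hc₀ : 0 < c₀) (hδ : 0 < δ)
    (hA : 8 ≤ A) (h : Spec.ThmB1 b1 b2 a c₀ δ A) : Spec.ThmH2 b1 b2 a c₀ δ A := by
  obtain ⟨W₀, h⟩ := h
  refine ⟨W₀, fun W hW => ?_⟩
  obtain ⟨c₁, C₁, η, ys, X₁, hc₁, hC₁, hη, hys, hX₁, h⟩ := h W hW
  set S : ℝ := ∑' i : ℤ, Real.exp (-(c₁ / 2 / 2 * |(i : ℝ)|)) with hS
  set C₂ : ℝ := 162 * C₁ * Real.exp (4 * c₁ + c₁ / 2) * S ^ 2 * (2 / (c₀ * δ)) with hC₂
  have hC₂0 : 0 ≤ C₂ := by positivity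
  refine ⟨c₁ / 2, C₂ + Real.exp (5 * c₁), η, ys, max X₁ (⌈2 / δ⌉₊ + 1), by positivity,
    by positivity, hη, hys, hX₁.trans (le_max_left _ _), ?_⟩
  intro N _ b hb ξ y hR hNy f g hP x0 n h1 hfg
  have hbpos : 0 < b := hb1.trans_le hR.hb1
  have hX := hR.hX
  have hξ1 : 1 ≤ ξ := hX₁.trans ((le_max_left _ _).trans hX)
  have hξ : 0 < ξ := hξ1
  have hξR : (0 : ℝ) < ξ := by exact_mod_cast hξ
  have hξ2 : 2 / δ ≤ (ξ : ℝ) := by
    have h2 : ⌈2 / δ⌉₊ + 1 ≤ ξ := (le_max_right _ _).trans hX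
    have h3 : (2 / δ : ℝ) ≤ (⌈2 / δ⌉₊ : ℝ) := Nat.le_ceil _
    have h4 : ((⌈2 / δ⌉₊ : ℕ) : ℝ) + 1 ≤ (ξ : ℝ) := by exact_mod_cast h2
    linarith
  have hR' : Spec.Rng b1 b2 a W ys X₁ N b ξ y :=
    { hb1 := hR.hb1, hb2 := hR.hb2, hX := (le_max_left _ _).trans hX,
      hK := (Nat.mul_le_mul_right ξ (le_max_left _ _)).trans hR.hK,
      hd := hR.hd, y0 := hR.y0, y1 := hR.y1, hyp := hR.hyp }
  set μ : ℕ := ⌊δ * (ξ : ℝ) ^ 2⌋₊ with hμdef
  set r : ℕ := ξ / A with hr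
  have h8r : 8 * r ≤ ξ := by
    rw [hr]
    calc 8 * (ξ / A) ≤ A * (ξ / A) := Nat.mul_le_mul_right _ hA
      _ ≤ ξ := Nat.mul_div_le ξ A
  have hδξ : 2 ≤ δ * (ξ : ℝ) ^ 2 := by
    have h2 : 2 ≤ δ * ξ := by
      rw [div_le_iff₀ hδ] at hξ2
      linarith
    have h3 : (1 : ℝ) ≤ ξ := by exact_mod_cast hξ1
    nlinarith
  have hμ2 : δ * (ξ : ℝ) ^ 2 / 2 ≤ (μ : ℝ) := by
    have := Nat.lt_floor_add_one (δ * (ξ : ℝ) ^ 2)
    rw [← hμdef] at this
    linarith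
  have hμ : 0 < μ := by
    have : (0 : ℝ) < μ := by linarith
    exact_mod_cast this
  have hμR : (0 : ℝ) < μ := by exact_mod_cast hμ
  -- the trivial bound
  have hm := ms_pos (N := N) hξ
  have h01 : ∀ q : Spec.V N → ℝ, 0 ≤ Spec.PO N b ξ hb μ r q x0 ∧
      Spec.PO N b ξ hb μ r q x0 ≤ 1 := by
    intro q
    unfold Spec.PO
    refine ⟨ENNReal.toReal_nonneg, ?_⟩
    rw [← ENNReal.toReal_one]
    refine ENNReal.toReal_mono ENNReal.one_ne_top ?_
    refine ENNReal.div_le_of_le_mul ?_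
    rw [one_mul]
    exact H576.Ex_mono fun x om _ => H576.ind_le_one _
  rcases Nat.lt_or_ge n (5 * ξ) with hn | hn
  · have h2 : |Spec.PO N b ξ hb μ r f x0 - Spec.PO N b ξ hb μ r g x0| ≤ 1 := by
      rw [abs_le]
      have h3 := h01 f
      have h4 := h01 g
      constructor <;> linarith [h3.1, h3.2, h4.1, h4.2]
    refine h2.trans ?_
    have h5 : (n : ℝ) / ξ ≤ 5 := by
      rw [div_le_iff₀ hξR]
      exact_mod_cast hn.le
    have h6 : 1 ≤ Real.exp (5 * c₁) * Real.exp (-(c₁ / 2 * n / ξ)) := by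
      rw [← Real.exp_add]
      refine Real.one_le_exp ?_
      have : c₁ / 2 * n / ξ = c₁ / 2 * ((n : ℝ) / ξ) := by ring
      rw [this]
      nlinarith
    calc (1 : ℝ) ≤ Real.exp (5 * c₁) * Real.exp (-(c₁ / 2 * n / ξ)) := h6
      _ ≤ (C₂ + Real.exp (5 * c₁)) * Real.exp (-(c₁ / 2 * n / ξ)) := by
          refine mul_le_mul_of_nonneg_right ?_ (Real.exp_pos _).le
          linarith
  · rw [PO_eq hb hξ, PO_eq hb hξ]
    refine H2a tS tT (fun _ => b) (fun _ => hb) (SpecC.ms (ξ : ℝ)) hm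
      (B := ball x0 (4 * r)) (OD_congr μ r x0) (by positivity) fun τ hτ => ?_
    have hPτ : ∀ x0, c₀ ≤ Spec.PO N b ξ hbpos.le μ r (f + τ • (g - f)) x0 := by
      intro x1
      have e : f + τ • (g - f) = fun z => (1 - τ) * f z + τ * g z := by
        funext z
        simp only [Pi.add_apply, Pi.smul_apply, Pi.sub_apply, smul_eq_mul]
        ring
      rw [e]
      exact hP τ hτ.1 hτ.2 x1
    have hWτ := h N b hb ξ y hR' hNy (f + τ • (g - f)) hPτ
    have key := In_far hbpos hξ hc₀ hμ h8r hPτ hC₁.le hc₁ hWτ hR.hd x0 hn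
      (ψ := g - f) (fun z => by
        have := h1 z
        rw [abs_sub_comm] at this
        exact this) fun z hz => by
        show g z - f z = 0
        rw [hfg z hz, sub_self]
    refine key.trans (mul_le_mul' (ENNReal.ofReal_le_ofReal ?_) le_rfl)
    rw [← hS]
    refine mul_le_mul_of_nonneg_right ?_ (Real.exp_pos _).le
    have h7 : (ξ : ℝ) ^ 2 / (c₀ * μ) ≤ 2 / (c₀ * δ) := by
      rw [div_le_div_iff₀ (by positivity) (by positivity)]
      have : c₀ * (δ * (ξ : ℝ) ^ 2 / 2) ≤ c₀ * μ := mul_le_mul_of_nonneg_left hμ2 hc₀.le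
      nlinarith
    calc 162 * C₁ * Real.exp (4 * c₁ + c₁ / 2) * S ^ 2 * ((ξ : ℝ) ^ 2 / (c₀ * μ))
        ≤ 162 * C₁ * Real.exp (4 * c₁ + c₁ / 2) * S ^ 2 * (2 / (c₀ * δ)) :=
          mul_le_mul_of_nonneg_left h7 (by positivity)
      _ = C₂ := by rw [hC₂]
      _ ≤ C₂ + Real.exp (5 * c₁) := by linarith [Real.exp_pos (5 * c₁)]

end Vale.Agent.P159.TM.H857
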