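/-
P159, T1, row GLUEB (helper857): assembly of part B on the torus.
-/
import Vale.Agent.P159.TM.H857.H2B1
import Vale.Agent.P159.TM.H41.Ker
import Vale.Agent.P159.TM.H459.TnSd

open scoped ENNReal BigOperators
open Finset Filter Topology

set_option linter.unusedSectionVars false

namespace Vale.Agent.P159.TM.H857

open Vale.Agent.P159.H353 Vale.Agent.P159.T1.H897 Vale.Agent.P159.TM.H131
  Vale.Agent.P159.TM.H60 Vale.Agent.P159.TM.H459

/-- the standing range is monotone -/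
theorem rng_mono {b1 b2 a W W' ys ys' : ℝ} {X X' N : ℕ} [NeZero N] {b : ℝ} {ξ : ℕ} {y : ℝ}
    (hR : Spec.Rng b1 b2 a W ys X N b ξ y) (hW : W' ≤ W) (hys : ys ≤ ys') (hX : X' ≤ X) :
    Spec.Rng b1 b2 a W' ys' X' N b ξ y :=
  { hb1 := hR.hb1
    hb2 := hR.hb2
    hX := hX.trans hR.hX
    hK := (Nat.mul_le_mul_right ξ hX).trans hR.hK
    hd := hR.hd
    y0 := hR.y0
    y1 := hR.y1.trans hys
    hyp := ⟨hR.hyp.qu, fun k h1 h2 => hR.hyp.h2 k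
      (h1.trans (div_le_div_of_nonneg_right hW (Nat.cast_nonneg _)))
      (h2.trans (div_le_div_of_nonneg_right hW (Nat.cast_nonneg _)))⟩ }

section torus

variable {N : ℕ} [NeZero N]

theorem Wg_T (b : ℝ) : Wg (tS (N := N)) tT (fun _ => b) = SpecC.wT b N :=
  (H41.wT_eq_Wk b).symm

theorem sum_edges (ψ : Spec.V N → ℝ) :
    ∑ e : Spec.E N, (ψ (tT e) - ψ (tS e)) ^ 2 = H859.dirE ψ := by
  unfold H859.dirE
  rw [Fintype.sum_prod_type]
  refine Finset.sum_congr rfl fun x _ => ?_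
  simp [tT, tS, dir]

theorem ddU_one_le {b : ℝ} (hb : 0 ≤ b) {ξ : ℕ} (hξ : 0 < ξ) {y a : ℝ}
    (hQ : H764.QU (ξ : ℝ) (Spec.GT N b ξ) y a) (ψ : Spec.V N → ℝ) :
    H104.ddU (SpecC.wT b N) (SpecC.ms (ξ : ℝ)) 0 ψ ψ ≤
      y / (ξ : ℝ) ^ 2 * ∑ x, ψ x ^ 2 + a * H859.dirE ψ := by
  have hξR : (0 : ℝ) < ξ := by exact_mod_cast hξ
  exact (H41.QU_iff hb hξR y a).2 hQ ψ

/-- **the bootstrap on the torus** -/
theorem tB4 {b : ℝ} (hb : 0 < b) {ξ : ℕ} (hξ : 0 < ξ) {y a η m₀ L₀ c₀ C c : ℝ} {μ r : ℕ}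
    (hy : 0 ≤ y) (hQ : H764.QU (ξ : ℝ) (Spec.GT N b ξ) y a)
    (hη : (N : ℝ) ^ 2 * y ≤ η * (ξ : ℝ) ^ 2)
    (hL : 0 < L₀) (hm₀L : L₀ ≤ m₀) (hm₀ : m₀ ^ 2 ≤ 1 / 2) (hc₀ : 0 < c₀) (hc : 0 < c)
    (hC : 0 ≤ C)
    (hsm : Real.exp (7 * η + 4 * (max a 0 * 50 * m₀ ^ 2)) - 1 ≤ (c₀ / 8) ^ 2)
    (h0 : ∀ x0 : Spec.V N, c₀ ≤ Spec.PO N b ξ hb.le μ r 0 x0)
    (H2 : ∀ f g : Spec.V N → ℝ,
      (∀ s : ℝ, 0 ≤ s → s ≤ 1 → ∀ x0,
        c₀ / 2 ≤ Spec.PO N b ξ hb.le μ r (fun z => (1 - s) * f z + s * g z) x0) →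
      ∀ (x0 : Spec.V N) (n : ℕ), (∀ z, |f z - g z| ≤ 1) → (∀ z ∈ ball x0 n, f z = g z) →
        |Spec.PO N b ξ hb.le μ r f x0 - Spec.PO N b ξ hb.le μ r g x0| ≤
          C * Real.exp (-(c * n / ξ)))
    (hq : Real.exp (-(c / (2 * L₀))) ≤ 1 / 2)
    (hsmall : 2 * (C * Real.exp c) * Real.exp (-(c * m₀ / (2 * L₀))) ≤ c₀ / 8)
    (f : Spec.V N → ℝ) (hf : Spec.LipS (L₀ / ξ) f) (x : Spec.V N) :
    3 / 4 * c₀ ≤ Spec.PO N b ξ hb.le μ r f x := by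
  have hξR : (0 : ℝ) < ξ := by exact_mod_cast hξ
  have hξ1 : (1 : ℝ) ≤ ξ := by exact_mod_cast hξ
  have hm := ms_pos (N := N) hξ
  have hG : H871.Gin (Wg (tS (N := N)) tT (fun _ => b)) (SpecC.ms (ξ : ℝ)) := by
    rw [Wg_T]
    exact H41.gin_wT hb.le hm
  have hQ' := ddU_one_le hb.le hξ hQ
  have hQ2 : ∀ ψ : Spec.V N → ℝ, (∑ x, SpecC.ms (N := N) (ξ : ℝ) x * ψ x ^ 2) -
      H871.Q0 (Wg (tS (N := N)) tT (fun _ => b)) (SpecC.ms (ξ : ℝ)) ψ ≤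
      y / (ξ : ℝ) ^ 2 * ∑ x, ψ x ^ 2 + max a 0 * ∑ e : Spec.E N, (ψ (tT e) - ψ (tS e)) ^ 2 := by
    intro ψ
    rw [Wg_T, sum_edges, ← H41.ddU_eq_Q0 H41.even_wT]
    refine (hQ' ψ).trans ?_
    have h1 : 0 ≤ H859.dirE ψ := by
      rw [← sum_edges]
      exact Finset.sum_nonneg fun _ _ => sq_nonneg _
    have h2 := mul_le_mul_of_nonneg_right (le_max_left a 0) h1
    linarith
  have hdir : H859.dirE (fun _ : Spec.V N => (1 : ℝ)) = 0 := by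
    rw [← sum_edges]
    simp
  have hcard : (Fintype.card (Spec.V N) : ℝ) = (N : ℝ) ^ 2 := by
    rw [Fintype.card_prod, ZMod.card]
    push_cast
    ring
  have hyN : y / (ξ : ℝ) ^ 2 * (N : ℝ) ^ 2 ≤ η := by
    rw [div_mul_eq_mul_div, div_le_iff₀ (by positivity)]
    linarith
  have hkap : H871.kap (Wg (tS (N := N)) tT (fun _ => b)) (SpecC.ms (ξ : ℝ)) ≤ η := by
    rw [Wg_T, H41.kap_eq_ddU H41.even_wT]
    refine (hQ' _).trans ?_
    rw [hdir]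
    simp only [one_pow, Finset.sum_const, Finset.card_univ, nsmul_eq_mul, mul_one, mul_zero,
      add_zero]
    rw [hcard]
    exact hyN
  have key := B4 (tS (N := N)) tT (fun _ => b) (fun _ => hb.le) (SpecC.ms (ξ : ℝ)) hm hG
    (κ' := y / (ξ : ℝ) ^ 2) (a := max a 0) (Cv := 50) (m₀ := m₀) (L := L₀ / ξ) (c₀ := c₀)
    (η := η) (C := C * Real.exp c) (c := c / ξ)
    (div_pos hL hξR) ((div_le_self hL.le hξ1).trans hm₀L) hm₀ (by positivity) (le_max_right _ _)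
    hc₀ (div_pos hc hξR) (mul_nonneg hC (Real.exp_pos _).le) hQ2 hkap (by rw [hcard]; exact hyN)
    (fun z w => (sd z w : ℝ)) (fun _ _ => Nat.cast_nonneg _)
    (fun e => by exact_mod_cast sd_edge e) (fun z w => by rw [sd_symm])
    (fun x z w => by exact_mod_cast sd_tri x z w)
    (fun x ρ hρ => by
      refine le_trans (Nat.cast_le.2 (Finset.card_le_card fun e he => ?_)) (card_edges_le x hρ)
      rw [Finset.mem_filter] at he ⊢
      exact he)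
    hsm (fun x => OD μ r x)
    (fun x => by
      rw [← PO_eq hb.le hξ]
      exact h0 x)
  refine (key ?_ ?_ ?_ f ?_ x).trans (le_of_eq ?_)
  · intro l hl hlL hP f g x ρ hf hg hρ hfg h1
    rw [← PO_eq hb.le hξ, ← PO_eq hb.le hξ]
    have h2 := H2 f g (fun s hs0 hs1 x1 => by
      rw [PO_eq hb.le hξ]
      refine hP _ x1 ?_
      intro z w
      have e1 : (fun z => (1 - s) * f z + s * g z) z - (fun z => (1 - s) * f z + s * g z) w =
        (1 - s) * (f z - f w) + s * (g z - g w) := by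
          show ((1 - s) * f z + s * g z) - ((1 - s) * f w + s * g w) = _
          ring
      rw [e1]
      refine (abs_add_le _ _).trans ?_
      rw [abs_mul, abs_mul, abs_of_nonneg (by linarith : (0 : ℝ) ≤ 1 - s), abs_of_nonneg hs0]
      have h3 := hf z w
      have h4 := hg z w
      have h5 : 0 ≤ 1 - s := by linarith
      nlinarith [mul_le_mul_of_nonneg_left h3 h5, mul_le_mul_of_nonneg_left h4 hs0])
      x ⌊ρ⌋₊ h1 (fun z hz => by
        refine hfg z ?_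
        rw [mem_ball] at hz
        exact (Nat.cast_le.2 hz).trans (Nat.floor_le hρ))
    refine h2.trans ?_
    rw [mul_assoc, ← Real.exp_add]
    refine mul_le_mul_of_nonneg_left (Real.exp_le_exp.2 ?_) hC
    have h6 : ρ ≤ (⌊ρ⌋₊ : ℝ) + 1 := (Nat.lt_floor_add_one ρ).le
    have h7 : c * ρ / ξ ≤ c * (⌊ρ⌋₊ : ℝ) / ξ + c := by
      have h8 : c * ρ / ξ ≤ c * ((⌊ρ⌋₊ : ℝ) + 1) / ξ := by gcongr
      have h9 : c * ((⌊ρ⌋₊ : ℝ) + 1) / ξ = c * (⌊ρ⌋₊ : ℝ) / ξ + c / ξ := by ring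
      have h10 : c / ξ ≤ c := div_le_self hc.le hξ1
      linarith
    have h11 : c / ξ * ρ = c * ρ / ξ := by ring
    rw [h11]
    linarith
  · have e : c / ξ / (2 * (L₀ / ξ)) = c / (2 * L₀) := by field_simp
    rw [e]
    exact hq
  · have e : c / ξ * m₀ / (2 * (L₀ / ξ)) = c * m₀ / (2 * L₀) := by field_simp
    rw [e]
    exact hsmall
  · intro z w
    exact hf z w
  · exact (PO_eq hb.le hξ μ r f x).symm

end torus

/-- cluster decay at `f` gives the decay of covariances at `f` (row COVB) -/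
def CovB : Prop := ∀ c : ℝ, 0 < c → ∃ c' K : ℝ, 0 < c' ∧ 0 < K ∧
  ∀ (N : ℕ) [NeZero N], 2 ≤ N → ∀ (b : ℝ) (hb : 0 ≤ b) (ξ : ℕ), 0 < ξ →
    ∀ (f : Spec.V N → ℝ) (C : ℝ),
    0 ≤ C →
    (∀ (x0 : Spec.V N) (n : ℕ), Spec.Ele (Spec.σ2 N b ξ hb f)
      (Spec.WF (Spec.σ2 N b ξ hb f) (ball x0 ξ) (ball x0 n))
        (C * (ξ : ℝ) ^ 4 * Real.exp (-(c * n / ξ)))) →
    ∀ (x₀ y₀ : Spec.V N) (u v : Spec.V N → ℝ),
      (∀ x, 0 ≤ u x ∧ u x ≤ 1) → (∀ x, 0 ≤ v x ∧ v x ≤ 1) →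
      (∀ x, u x ≠ 0 → H859.tn (x - x₀) ≤ ξ) → (∀ x, v x ≠ 0 → H859.tn (x - y₀) ≤ ξ) →
      H104.Cf (SpecC.wT b N) (SpecC.ms (ξ : ℝ)) f (H870.lin (SpecC.ms (ξ : ℝ)) u)
        (H870.lin (SpecC.ms (ξ : ℝ)) v) ≤
          K * C * Real.exp (-(c' * H859.tn (x₀ - y₀) / ξ))

/-- **assembly of part B** -/
theorem thmB_of {b1 b2 a : ℝ} (hb1 : 0 < b1) (hcov : CovB) (hA6 : Spec.ThmA6 b1 b2 a)
    (hB1 : ∀ c₀ δ A, 0 < c₀ → 0 < δ → 8 ≤ A → Spec.ThmB1 b1 b2 a c₀ δ A) :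
    Spec.ThmB b1 b2 a := by
  obtain ⟨W1, hA6⟩ := hA6
  obtain ⟨c₀, δ, ys1, A, X1, hc₀, hδ, hys1, hA, hAX1, hA6⟩ := hA6 W1 le_rfl
  have hB := hB1 (c₀ / 2) δ A (half_pos hc₀) hδ hA
  obtain ⟨W2, hB⟩ := hB
  obtain ⟨W3, hH⟩ := H2_of_B1 hb1 (half_pos hc₀) hδ hA (hB1 (c₀ / 2) δ A (half_pos hc₀) hδ hA)
  refine ⟨max W1 (max W2 W3), fun W hW => ?_⟩
  have hW1 : W1 ≤ W := (le_max_left _ _).trans hW
  have hW2 : W2 ≤ W := ((le_max_left _ _).trans (le_max_right _ _)).trans hW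
  have hW3 : W3 ≤ W := ((le_max_right _ _).trans (le_max_right _ _)).trans hW
  obtain ⟨c₁, C₁, η₁, ys2, X2, hc₁, hC₁, hη₁, hys2, hX2, hB⟩ := hB W hW2
  obtain ⟨c₂, C₂, η₂, ys3, X3, hc₂, hC₂, hη₂, hys3, hX3, hH⟩ := hH W hW3
  obtain ⟨c', K, hc', hK, hcov⟩ := hcov c₁ hc₁
  -- constants
  set s : ℝ := Real.log (1 + (c₀ / 8) ^ 2) with hs
  have hs0 : 0 < s := Real.log_pos (by have : 0 < (c₀ / 8) ^ 2 := by positivity
                                       linarith)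
  set a' : ℝ := max a 0 with ha'
  have ha'0 : 0 ≤ a' := le_max_right _ _
  set m₀ : ℝ := min (1 / 2) (√(s / (400 * (a' + 1)))) with hm₀
  have hm₀0 : 0 < m₀ := lt_min (by norm_num) (Real.sqrt_pos.2 (by positivity))
  have hm₀1 : m₀ ^ 2 ≤ 1 / 2 := by
    have h1 : m₀ ≤ 1 / 2 := min_le_left _ _
    nlinarith
  have hm₀2 : m₀ ^ 2 ≤ s / (400 * (a' + 1)) := by
    have h1 : m₀ ≤ √(s / (400 * (a' + 1))) := min_le_right _ _
    calc m₀ ^ 2 ≤ √(s / (400 * (a' + 1))) ^ 2 := pow_le_pow_left₀ hm₀0.le h1 2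
      _ = _ := Real.sq_sqrt (by positivity)
  have hm₀3 : 4 * (a' * 50 * m₀ ^ 2) ≤ s / 2 := by
    have h1 : m₀ ^ 2 * (400 * (a' + 1)) ≤ s := by
      rwa [le_div_iff₀ (by positivity)] at hm₀2
    have h2 : 0 ≤ m₀ ^ 2 := sq_nonneg _
    nlinarith
  set η : ℝ := min (min η₁ η₂) (s / 14) with hη
  have hη0 : 0 < η := lt_min (lt_min hη₁ hη₂) (by positivity)
  have hηs : 7 * η ≤ s / 2 := by
    have : η ≤ s / 14 := min_le_right _ _
    linarith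
  have hsm : Real.exp (7 * η + 4 * (a' * 50 * m₀ ^ 2)) - 1 ≤ (c₀ / 8) ^ 2 := by
    have h1 : Real.exp (7 * η + 4 * (a' * 50 * m₀ ^ 2)) ≤ Real.exp s :=
      Real.exp_le_exp.2 (by linarith)
    rw [hs, Real.exp_log (by positivity)] at h1
    linarith
  set D : ℝ := C₂ * Real.exp c₂ with hD
  have hD0 : 0 < D := by positivity
  set LL : ℝ := min m₀ (min (c₂ / 4) (c₂ * m₀ * c₀ / (32 * D))) with hLL
  have hLL0 : 0 < LL := lt_min hm₀0 (lt_min (by positivity) (by positivity))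
  have hLLm : LL ≤ m₀ := min_le_left _ _
  have hLL1 : LL ≤ c₂ / 4 := (min_le_right _ _).trans (min_le_left _ _)
  have hLL2 : LL ≤ c₂ * m₀ * c₀ / (32 * D) := (min_le_right _ _).trans (min_le_right _ _)
  have hexp : ∀ t : ℝ, 0 < t → Real.exp (-t) ≤ 1 / t := by
    intro t ht
    rw [Real.exp_neg, ← one_div]
    refine one_div_le_one_div_of_le ht ?_
    have := Real.add_one_le_exp t
    linarith
  have hq : Real.exp (-(c₂ / (2 * LL))) ≤ 1 / 2 := by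
    refine (hexp _ (by positivity)).trans ?_
    refine one_div_le_one_div_of_le two_pos ?_
    rw [le_div_iff₀ (by positivity)]
    linarith
  have hsmall : 2 * D * Real.exp (-(c₂ * m₀ / (2 * LL))) ≤ c₀ / 8 := by
    have h1 := hexp (c₂ * m₀ / (2 * LL)) (by positivity)
    have h2 : 16 * D / c₀ ≤ c₂ * m₀ / (2 * LL) := by
      rw [div_le_div_iff₀ hc₀ (by positivity)]
      rw [le_div_iff₀ (by positivity)] at hLL2
      nlinarith
    have h3 : 1 / (c₂ * m₀ / (2 * LL)) ≤ 1 / (16 * D / c₀) :=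
      one_div_le_one_div_of_le (by positivity) h2
    calc 2 * D * Real.exp (-(c₂ * m₀ / (2 * LL))) ≤ 2 * D * (1 / (16 * D / c₀)) :=
          mul_le_mul_of_nonneg_left (h1.trans h3) (by positivity)
      _ = c₀ / 8 := by field_simp; norm_num
  refine ⟨LL / 2, min c₁ c', max C₁ (K * C₁), η, min ys1 (min ys2 ys3), max X1 (max X2 (max X3 2)),
    by positivity, lt_min hc₁ hc', lt_max_of_lt_left hC₁, hη0, lt_min hys1 (lt_min hys2 hys3),
    (hX2.trans (le_max_left _ _)).trans (le_max_right _ _), ?_⟩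
  intro N _ b hb ξ y hR hNy
  have hbpos : 0 < b := hb1.trans_le hR.hb1
  have hξ : 0 < ξ := lt_of_lt_of_le (Nat.lt_of_lt_of_le Nat.zero_lt_one
    ((hX2.trans (le_max_left _ _)).trans (le_max_right X1 _))) hR.hX
  have hξR : (0 : ℝ) < ξ := by exact_mod_cast hξ
  have R1 := rng_mono hR hW1 (min_le_left _ _) (le_max_left _ _)
  have R2 : Spec.Rng b1 b2 a W ys2 X2 N b ξ y := rng_mono hR le_rfl
    ((min_le_right _ _).trans (min_le_left _ _)) ((le_max_left _ _).trans (le_max_right _ _))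
  have R3 : Spec.Rng b1 b2 a W ys3 X3 N b ξ y := rng_mono hR le_rfl
    ((min_le_right _ _).trans (min_le_right _ _))
    (((le_max_left _ _).trans (le_max_right _ _)).trans (le_max_right _ _))
  have hN2 : 2 ≤ N := by
    have h1 : 2 ≤ max X1 (max X2 (max X3 2)) :=
      ((le_max_right _ _).trans (le_max_right _ _)).trans (le_max_right _ _)
    have h2 := hR.hK
    have h3 : 2 * 1 ≤ max X1 (max X2 (max X3 2)) * ξ := Nat.mul_le_mul h1 hξ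
    omega
  have hN1 : (N : ℝ) ^ 2 * y ≤ η₁ * (ξ : ℝ) ^ 2 := hNy.trans
    (mul_le_mul_of_nonneg_right ((min_le_left _ _).trans (min_le_left _ _)) (sq_nonneg _))
  have hN3 : (N : ℝ) ^ 2 * y ≤ η₂ * (ξ : ℝ) ^ 2 := hNy.trans
    (mul_le_mul_of_nonneg_right ((min_le_left _ _).trans (min_le_right _ _)) (sq_nonneg _))
  set μ : ℕ := ⌊δ * (ξ : ℝ) ^ 2⌋₊ with hμ
  -- the first clause
  have F1 : ∀ f : Spec.V N → ℝ, Spec.LipS (2 * (LL / 2) / ξ) f → ∀ (x0 : Spec.V N) (n : ℕ),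
      Spec.Ele (Spec.σ2 N b ξ hb f) (Spec.WF (Spec.σ2 N b ξ hb f) (ball x0 ξ) (ball x0 n))
        (C₁ * (ξ : ℝ) ^ 4 * Real.exp (-(c₁ * n / ξ))) := by
    intro f hf
    refine hB N b hb ξ y R2 hN1 f fun x0 => ?_
    have hf' : Spec.LipS (LL / ξ) f := by
      have e : 2 * (LL / 2) / (ξ : ℝ) = LL / ξ := by ring
      rwa [e] at hf
    have h1 := tB4 hbpos hξ (μ := μ) (r := ξ / A) hR.y0 hR.hyp.qu hNy hLL0 hLLm hm₀1 hc₀ hc₂
      hC₂.le hsm (fun x0 => hA6 N b hb ξ y R1 x0)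
      (fun f g hP x0 n h1 hfg => hH N b hb ξ y R3 hN3 f g hP x0 n h1 hfg)
      hq hsmall f hf' x0
    refine le_trans ?_ h1
    linarith
  refine ⟨fun f hf x0 n => ?_, ?_⟩
  · have h1 := F1 f hf x0 n
    unfold Spec.Ele at h1 ⊢
    refine h1.trans (mul_le_mul' (ENNReal.ofReal_le_ofReal ?_) le_rfl)
    have h2 : Real.exp (-(c₁ * n / ξ)) ≤ Real.exp (-(min c₁ c' * n / ξ)) := by
      refine Real.exp_le_exp.2 (neg_le_neg ?_)
      have : min c₁ c' ≤ c₁ := min_le_left _ _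
      gcongr
    have h3 : C₁ ≤ max C₁ (K * C₁) := le_max_left _ _
    have h4 : 0 ≤ max C₁ (K * C₁) := hC₁.le.trans h3
    gcongr
  · intro f hf x₀ y₀ u v hu hv hsu hsv
    have hfS : Spec.LipS (2 * (LL / 2) / ξ) f := by
      intro z w
      have h1 := hf z w
      have h2 := dT_le_sd z w
      unfold dT at h2
      have h3 : 0 ≤ LL / 2 / ξ := by positivity
      calc |f z - f w| ≤ LL / 2 / ξ * H859.tn (z - w) := h1
        _ ≤ LL / 2 / ξ * (2 * sd z w) := mul_le_mul_of_nonneg_left h2 h3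
        _ = 2 * (LL / 2) / ξ * sd z w := by ring
    have h1 := hcov N hN2 b hb ξ hξ f C₁ hC₁.le (F1 f hfS) x₀ y₀ u v hu hv hsu hsv
    refine h1.trans ?_
    have h2 : Real.exp (-(c' * H859.tn (x₀ - y₀) / ξ)) ≤
        Real.exp (-(min c₁ c' * H859.tn (x₀ - y₀) / ξ)) := by
      refine Real.exp_le_exp.2 (neg_le_neg ?_)
      have h5 : min c₁ c' ≤ c' := min_le_right _ _
      have h6 : 0 ≤ H859.tn (x₀ - y₀) := H859.tn_nonneg _
      gcongr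
    exact mul_le_mul (le_max_right _ _) h2 (Real.exp_pos _).le
      ((mul_nonneg hK.le hC₁.le).trans (le_max_right _ _))

/-- **row GLUEB** (885's statement) -/
theorem glueB {b1 b2 a : ℝ} (hb1 : 0 < b1) (hcov : CovB) : Spec.GlueB b1 b2 a :=
  fun _ hA6 hB1 _ => thmB_of hb1 hcov hA6 hB1

end Vale.Agent.P159.TM.H857
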