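/-
P159, T1, row COVB (helper857): cluster decay gives the decay of covariances.
-/
import Vale.Agent.P159.TM.H857.GlueB

open scoped ENNReal BigOperators
open Finset Filter Topology

set_option linter.unusedSectionVars false

namespace Vale.Agent.P159.TM.H857

open Vale.Agent.P159.H353 Vale.Agent.P159.T1.H897 Vale.Agent.P159.TM.H131
  Vale.Agent.P159.TM.H60 Vale.Agent.P159.TM.H459

section

variable {V E : Type*} [Fintype V] [DecidableEq V] [Fintype E] [DecidableEq E]
variable (s t : E → V) (b : E → ℝ) (hb : ∀ e, 0 ≤ b e) (m : V → ℝ)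

theorem gr_coord (x : V) : H104.Gr fun h : V → ℤ => (h x : ℝ) := by
  have h1 := H104.Gr.li (Pi.single x (1 : ℝ) : V → ℝ)
  have h2 : H104.li (Pi.single x (1 : ℝ) : V → ℝ) = fun h : V → ℤ => (h x : ℝ) := by
    funext h
    unfold H104.li
    simp [Pi.single_apply]
  rwa [h2] at h1

theorem gr_lin (u : V → ℝ) : H104.Gr (H870.lin m u) := by
  rw [H104.lin_li]
  exact H104.Gr.li _

include hb in
/-- summability over the pairs -/
theorem summ_pair (hm : ∀ x, 0 < m x) (f : V → ℝ) (x y : V) (S : Finset E) :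
    Summable fun H : V → ℤ × ℤ => H426.WP s t (fun e => wI (b e)) (ga m f) H S *
      (H426.df H y * H426.df H x) := by
  have s0 := summ_wt0 s t b hb m hm f
  have sx := fun x => summ_wt s t b hb m hm f (gr_coord x)
  have sxy := summ_wt s t b hb m hm f ((gr_coord y).mul (gr_coord x))
  have q1 := summable_mul_of_summable_norm sxy.norm s0.norm
  have q2 := summable_mul_of_summable_norm s0.norm sxy.norm
  have q3 := summable_mul_of_summable_norm (sx y).norm (sx x).norm
  have q4 := summable_mul_of_summable_norm (sx x).norm (sx y).norm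
  have q : Summable fun h : (V → ℤ) × (V → ℤ) =>
      H426.wt s t (fun e => wI (b e)) (ga m f) h.1 * H426.wt s t (fun e => wI (b e)) (ga m f) h.2 *
        (((h.1 y : ℝ) - h.2 y) * ((h.1 x : ℝ) - h.2 x)) := by
    refine (((q1.add q2).sub q3).sub q4).congr fun h => ?_
    ring
  have q' := (H426.prE V).summable_iff.2 q.abs
  refine Summable.of_norm_bounded q' fun H => ?_
  rw [Real.norm_eq_abs, abs_mul, abs_of_nonneg (H426.WP_nonneg (fun e n => wI_nonneg (hb e) n)
    (ga_nonneg m f) H S)]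
  have h1 : H426.WP s t (fun e => wI (b e)) (ga m f) H S ≤
      H426.wt s t (fun e => wI (b e)) (ga m f) (fun x => (H x).1) *
        H426.wt s t (fun e => wI (b e)) (ga m f) fun x => (H x).2 := by
    rw [← H426.sum_WP]
    exact Finset.single_le_sum (fun S _ => H426.WP_nonneg (fun e n => wI_nonneg (hb e) n)
      (ga_nonneg m f) H S) (Finset.mem_univ S)
  refine (mul_le_mul_of_nonneg_right h1 (abs_nonneg _)).trans (le_of_eq ?_)
  show _ = |H426.wt s t (fun e => wI (b e)) (ga m f) (fun x => (H x).1) *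
      H426.wt s t (fun e => wI (b e)) (ga m f) (fun x => (H x).2) *
      ((((H y).1 : ℝ) - (H y).2) * (((H x).1 : ℝ) - (H x).2))|
  rw [abs_mul (H426.wt s t (fun e => wI (b e)) (ga m f) (fun x => (H x).1) *
    H426.wt s t (fun e => wI (b e)) (ga m f) (fun x => (H x).2)),
    abs_of_nonneg (mul_nonneg (wt_nn s t b hb m f _) (wt_nn s t b hb m f _))]
  rfl

/-- covariances against the mixed cluster sums -/
theorem Cf_le (hm : ∀ x, 0 < m x) (f u v : V → ℝ) {M : ℝ}
    (hu : ∀ x, 0 ≤ u x) (hv : ∀ x, 0 ≤ v x) {A A' : Finset V} (hM : 0 ≤ M)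
    (huA : ∀ x, m x * u x ≤ if x ∈ A then M else 0)
    (hvA : ∀ x, m x * v x ≤ if x ∈ A' then M else 0) {K : ℝ} (hK : 0 ≤ K)
    (h : ∑ z ∈ A', H576.Ex (sysf s t b hb m f) (fun X om => H576.mf (sysf s t b hb m f) X om z z *
        ∑ y ∈ A, (H576.mf (sysf s t b hb m f) X om z y : ℝ≥0∞)) ≤
      ENNReal.ofReal K * H576.Ex (sysf s t b hb m f) (fun _ _ => 1)) :
    2 * H104.Cf (Wg s t b) m f (H870.lin m u) (H870.lin m v) ≤ M ^ 2 * K := by
  classical
  set σ := sysf s t b hb m f with hσ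
  have hZ : 0 < Zr s t b m f := Zr_pos s t b m hb hm f
  have s0 := summ_wt0 s t b hb m hm f
  have sF := summ_wt s t b hb m hm f (gr_lin m v)
  have sG := summ_wt s t b hb m hm f (gr_lin m u)
  have sFG := summ_wt s t b hb m hm f ((gr_lin m v).mul (gr_lin m u))
  have hc := H426.cov_pairs (s := s) (t := t) s0 sF sG sFG
  set T : ℝ := ∑' H : V → ℤ × ℤ, ∑ S, H426.WP s t (fun e => wI (b e)) (ga m f) H S *
        ((H870.lin m v (fun x => (H x).1) - H870.lin m v fun x => (H x).2) *
          (H870.lin m u (fun x => (H x).1) - H870.lin m u fun x => (H x).2)) with hT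
  have e0 : 2 * H104.Cf (Wg s t b) m f (H870.lin m u) (H870.lin m v) * Zr s t b m f ^ 2 = T := by
    have e1 : H104.Cf (Wg s t b) m f (H870.lin m u) (H870.lin m v) =
        ((∑' h, H426.wt s t (fun e => wI (b e)) (ga m f) h) *
          (∑' h, H426.wt s t (fun e => wI (b e)) (ga m f) h *
            (H870.lin m v h * H870.lin m u h)) -
          (∑' h, H426.wt s t (fun e => wI (b e)) (ga m f) h * H870.lin m v h) *
            ∑' h, H426.wt s t (fun e => wI (b e)) (ga m f) h * H870.lin m u h) /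
          Zr s t b m f ^ 2 := by
      unfold H104.Cf
      rw [Ex_wt, Ex_wt, Ex_wt, ← Zr_eq_wt]
      have e2 : ∀ h, H870.lin m u h * H870.lin m v h = H870.lin m v h * H870.lin m u h :=
        fun h => mul_comm _ _
      simp_rw [e2]
      field_simp
    rw [e1, hc]
    field_simp
  -- expansion in the first factor
  have elin : ∀ (w : V → ℝ) (H : V → ℤ × ℤ), H870.lin m w (fun x => (H x).1) -
      H870.lin m w (fun x => (H x).2) = ∑ x, m x * w x * H426.df H x := by
    intro w H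
    unfold H870.lin H426.df
    rw [← Finset.sum_sub_distrib]
    exact Finset.sum_congr rfl fun x _ => by ring
  have hsum : ∀ z x S, Summable fun H : V → ℤ × ℤ =>
      H426.WP s t (fun e => wI (b e)) (ga m f) H S * (H426.df H z * H426.df H x) :=
    fun z x S => summ_pair s t b hb m hm f x z S
  have e3 : T = ∑ z, m z * v z * ∑' H : V → ℤ × ℤ, ∑ S,
      H426.WP s t (fun e => wI (b e)) (ga m f) H S *
        (H426.df H z * ∑ x, m x * u x * H426.df H x) := by
    have e4 : ∀ H : V → ℤ × ℤ, ∑ S, H426.WP s t (fun e => wI (b e)) (ga m f) H S *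
        ((H870.lin m v (fun x => (H x).1) - H870.lin m v fun x => (H x).2) *
          (H870.lin m u (fun x => (H x).1) - H870.lin m u fun x => (H x).2)) =
        ∑ z, m z * v z * ∑ S, H426.WP s t (fun e => wI (b e)) (ga m f) H S *
          (H426.df H z * ∑ x, m x * u x * H426.df H x) := by
      intro H
      rw [elin, elin]
      have e5 : ∀ z, m z * v z * ∑ S, H426.WP s t (fun e => wI (b e)) (ga m f) H S *
          (H426.df H z * ∑ x, m x * u x * H426.df H x) =
          ∑ S, H426.WP s t (fun e => wI (b e)) (ga m f) H S *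
            (m z * v z * H426.df H z * ∑ x, m x * u x * H426.df H x) := by
        intro z
        rw [Finset.mul_sum]
        exact Finset.sum_congr rfl fun S _ => by ring
      simp_rw [e5]
      rw [Finset.sum_comm]
      refine Finset.sum_congr rfl fun S _ => ?_
      rw [← Finset.mul_sum, ← Finset.sum_mul]
    rw [hT, tsum_congr e4, Summable.tsum_finsetSum]
    · exact Finset.sum_congr rfl fun z _ => tsum_mul_left
    · intro z _
      refine Summable.mul_left _ (summable_sum fun S _ => ?_)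
      have e6 : ∀ H : V → ℤ × ℤ, H426.WP s t (fun e => wI (b e)) (ga m f) H S *
          (H426.df H z * ∑ x, m x * u x * H426.df H x) =
          ∑ x, m x * u x * (H426.WP s t (fun e => wI (b e)) (ga m f) H S *
            (H426.df H z * H426.df H x)) := by
        intro H
        rw [Finset.mul_sum, Finset.mul_sum]
        exact Finset.sum_congr rfl fun x _ => by ring
      simp_rw [e6]
      exact summable_sum fun x _ => (hsum z x S).mul_left _
  -- the influence bound for one site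
  set R : V → ℝ := fun z => ∑' H : V → ℤ × ℤ, ∑ S,
      H426.WP s t (fun e => wI (b e)) (ga m f) H S * (|H426.df H z| *
        ∑ x, if H426.CB s t S {z} x then |m x * u x| * |H426.df H x| else 0) with hR
  have hi : ∀ z, ∑' H : V → ℤ × ℤ, ∑ S, H426.WP s t (fun e => wI (b e)) (ga m f) H S *
        (H426.df H z * ∑ x, m x * u x * H426.df H x) ≤ R z := by
    intro z
    refine (le_abs_self _).trans ?_
    exact H426.influence_le (s := s) (t := t) (fun e n => wI_nonneg (hb e) n) (ga_nonneg m f)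
      (B := {z}) (A := fun H => H426.df H z)
      (fun H K hHK => by
        have := hHK z rfl
        show H426.df H z = H426.df K z
        unfold H426.df
        rw [this]) (fun x => m x * u x) (fun S x => hsum z x S)
  have hTR : T ≤ ∑ z, m z * v z * R z := by
    rw [e3]
    exact Finset.sum_le_sum fun z _ =>
      mul_le_mul_of_nonneg_left (hi z) (mul_nonneg (hm z).le (hv z))
  -- each `R z`
  have hR0 : ∀ z, 0 ≤ R z := by
    intro z
    refine tsum_nonneg fun H => Finset.sum_nonneg fun S _ => mul_nonneg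
      (H426.WP_nonneg (fun e n => wI_nonneg (hb e) n) (ga_nonneg m f) H S)
      (mul_nonneg (abs_nonneg _) (Finset.sum_nonneg fun x _ => ?_))
    split_ifs
    · exact mul_nonneg (abs_nonneg _) (abs_nonneg _)
    · exact le_rfl
  have had : ∀ (H : V → ℤ × ℤ) (x : V), ENNReal.ofReal |H426.df H x| = H576.ad σ H x := by
    intro H x
    unfold H576.ad H426.df
    have h5 : |((H x).1 : ℝ) - ((H x).2 : ℝ)| = (((σ.d (H x)).natAbs : ℕ) : ℝ) := by
      have : σ.d (H x) = (H x).1 - (H x).2 := rfl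
      rw [this, Nat.cast_natAbs, Int.cast_abs]
      push_cast
      rfl
    rw [h5, ENNReal.ofReal_natCast]
  have hRe : ∀ z, ENNReal.ofReal (R z) ≤ ENNReal.ofReal M *
      H576.Ex σ (fun X om => H576.mf σ X om z z * ∑ y ∈ A, (H576.mf σ X om z y : ℝ≥0∞)) := by
    intro z
    have hnn : ∀ H : V → ℤ × ℤ, 0 ≤ ∑ S, H426.WP s t (fun e => wI (b e)) (ga m f) H S *
        (|H426.df H z| * ∑ x, if H426.CB s t S {z} x then |m x * u x| * |H426.df H x|
          else 0) := by
      intro H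
      refine Finset.sum_nonneg fun S _ => mul_nonneg
        (H426.WP_nonneg (fun e n => wI_nonneg (hb e) n) (ga_nonneg m f) H S)
        (mul_nonneg (abs_nonneg _) (Finset.sum_nonneg fun x _ => ?_))
      split_ifs
      · exact mul_nonneg (abs_nonneg _) (abs_nonneg _)
      · exact le_rfl
    by_cases hs : Summable fun H : V → ℤ × ℤ => ∑ S, H426.WP s t (fun e => wI (b e)) (ga m f) H S *
        (|H426.df H z| * ∑ x, if H426.CB s t S {z} x then |m x * u x| * |H426.df H x|
          else 0)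
    swap
    · rw [hR]
      show ENNReal.ofReal (∑' H : V → ℤ × ℤ, ∑ S, _) ≤ _
      rw [tsum_eq_zero_of_not_summable hs, ENNReal.ofReal_zero]
      exact zero_le
    rw [hR]
    show ENNReal.ofReal (∑' H : V → ℤ × ℤ, ∑ S, _) ≤ _
    rw [ENNReal.ofReal_tsum_of_nonneg hnn hs, ← H576.Ex_mul]
    unfold H576.Ex
    refine ENNReal.tsum_le_tsum fun H => ?_
    rw [ENNReal.ofReal_sum_of_nonneg fun S _ => mul_nonneg
      (H426.WP_nonneg (fun e n => wI_nonneg (hb e) n) (ga_nonneg m f) H S)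
      (mul_nonneg (abs_nonneg _) (Finset.sum_nonneg fun x _ => by
        split_ifs
        · exact mul_nonneg (abs_nonneg _) (abs_nonneg _)
        · exact le_rfl))]
    refine Finset.sum_le_sum fun S _ => ?_
    rw [WP_eq s t b hb m, ENNReal.ofReal_mul (Sys.wt_nonneg _ _ _)]
    refine mul_le_mul_right ?_ _
    rw [ENNReal.ofReal_mul (abs_nonneg _), had H z]
    have e7 : (H576.mf σ H S z z : ℝ≥0∞) = H576.ad σ H z := by
      rw [H576.mf_ad, if_pos (self_mem_clus z)]
    beta_reduce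
    rw [e7, mul_left_comm]
    refine mul_le_mul' le_rfl ?_
    rw [ENNReal.ofReal_sum_of_nonneg fun x _ => by
        split_ifs
        · exact mul_nonneg (abs_nonneg _) (abs_nonneg _)
        · exact le_rfl, Finset.mul_sum]
    rw [← Finset.sum_subset (Finset.subset_univ A)]
    · refine Finset.sum_le_sum fun x _ => ?_
      by_cases hx : H426.CB s t S {z} x
      · rw [if_pos hx, ENNReal.ofReal_mul (abs_nonneg _), had H x]
        have hx' : x ∈ clus σ.s σ.t S z := by
          obtain ⟨y, hy, hc⟩ := hx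
          rw [Set.mem_singleton_iff] at hy
          rw [hy] at hc
          rw [mem_clus]
          exact Conn.symm hc
        rw [H576.mf_ad, if_pos hx']
        refine mul_le_mul' (ENNReal.ofReal_le_ofReal ?_) le_rfl
        rw [abs_of_nonneg (mul_nonneg (hm x).le (hu x))]
        refine (huA x).trans ?_
        split_ifs
        · exact le_rfl
      · rw [if_neg hx, ENNReal.ofReal_zero]
        exact zero_le
    · intro x _ hx
      have h8 := huA x
      rw [if_neg hx] at h8
      have h9 : m x * u x = 0 := le_antisymm h8 (mul_nonneg (hm x).le (hu x))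
      rw [h9]
      simp
  have hfin : ENNReal.ofReal (∑ z, m z * v z * R z) ≤
      ENNReal.ofReal (M ^ 2 * K * Zr s t b m f ^ 2) := by
    rw [ENNReal.ofReal_sum_of_nonneg fun z _ =>
      mul_nonneg (mul_nonneg (hm z).le (hv z)) (hR0 z)]
    calc ∑ z, ENNReal.ofReal (m z * v z * R z)
        ≤ ∑ z ∈ A', ENNReal.ofReal M * ENNReal.ofReal (R z) := by
          rw [← Finset.sum_subset (Finset.subset_univ A')]
          · refine Finset.sum_le_sum fun z hz => ?_
            have h8 := hvA z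
            rw [if_pos hz] at h8
            rw [ENNReal.ofReal_mul (mul_nonneg (hm z).le (hv z))]
            exact mul_le_mul' (ENNReal.ofReal_le_ofReal h8) le_rfl
          · intro z _ hz
            have h8 := hvA z
            rw [if_neg hz] at h8
            have h9 : m z * v z = 0 := le_antisymm h8 (mul_nonneg (hm z).le (hv z))
            rw [h9]
            simp
      _ ≤ ∑ z ∈ A', ENNReal.ofReal M * (ENNReal.ofReal M * H576.Ex σ (fun X om =>
            H576.mf σ X om z z * ∑ y ∈ A, (H576.mf σ X om z y : ℝ≥0∞))) :=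
          Finset.sum_le_sum fun z _ => mul_le_mul' le_rfl (hRe z)
      _ = ENNReal.ofReal M * (ENNReal.ofReal M * ∑ z ∈ A', H576.Ex σ (fun X om =>
            H576.mf σ X om z z * ∑ y ∈ A, (H576.mf σ X om z y : ℝ≥0∞))) := by
          rw [Finset.mul_sum, Finset.mul_sum]
      _ ≤ ENNReal.ofReal M * (ENNReal.ofReal M * (ENNReal.ofReal K *
            H576.Ex σ (fun _ _ => 1))) :=
          mul_le_mul' le_rfl (mul_le_mul' le_rfl h)
      _ = _ := by
          rw [Ex_one s t b hb m hm f, ← ENNReal.ofReal_mul hK, ← ENNReal.ofReal_mul hM,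
            ← ENNReal.ofReal_mul hM]
          congr 1
          ring
  rw [ENNReal.ofReal_le_ofReal_iff (by positivity)] at hfin
  have h10 := hTR.trans hfin
  rw [← e0] at h10
  exact le_of_mul_le_mul_right h10 (pow_pos hZ 2)

end

section torus

variable {N : ℕ} [NeZero N]

/-- all clusters: two centres -/
theorem Wd_near {S : Type*} {σ : Sys (Spec.V N) (Spec.E N) S} {ξ : ℕ} {y₀ y₁ : Spec.V N}
    (hne : y₀ ≠ y₁) (hd : y₀ ∈ ball y₁ ξ) (Φ : Finset (Spec.V N) → Prop) :
    H576.Wd σ (ball y₀ ξ) Φ ≤ H576.Ex σ (Spec.WF σ (ball y₀ ξ) (ball y₀ 0)) +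
      H576.Ex σ (Spec.WF σ (ball y₁ ξ) (ball y₁ 0)) := by
  unfold H576.Wd
  rw [← H576.Ex_sum, ← H576.Ex_add]
  refine H576.Ex_mono fun x om hw => ?_
  have hy0 : ∀ z : Spec.V N, z ∈ ball y₀ 0 ↔ z = y₀ := by
    intro z
    rw [mem_ball]
    constructor
    · intro h
      unfold sd sn at h
      have h1 : (z - y₀).1.valMinAbs.natAbs = 0 := by omega
      have h2 : (z - y₀).2.valMinAbs.natAbs = 0 := by omega
      rw [Int.natAbs_eq_zero, ZMod.valMinAbs_eq_zero] at h1 h2
      have h3 : z - y₀ = 0 := Prod.ext h1 h2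
      exact sub_eq_zero.1 h3
    · rintro rfl
      rw [sd_self]
  have hy1 : y₀ ∉ ball y₁ 0 := by
    rw [mem_ball]
    intro h
    unfold sd sn at h
    have h1 : (y₀ - y₁).1.valMinAbs.natAbs = 0 := by omega
    have h2 : (y₀ - y₁).2.valMinAbs.natAbs = 0 := by omega
    rw [Int.natAbs_eq_zero, ZMod.valMinAbs_eq_zero] at h1 h2
    have h3 : y₀ - y₁ = 0 := Prod.ext h1 h2
    exact hne (sub_eq_zero.1 h3)
  -- termwise
  have key : ∀ u ∈ ball y₀ ξ, (H576.mf σ x om u u : ℝ≥0∞) *
      (∑ v ∈ ball y₀ ξ, (H576.mf σ x om u v : ℝ≥0∞)) * H576.ind (Φ (clus σ.s σ.t om u)) ≤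
      (∑ v ∈ ball y₀ ξ, ((H576.mf σ x om u u * H576.mf σ x om u v : ℕ) : ℝ≥0∞) *
        H576.ind (∃ z, z ∉ ball y₀ 0 ∧ H576.mf σ x om u z ≠ 0)) +
      (if u = y₀ then ((H576.mf σ x om y₀ y₀ * H576.mf σ x om y₀ y₀ : ℕ) : ℝ≥0∞) *
        H576.ind (∃ z, z ∉ ball y₁ 0 ∧ H576.mf σ x om y₀ z ≠ 0) else 0) := by
    intro u hu
    by_cases hd0 : σ.d (x u) = 0
    · rw [H576.mf_zero hd0]
      simp
    have huu : H576.mf σ x om u u ≠ 0 := by
      rw [H576.mf_self]
      exact Int.natAbs_ne_zero.2 hd0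
    have hsum : (H576.mf σ x om u u : ℝ≥0∞) *
        (∑ v ∈ ball y₀ ξ, (H576.mf σ x om u v : ℝ≥0∞)) =
        ∑ v ∈ ball y₀ ξ, ((H576.mf σ x om u u * H576.mf σ x om u v : ℕ) : ℝ≥0∞) := by
      rw [Finset.mul_sum]
      exact Finset.sum_congr rfl fun v _ => by rw [Nat.cast_mul]
    by_cases hz : ∃ z, z ∉ ball y₀ 0 ∧ H576.mf σ x om u z ≠ 0
    · rw [H576.ind_true hz, hsum]
      simp only [mul_one]
      refine le_add_right ?_
      calc _ ≤ (∑ v ∈ ball y₀ ξ, ((H576.mf σ x om u u * H576.mf σ x om u v : ℕ) : ℝ≥0∞)) * 1 :=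
            mul_le_mul' le_rfl (H576.ind_le_one _)
        _ = _ := mul_one _
    · push Not at hz
      have hu0 : u = y₀ := by
        by_contra h
        exact huu (hz u fun h' => h ((hy0 u).1 h'))
      rw [if_pos hu0]
      refine le_add_left ?_
      have h1 : ∃ z, z ∉ ball y₁ 0 ∧ H576.mf σ x om y₀ z ≠ 0 := ⟨y₀, hy1, by rwa [hu0] at huu⟩
      rw [H576.ind_true h1, mul_one, hsum]
      calc _ ≤ (∑ v ∈ ball y₀ ξ, ((H576.mf σ x om u u * H576.mf σ x om u v : ℕ) : ℝ≥0∞)) * 1 :=
            mul_le_mul' le_rfl (H576.ind_le_one _)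
        _ = ∑ v ∈ ball y₀ ξ, ((H576.mf σ x om u u * H576.mf σ x om u v : ℕ) : ℝ≥0∞) := mul_one _
        _ = ((H576.mf σ x om u u * H576.mf σ x om u y₀ : ℕ) : ℝ≥0∞) := by
            refine Finset.sum_eq_single y₀ (fun v _ hv => ?_) (fun h => ?_)
            · rw [hz v fun h' => hv ((hy0 v).1 h')]
              simp
            · exact absurd (by rw [mem_ball, sd_self]; exact Nat.zero_le _) h
        _ = _ := by rw [hu0]
  refine (Finset.sum_le_sum key).trans ?_
  rw [Finset.sum_add_distrib]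
  refine add_le_add le_rfl ?_
  rw [Finset.sum_ite_eq' (ball y₀ ξ) y₀]
  have h0 : y₀ ∈ ball y₀ ξ := by rw [mem_ball, sd_self]; exact Nat.zero_le _
  rw [if_pos h0]
  unfold Spec.WF
  refine le_trans ?_ (Finset.single_le_sum (f := fun u => ∑ v ∈ ball y₁ ξ,
    ((H576.mf σ x om u u * H576.mf σ x om u v : ℕ) : ℝ≥0∞) *
      H576.ind (∃ z, z ∉ ball y₁ 0 ∧ H576.mf σ x om u z ≠ 0)) (fun _ _ => zero_le) hd)
  exact Finset.single_le_sum (f := fun v =>
    ((H576.mf σ x om y₀ y₀ * H576.mf σ x om y₀ v : ℕ) : ℝ≥0∞) *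
      H576.ind (∃ z, z ∉ ball y₁ 0 ∧ H576.mf σ x om y₀ z ≠ 0)) (fun _ _ => zero_le) hd

end torus

/-- **row COVB** -/
theorem covB : CovB := by
  intro c hc
  refine ⟨c / 2, 2 * Real.exp (2 * c), half_pos hc, by positivity, ?_⟩
  intro N _ hN2 b hb ξ hξ f C hC hW x₀ y₀ u v hu hv hsu hsv
  have hξR : (0 : ℝ) < ξ := by exact_mod_cast hξ
  have hm := ms_pos (N := N) hξ
  set σ := Spec.σ2 N b ξ hb f with hσ
  set Y : ℝ≥0∞ := H576.Ex σ (fun _ _ => 1) with hY
  set D : ℕ := sd x₀ y₀ with hD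
  have hball : ∀ (w : Spec.V N → ℝ) (p : Spec.V N), (∀ x, 0 ≤ w x ∧ w x ≤ 1) →
      (∀ x, w x ≠ 0 → H859.tn (x - p) ≤ ξ) → ∀ x, SpecC.ms (N := N) (ξ : ℝ) x * w x ≤
        if x ∈ ball p ξ then 1 / (ξ : ℝ) ^ 2 else 0 := by
    intro w p hw hsw x
    have hms : SpecC.ms (N := N) (ξ : ℝ) x = 1 / (ξ : ℝ) ^ 2 := rfl
    by_cases hx : w x = 0
    · rw [hx, mul_zero]
      split_ifs
      · positivity
      · exact le_rfl
    · have h1 := hsw x hx
      have h2 : x ∈ ball p ξ := by
        rw [mem_ball]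
        have h3 := sn_le_tn (x - p)
        have h4 : ((sn (x - p) : ℕ) : ℝ) ≤ (ξ : ℝ) := h3.trans h1
        exact_mod_cast h4
      rw [if_pos h2, hms]
      exact mul_le_of_le_one_right (by positivity) (hw x).2
  -- a neighbour of a site
  have hnb : ∀ y : Spec.V N, ∃ y', y ≠ y' ∧ y ∈ ball y' ξ := by
    intro y
    have : Fact (1 < N) := ⟨hN2⟩
    refine ⟨y + (1, 0), ?_, ?_⟩
    · intro h
      have h1 := congrArg Prod.fst h
      simp at h1
    · rw [mem_ball, sd_symm]
      have h1 := sd_edge (N := N) (y, true)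
      have h2 : sd y (y + (1, 0)) ≤ 1 := h1
      omega
  have e4 : ∀ n : ℕ, ENNReal.ofReal (C * (ξ : ℝ) ^ 4 * Real.exp (-(c * n / ξ))) ≤
      ENNReal.ofReal (C * (ξ : ℝ) ^ 4) := by
    intro n
    refine ENNReal.ofReal_le_ofReal (mul_le_of_le_one_right (by positivity) ?_)
    rw [Real.exp_le_one_iff]
    have : 0 ≤ c * n / ξ := by positivity
    linarith
  have hmix : ∑ z ∈ ball y₀ ξ, H576.Ex σ (fun X om => H576.mf σ X om z z *
        ∑ y ∈ ball x₀ ξ, (H576.mf σ X om z y : ℝ≥0∞)) ≤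
      ENNReal.ofReal (4 * C * (ξ : ℝ) ^ 4 * (Real.exp (2 * c) * Real.exp (-(c * D / ξ)))) *
        Y := by
    refine (H576.mixed_le _ _).trans ?_
    rcases Nat.lt_or_ge (2 * ξ) D with h | h
    · -- far
      set n : ℕ := D - ξ - 1 with hn
      have hexp : Real.exp (-(c * n / ξ)) ≤ Real.exp (2 * c) * Real.exp (-(c * D / ξ)) := by
        rw [← Real.exp_add]
        refine Real.exp_le_exp.2 ?_
        have h1 : (D : ℝ) ≤ n + 2 * ξ := by
          have : D ≤ n + 2 * ξ := by omega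
          exact_mod_cast this
        have h2 : c * D / ξ ≤ c * n / ξ + 2 * c := by
          rw [div_add' _ _ _ hξR.ne']
          refine div_le_div_of_nonneg_right ?_ hξR.le
          nlinarith
        linarith
      have t1 : H576.Wd σ (ball y₀ ξ) (fun C => ∃ y ∈ ball x₀ ξ, y ∈ C) ≤
          ENNReal.ofReal (C * (ξ : ℝ) ^ 4 * Real.exp (-(c * n / ξ))) * Y := by
        refine (Wd_le_WF (B := ball y₀ ξ) (Λ := ball y₀ n) (Finset.Subset.refl _) ?_).trans
          (hW y₀ n)
        intro om u _ hy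
        obtain ⟨y, hy, hyc⟩ := hy
        refine ⟨y, ?_, hyc⟩
        rw [mem_ball] at hy ⊢
        have h5 := sd_tri x₀ y y₀
        rw [sd_symm y y₀] at h5
        omega
      have t2 : H576.Wd σ (ball x₀ ξ) (fun C => ∃ y ∈ ball y₀ ξ, y ∈ C) ≤
          ENNReal.ofReal (C * (ξ : ℝ) ^ 4 * Real.exp (-(c * n / ξ))) * Y := by
        refine (Wd_le_WF (B := ball x₀ ξ) (Λ := ball x₀ n) (Finset.Subset.refl _) ?_).trans
          (hW x₀ n)
        intro om u _ hy
        obtain ⟨y, hy, hyc⟩ := hy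
        refine ⟨y, ?_, hyc⟩
        rw [mem_ball] at hy ⊢
        have h5 := sd_tri x₀ y y₀
        rw [sd_symm y y₀] at h5
        omega
      refine (add_le_add t1 t2).trans ?_
      rw [← add_mul, ← ENNReal.ofReal_add (by positivity) (by positivity)]
      refine mul_le_mul' (ENNReal.ofReal_le_ofReal ?_) le_rfl
      have h7 : 0 ≤ C * (ξ : ℝ) ^ 4 := by positivity
      have h8 := mul_le_mul_of_nonneg_left hexp h7
      have h9 : 0 ≤ C * (ξ : ℝ) ^ 4 * (Real.exp (2 * c) * Real.exp (-(c * D / ξ))) := by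
        positivity
      linarith
    · -- near
      have hexp : 1 ≤ Real.exp (2 * c) * Real.exp (-(c * D / ξ)) := by
        rw [← Real.exp_add]
        refine Real.one_le_exp ?_
        have h1 : (D : ℝ) ≤ 2 * ξ := by exact_mod_cast h
        have h2 : c * D / ξ ≤ 2 * c := by
          rw [div_le_iff₀ hξR]
          nlinarith
        linarith
      obtain ⟨y₁, hy₁, hy₁'⟩ := hnb y₀
      obtain ⟨x₁, hx₁, hx₁'⟩ := hnb x₀
      have t0 : ∀ p : Spec.V N, H576.Ex σ (Spec.WF σ (ball p ξ) (ball p 0)) ≤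
          ENNReal.ofReal (C * (ξ : ℝ) ^ 4) * Y := fun p =>
        (hW p 0).trans (mul_le_mul' (e4 0) le_rfl)
      have t1 : H576.Wd σ (ball y₀ ξ) (fun C => ∃ y ∈ ball x₀ ξ, y ∈ C) ≤
          ENNReal.ofReal (C * (ξ : ℝ) ^ 4) * Y + ENNReal.ofReal (C * (ξ : ℝ) ^ 4) * Y :=
        (Wd_near hy₁ hy₁' _).trans (add_le_add (t0 _) (t0 _))
      have t2 : H576.Wd σ (ball x₀ ξ) (fun C => ∃ y ∈ ball y₀ ξ, y ∈ C) ≤
          ENNReal.ofReal (C * (ξ : ℝ) ^ 4) * Y + ENNReal.ofReal (C * (ξ : ℝ) ^ 4) * Y :=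
        (Wd_near hx₁ hx₁' _).trans (add_le_add (t0 _) (t0 _))
      refine (add_le_add t1 t2).trans ?_
      have h7 : 0 ≤ C * (ξ : ℝ) ^ 4 := by positivity
      rw [← add_mul, ← ENNReal.ofReal_add h7 h7, ← add_mul,
        ← ENNReal.ofReal_add (add_nonneg h7 h7) (add_nonneg h7 h7)]
      refine mul_le_mul' (ENNReal.ofReal_le_ofReal ?_) le_rfl
      have h8 := mul_le_mul_of_nonneg_left hexp h7
      linarith
  rw [hσ, σ2_eq hb ξ f] at hmix
  have key := Cf_le (tS (N := N)) tT (fun _ => b) (fun _ => hb) (SpecC.ms (ξ : ℝ)) hm f u v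
    (M := 1 / (ξ : ℝ) ^ 2)
    (K := 4 * C * (ξ : ℝ) ^ 4 * (Real.exp (2 * c) * Real.exp (-(c * D / ξ))))
    (fun x => (hu x).1) (fun x => (hv x).1) (by positivity)
    (hball u x₀ hu hsu) (hball v y₀ hv hsv) (by positivity)
    (by
      rw [hY, hσ, σ2_eq hb ξ f] at hmix
      exact hmix)
  rw [Wg_T] at key
  have hDt : Real.exp (-(c * D / ξ)) ≤ Real.exp (-(c / 2 * H859.tn (x₀ - y₀) / ξ)) := by
    refine Real.exp_le_exp.2 (neg_le_neg (div_le_div_of_nonneg_right ?_ hξR.le))
    have h1 := dT_le_sd x₀ y₀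
    unfold dT at h1
    rw [← hD] at h1
    nlinarith
  have h2 : H104.Cf (SpecC.wT b N) (SpecC.ms (ξ : ℝ)) f (H870.lin (SpecC.ms (ξ : ℝ)) u)
      (H870.lin (SpecC.ms (ξ : ℝ)) v) ≤ 2 * C * (Real.exp (2 * c) * Real.exp (-(c * D / ξ))) := by
    have e : (1 / (ξ : ℝ) ^ 2) ^ 2 *
        (4 * C * (ξ : ℝ) ^ 4 * (Real.exp (2 * c) * Real.exp (-(c * D / ξ)))) =
        4 * C * (Real.exp (2 * c) * Real.exp (-(c * D / ξ))) := by
      field_simp
    rw [e] at key
    linarith
  refine h2.trans ?_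
  have h3 : 0 ≤ 2 * C * Real.exp (2 * c) := by positivity
  calc 2 * C * (Real.exp (2 * c) * Real.exp (-(c * D / ξ)))
      = 2 * C * Real.exp (2 * c) * Real.exp (-(c * D / ξ)) := by ring
    _ ≤ 2 * C * Real.exp (2 * c) * Real.exp (-(c / 2 * H859.tn (x₀ - y₀) / ξ)) :=
        mul_le_mul_of_nonneg_left hDt h3
    _ = _ := by ring

/-- **part B: circuits and B1 give Theorem B** -/
theorem thmB {b1 b2 a : ℝ} (hb1 : 0 < b1) (hA6 : Spec.ThmA6 b1 b2 a)
    (hB1 : ∀ c₀ δ A, 0 < c₀ → 0 < δ → 8 ≤ A → Spec.ThmB1 b1 b2 a c₀ δ A) :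
    Spec.ThmB b1 b2 a := thmB_of hb1 covB hA6 hB1

end Vale.Agent.P159.TM.H857
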