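/-
P159, T1, module C3-TC (two-constants lemma), helper857.

`phi` analytic and bounded by `C` on the rectangle `|Re z| < 1, |Im z| < rho`, bounded by `delta` on
the real segment  =>  `|phi'(0)| <= K(rho) (1 + log (C/delta)) delta`.
-/
import Mathlib

open Complex Set

namespace Vale.Agent.P159.TM.H857

/-- The open rectangle `|Re z| < 1`, `|Im z| < rho`. -/
def rect (ρ : ℝ) : Set ℂ := {z | |z.re| < 1 ∧ |z.im| < ρ}

/-- One half of the estimate: on the upper part of a small disc. -/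
theorem upper {ρ : ℝ} {r : ℝ} (hr0 : 0 < r) (hr : r ≤ 1 / 4) (hrρ : r < ρ)
    (φ : ℂ → ℂ) {C δ : ℝ} (hδ : 0 < δ) (hCδ : δ ≤ C)
    (hd : DifferentiableOn ℂ φ (rect ρ)) (hC : ∀ z ∈ rect ρ, ‖φ z‖ ≤ C)
    (hR : ∀ t : ℝ, |t| < 1 → ‖φ t‖ ≤ δ)
    {z : ℂ} (hz : ‖z‖ ≤ r / (2 * (1 + Real.log (C / δ)))) (hz0 : 0 ≤ z.im) :
    ‖φ z‖ ≤ Real.exp 2 * δ := by
  have hC0 : 0 < C := lt_of_lt_of_le hδ hCδ
  set L : ℝ := 1 + Real.log (C / δ) with hL
  have hlog : 0 ≤ Real.log (C / δ) := Real.log_nonneg (by rw [le_div_iff₀ hδ]; linarith)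
  have hL1 : 1 ≤ L := by linarith
  set lam : ℝ := 6 * L with hlam
  set mu : ℝ := lam * r + L / r with hmu
  have hlam0 : 0 < lam := by positivity
  have hmu0 : 0 < mu := by positivity
  have hCδ' : C = δ * Real.exp (L - 1) := by
    have : L - 1 = Real.log (C / δ) := by rw [hL]; ring
    rw [this, Real.exp_log (by positivity)]
    field_simp
  -- the rectangle
  set U : Set ℂ := Ioo (-(1 / 2 : ℝ)) (1 / 2) ×ℂ Ioo 0 r with hU
  have hUb : Bornology.IsBounded U := (Metric.isBounded_Ioo _ _).reProdIm (Metric.isBounded_Ioo _ _)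
  have hcl : closure U = Icc (-(1 / 2 : ℝ)) (1 / 2) ×ℂ Icc 0 r := by
    rw [hU, Complex.closure_reProdIm, closure_Ioo (by norm_num), closure_Ioo (ne_of_lt hr0)]
  have hsub : closure U ⊆ rect ρ := by
    rw [hcl]
    intro w hw
    rw [Complex.mem_reProdIm] at hw
    obtain ⟨⟨h1, h2⟩, h3, h4⟩ := hw
    refine ⟨abs_lt.2 ⟨by linarith, by linarith⟩, abs_lt.2 ⟨by linarith, by linarith⟩⟩
  set g : ℂ → ℂ := fun w => Complex.exp (-(lam : ℂ) * w ^ 2 + (mu : ℂ) * I * w) with hg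
  have hgn : ∀ w : ℂ, ‖g w‖ = Real.exp (-lam * (w.re ^ 2 - w.im ^ 2) - mu * w.im) := by
    intro w
    rw [hg]
    simp only [Complex.norm_exp]
    congr 1
    simp [pow_two]
    ring
  have hgd : Differentiable ℂ g := by
    rw [hg]
    fun_prop
  have hopen : IsOpen (rect ρ) := by
    have h1 : Continuous fun z : ℂ => |z.re| := by fun_prop
    have h2 : Continuous fun z : ℂ => |z.im| := by fun_prop
    exact (isOpen_lt h1 continuous_const).inter (isOpen_lt h2 continuous_const)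
  have hDC : DiffContOnCl ℂ (fun w => φ w * g w) U := by
    refine DifferentiableOn.diffContOnCl ?_
    exact (hd.mono hsub).mul hgd.differentiableOn
  have hfr : ∀ w ∈ frontier U, ‖φ w * g w‖ ≤ δ := by
    intro w hw
    rw [hU, Complex.frontier_reProdIm, frontier_Ioo (by norm_num : -(1 / 2 : ℝ) < 1 / 2),
      frontier_Ioo hr0, closure_Ioo (by norm_num), closure_Ioo (ne_of_lt hr0)] at hw
    rw [norm_mul, hgn w]
    rcases hw with hw | hw
    · rw [Complex.mem_reProdIm] at hw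
      obtain ⟨⟨h1, h2⟩, h3⟩ := hw
      rcases h3 with h3 | h3
      · -- bottom
        have hwr : w = ((w.re : ℝ) : ℂ) := by
          apply Complex.ext <;> simp [h3]
        have hφ : ‖φ w‖ ≤ δ := by
          rw [hwr]
          exact hR _ (abs_lt.2 ⟨by linarith, by linarith⟩)
        have he : Real.exp (-lam * (w.re ^ 2 - w.im ^ 2) - mu * w.im) ≤ 1 := by
          apply Real.exp_le_one_iff.2
          rw [h3]
          have : 0 ≤ lam * w.re ^ 2 := by positivity
          nlinarith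
        calc ‖φ w‖ * Real.exp (-lam * (w.re ^ 2 - w.im ^ 2) - mu * w.im) ≤ δ * 1 :=
              mul_le_mul hφ he (Real.exp_pos _).le hδ.le
          _ = δ := mul_one _
      · -- top
        have h3' : w.im = r := h3
        have hφ : ‖φ w‖ ≤ C := hC w ⟨abs_lt.2 ⟨by linarith, by linarith⟩,
          abs_lt.2 ⟨by linarith, by linarith⟩⟩
        have he : Real.exp (-lam * (w.re ^ 2 - w.im ^ 2) - mu * w.im) ≤ Real.exp (-(L - 1)) := by
          apply Real.exp_le_exp.2
          rw [h3', hmu]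
          have h5 : 0 ≤ lam * w.re ^ 2 := by positivity
          have h6 : L / r * r = L := by field_simp
          nlinarith
        calc ‖φ w‖ * Real.exp (-lam * (w.re ^ 2 - w.im ^ 2) - mu * w.im)
            ≤ C * Real.exp (-(L - 1)) := mul_le_mul hφ he (Real.exp_pos _).le hC0.le
          _ = δ := by
              rw [hCδ', mul_assoc, ← Real.exp_add]
              simp
    · -- sides
      rw [Complex.mem_reProdIm] at hw
      obtain ⟨h1, h3, h4⟩ := hw
      have hre : w.re ^ 2 = 1 / 4 := by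
        rcases h1 with h1 | h1
        · rw [h1]; norm_num
        · have h1' : w.re = 1 / 2 := h1
          rw [h1']; norm_num
      have hre' : |w.re| < 1 := by
        rw [← sq_lt_one_iff_abs_lt_one]
        rw [hre]; norm_num
      have hφ : ‖φ w‖ ≤ C := hC w ⟨hre', abs_lt.2 ⟨by linarith, by linarith⟩⟩
      have he : Real.exp (-lam * (w.re ^ 2 - w.im ^ 2) - mu * w.im) ≤ Real.exp (-(L - 1)) := by
        apply Real.exp_le_exp.2
        rw [hre]
        have h5 : w.im ^ 2 ≤ 1 / 16 := by nlinarith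
        have h6 : 0 ≤ mu * w.im := by positivity
        nlinarith
      calc ‖φ w‖ * Real.exp (-lam * (w.re ^ 2 - w.im ^ 2) - mu * w.im)
          ≤ C * Real.exp (-(L - 1)) := mul_le_mul hφ he (Real.exp_pos _).le hC0.le
        _ = δ := by
            rw [hCδ', mul_assoc, ← Real.exp_add]
            simp
  -- conclusion
  have hs : r / (2 * L) ≤ r := by
    rw [div_le_iff₀ (by positivity)]
    nlinarith
  have hre : |z.re| ≤ r / (2 * L) := (Complex.abs_re_le_norm z).trans hz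
  have him : |z.im| ≤ r / (2 * L) := (Complex.abs_im_le_norm z).trans hz
  have hzU : z ∈ closure U := by
    rw [hcl, Complex.mem_reProdIm]
    have h1 := abs_le.1 hre
    have h2 := abs_le.1 him
    exact ⟨⟨by linarith, by linarith⟩, hz0, by linarith⟩
  have hmain := Complex.norm_le_of_forall_mem_frontier_norm_le hUb hDC hfr hzU
  rw [norm_mul, hgn z] at hmain
  have hexp : -(2 : ℝ) ≤ -lam * (z.re ^ 2 - z.im ^ 2) - mu * z.im := by
    have h1 : z.re ^ 2 ≤ (r / (2 * L)) ^ 2 := by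
      rw [← sq_abs]
      exact pow_le_pow_left₀ (abs_nonneg _) hre 2
    have h2 : z.im ≤ r / (2 * L) := (le_abs_self _).trans him
    have h3 : lam * (r / (2 * L)) ^ 2 ≤ 1 := by
      rw [hlam]
      have : 6 * L * (r / (2 * L)) ^ 2 = 6 * r ^ 2 / (4 * L) := by
        field_simp
        ring
      rw [this, div_le_one (by positivity)]
      nlinarith
    have h4 : mu * (r / (2 * L)) ≤ 1 := by
      rw [hmu, hlam]
      have : (6 * L * r + L / r) * (r / (2 * L)) = (6 * r ^ 2 + 1) / 2 := by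
        field_simp
      rw [this, div_le_one (by norm_num)]
      nlinarith
    have h5 : lam * z.re ^ 2 ≤ lam * (r / (2 * L)) ^ 2 := mul_le_mul_of_nonneg_left h1 hlam0.le
    have h6 : mu * z.im ≤ mu * (r / (2 * L)) := mul_le_mul_of_nonneg_left h2 hmu0.le
    have h7 : 0 ≤ lam * z.im ^ 2 := by positivity
    nlinarith
  have h8 : Real.exp (-2) ≤ Real.exp (-lam * (z.re ^ 2 - z.im ^ 2) - mu * z.im) :=
    Real.exp_le_exp.2 hexp
  have h9 : ‖φ z‖ * Real.exp (-2) ≤ δ :=
    (mul_le_mul_of_nonneg_left h8 (norm_nonneg _)).trans hmain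
  calc ‖φ z‖ = Real.exp 2 * (‖φ z‖ * Real.exp (-2)) := by
        rw [mul_comm (‖φ z‖), ← mul_assoc, ← Real.exp_add]
        simp
    _ ≤ Real.exp 2 * δ := mul_le_mul_of_nonneg_left h9 (Real.exp_pos _).le

/-- Small disc bound. -/
theorem disc {ρ : ℝ} {r : ℝ} (hr0 : 0 < r) (hr : r ≤ 1 / 4) (hrρ : r < ρ)
    (φ : ℂ → ℂ) {C δ : ℝ} (hδ : 0 < δ) (hCδ : δ ≤ C)
    (hd : DifferentiableOn ℂ φ (rect ρ)) (hC : ∀ z ∈ rect ρ, ‖φ z‖ ≤ C)
    (hR : ∀ t : ℝ, |t| < 1 → ‖φ t‖ ≤ δ)
    {z : ℂ} (hz : ‖z‖ ≤ r / (2 * (1 + Real.log (C / δ)))) :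
    ‖φ z‖ ≤ Real.exp 2 * δ := by
  rcases le_total 0 z.im with h | h
  · exact upper hr0 hr hrρ φ hδ hCδ hd hC hR hz h
  · have hneg : ∀ w : ℂ, w ∈ rect ρ → -w ∈ rect ρ := by
      intro w hw
      simpa [rect] using hw
    have := upper (φ := fun w => φ (-w)) hr0 hr hrρ hδ hCδ
      (hd.comp (differentiable_neg.differentiableOn) hneg)
      (fun w hw => hC _ (hneg w hw))
      (fun t ht => by
        have := hR (-t) (by rwa [abs_neg])
        simpa using this)
      (z := -z) (by rwa [norm_neg]) (by simpa using h)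
    simpa using this

/-- **Two-constants lemma (C3)**, explicit form. -/
theorem deriv_le {ρ : ℝ} {r : ℝ} (hr0 : 0 < r) (hr : r ≤ 1 / 4) (hrρ : r < ρ)
    (φ : ℂ → ℂ) {C δ : ℝ} (hδ : 0 < δ) (hCδ : δ ≤ C)
    (hd : DifferentiableOn ℂ φ (rect ρ)) (hC : ∀ z ∈ rect ρ, ‖φ z‖ ≤ C)
    (hR : ∀ t : ℝ, |t| < 1 → ‖φ t‖ ≤ δ) :
    ‖deriv φ 0‖ ≤ 2 * Real.exp 2 / r * (1 + Real.log (C / δ)) * δ := by
  have hlog : 0 ≤ Real.log (C / δ) := Real.log_nonneg (by rw [le_div_iff₀ hδ]; linarith)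
  set L : ℝ := 1 + Real.log (C / δ) with hL
  have hL1 : 1 ≤ L := by linarith
  have hs0 : 0 < r / (2 * L) := by positivity
  have hs : r / (2 * L) ≤ r := by
    rw [div_le_iff₀ (by positivity)]
    nlinarith
  have hball : Metric.closedBall (0 : ℂ) (r / (2 * L)) ⊆ rect ρ := by
    intro w hw
    have hw' : ‖w‖ ≤ r / (2 * L) := by simpa using hw
    have h1 := (Complex.abs_re_le_norm w).trans hw'
    have h2 := (Complex.abs_im_le_norm w).trans hw'
    exact ⟨by linarith, by linarith⟩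
  have hdc : DiffContOnCl ℂ φ (Metric.ball 0 (r / (2 * L))) := by
    refine DifferentiableOn.diffContOnCl ?_
    refine hd.mono ?_
    rw [closure_ball _ hs0.ne']
    exact hball
  have := Complex.norm_deriv_le_of_forall_mem_sphere_norm_le hs0 hdc
    (C := Real.exp 2 * δ) (fun z hz => disc hr0 hr hrρ φ hδ hCδ hd hC hR (by
      have : ‖z‖ = r / (2 * L) := by simpa using hz
      rw [this]))
  refine this.trans (le_of_eq ?_)
  field_simp

/-- **Two-constants lemma (C3)**: `|phi'(0)| ≤ K(rho) (1 + log (C/delta)) delta`. -/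
theorem twoConst {ρ : ℝ} (hρ : 0 < ρ) : ∃ K : ℝ, 0 < K ∧ ∀ (φ : ℂ → ℂ) (C δ : ℝ),
    0 < δ → δ ≤ C → DifferentiableOn ℂ φ (rect ρ) → (∀ z ∈ rect ρ, ‖φ z‖ ≤ C) →
    (∀ t : ℝ, |t| < 1 → ‖φ t‖ ≤ δ) → ‖deriv φ 0‖ ≤ K * (1 + Real.log (C / δ)) * δ := by
  have hr0 : 0 < min (ρ / 2) (1 / 4) := lt_min (by linarith) (by norm_num)
  refine ⟨2 * Real.exp 2 / min (ρ / 2) (1 / 4), by positivity, ?_⟩
  intro φ C δ hδ hCδ hd hC hR
  exact deriv_le hr0 (min_le_right _ _)
    (lt_of_le_of_lt (min_le_left _ _) (by linarith)) φ hδ hCδ hd hC hR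

end Vale.Agent.P159.TM.H857
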